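import Vale.Agent.P166.Pattern.Limit

/-!
Patterns of several strengths: splitting of sites, block decomposition and Lipschitz dependence on
the numbers of patterns of each strength.
-/

open MeasureTheory ProbabilityTheory Filter
open scoped Topology

noncomputable section

namespace Vale.Agent.P166.Pattern.Multi

variable {ι : Type*} [Fintype ι] [DecidableEq ι]

omit [DecidableEq ι] in
lemma X_smul {a : ℝ} (ha : 0 ≤ a) (v g : ι → ℝ) (σ : ι → Bool) : X (a • v) g σ = √a * X v g σ := by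
  simp only [X, lin, co, Pi.smul_apply, smul_eq_mul, Real.sqrt_mul ha, Finset.mul_sum]
  exact Finset.sum_congr rfl fun i _ => by ring

lemma psi_smul {a : ℝ} (ha : 0 ≤ a) (b : ℝ) (w : (ι → Bool) → ℝ) (v : ι → ℝ) :
    psi b w (a • v) = psi (b * a) w v := by
  refine integral_congr_ae (.of_forall fun g => ?_)
  simp only [X_smul ha, mul_pow, Real.sq_sqrt ha]
  exact congrArg Real.log (Finset.sum_congr rfl fun σ _ => by ring_nf)

/-- splitting all patterns, each with its own strength -/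
theorem mixture {A : Type*} [Fintype A] {b : ℝ} (hb0 : 0 ≤ b) (hb : b ≤ 1 / 10)
    (lam : A → ℝ) (hl0 : ∀ a, 0 ≤ lam a) (hl1 : ∑ a, lam a = 1) (u : A → ι → ℝ)
    (hu : ∀ a, u a ∈ Simplex ι) :
    ∀ (M : ℕ) (c : Fin M → ℝ), (∀ k, c k ∈ Set.Icc (0:ℝ) 1) →
      ∀ w : (ι → Bool) → ℝ, (∀ σ, 0 < w σ) →
      ∑ s : Fin M → A, (∏ k, lam (s k)) * Fw b w (fun k => c k • u (s k)) ≤
        Fw b w (fun k => c k • ∑ a, lam a • u a) := by
  intro M
  induction M with
  | zero =>
    intro c _ w hw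
    simp [Fw, Lw, en]
  | succ M ih =>
    intro c hc01 w hw
    obtain ⟨c0, c, rfl⟩ : ∃ c0 c', c = Fin.cons c0 c' := ⟨c 0, Fin.tail c, (Fin.cons_self_tail c).symm⟩
    have hc0 : c0 ∈ Set.Icc (0:ℝ) 1 := by simpa using hc01 0
    have hcs : ∀ k, c k ∈ Set.Icc (0:ℝ) 1 := fun k => by simpa using hc01 k.succ
    set mix := ∑ a, lam a • u a with hmix
    have hw' : ∀ g0 σ, 0 < w σ * Real.exp (b / 2 * X (c0 • mix) g0 σ ^ 2) := fun g0 σ =>
      mul_pos (hw σ) (Real.exp_pos _)
    rw [show (fun k : Fin (M + 1) => (Fin.cons c0 c : Fin (M + 1) → ℝ) k • mix) =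
        Fin.cons (c0 • mix) (fun k : Fin M => c k • mix) by
      funext k; refine Fin.cases ?_ (fun j => ?_) k <;> simp, (Fw_cons hb0 hw (c0 • mix) _).1]
    refine le_trans ?_ (integral_mono (integrable_finsetSum _ fun s _ =>
      (Fw_cons hb0 hw (c0 • mix) fun k => c k • u (s k)).2.2.1.const_mul (∏ k, lam (s k)))
      (Fw_cons hb0 hw (c0 • mix) _).2.2.1 fun g0 => ih c hcs _ (hw' g0))
    rw [integral_finsetSum _ fun s _ => (Fw_cons hb0 hw (c0 • mix) fun k => c k • u (s k)).2.2.1.const_mul _]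
    simp only [integral_const_mul]
    rw [← (Fin.consEquiv fun _ : Fin (M + 1) => A).sum_comp, Fintype.sum_prod_type, Finset.sum_comm]
    refine Finset.sum_le_sum fun s _ => ?_
    simp only [Fin.consEquiv_apply, Fin.prod_univ_succ, Fin.cons_zero, Fin.cons_succ]
    have hc : ∀ a, (fun k : Fin (M + 1) => (Fin.cons c0 c : Fin (M + 1) → ℝ) k • u (Fin.cons (α := fun _ => A) a s k)) =
        Fin.cons (c0 • u a) (fun k => c k • u (s k)) := fun a => by
      funext k; refine Fin.cases ?_ (fun j => ?_) k <;> simp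
    have hwe : ∀ g σ, 0 < w σ * Real.exp (en b (fun k => c k • u (s k)) g σ) := fun g σ =>
      mul_pos (hw σ) (Real.exp_pos _)
    rw [show ∫ g0, Fw b (fun σ => w σ * Real.exp (b / 2 * X (c0 • mix) g0 σ ^ 2)) (fun k => c k • u (s k)) ∂gauss ι =
      ∫ g, psi b (fun σ => w σ * Real.exp (en b (fun k => c k • u (s k)) g σ)) (c0 • mix) ∂pats ι M from
        (Fw_cons hb0 hw (c0 • mix) _).1.symm.trans (Fw_cons hb0 hw (c0 • mix) _).2.1]
    simp only [hc, fun a => (Fw_cons hb0 hw (c0 • u a) (fun k => c k • u (s k))).2.1, mul_comm (lam _),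
      mul_assoc, ← Finset.mul_sum]
    refine mul_le_mul_of_nonneg_left ?_ (Finset.prod_nonneg fun k _ => hl0 _)
    simp only [← integral_mul_const]
    rw [← integral_finsetSum _ fun a _ => (Fw_cons hb0 hw (c0 • u a) _).2.2.2.mul_const _]
    refine integral_mono (integrable_finsetSum _ fun a _ => (Fw_cons hb0 hw (c0 • u a) _).2.2.2.mul_const _)
      (Fw_cons hb0 hw (c0 • mix) _).2.2.2 fun g => ?_
    have := (concaveOn_psi (b := b * c0) (mul_nonneg hb0 hc0.1)
      ((mul_le_of_le_one_right hb0 hc0.2).trans hb) (hwe g)).le_map_sum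
      (t := Finset.univ) (fun a _ => hl0 a) hl1 (fun a _ => hu a)
    simpa [hmix, psi_smul hc0.1, smul_eq_mul, mul_comm] using this

variable {r : ℕ}

/-- mean log partition function, pattern `k` having strength `a (t k)` -/
def fT (b : ℝ) (a : Fin r → ℝ) (n : ℕ) {M : ℕ} (t : Fin M → Fin r) : ℝ :=
  Fw b (w0 (Fin n)) (fun k => a (t k) • unif (Fin n))

/-- a canonical assignment of strengths with given counts -/
def can (k : Fin r → ℕ) : Fin (∑ j, k j) → Fin r := fun i => (finSigmaFinEquiv.symm i).1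

/-- mean log partition function with given counts -/
def fC (b : ℝ) (a : Fin r → ℝ) (n : ℕ) (k : Fin r → ℕ) : ℝ := fT b a n (can k)

lemma cnt_can (k : Fin r → ℕ) (j : Fin r) : cnt (can k) j = k j := by
  classical
  rw [cnt]
  let e : {i : Fin (∑ j, k j) // can k i = j} ≃ Fin (k j) :=
    (finSigmaFinEquiv.symm.subtypeEquiv (q := fun x : Σ j, Fin (k j) => x.1 = j) fun i => Iff.rfl).trans
      (Equiv.sigmaSubtype j)
  rw [← Fintype.card_subtype, Fintype.card_congr e, Fintype.card_fin]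

lemma fT_congr (b : ℝ) (a : Fin r → ℝ) (n : ℕ) {M M' : ℕ} (t : Fin M → Fin r) (t' : Fin M' → Fin r)
    (h : ∀ j, cnt t j = cnt t' j) : fT b a n t = fT b a n t' := by
  classical
  have he : ∀ j, Nonempty ({i // t i = j} ≃ {i // t' i = j}) := fun j => ⟨Fintype.equivOfCardEq (by
    simp only [Fintype.card_subtype]; exact h j)⟩
  set e : Fin M ≃ Fin M' := Equiv.ofFiberEquiv fun j => (he j).some
  have ht : ∀ i, t' (e i) = t i := fun i => Equiv.ofFiberEquiv_map _ i
  have hmp : MeasurePreserving (fun g : Fin M' → Fin n → ℝ => fun j i => g (e j) i)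
      (pats (Fin n) M') (pats (Fin n) M) := mp_restrict e.injective (fun _ _ h => h)
  rw [fT, fT, Fw, Fw, ← hmp.map_eq, integral_map hmp.measurable.aemeasurable
    (continuous_Lw b w0_pos _).aestronglyMeasurable]
  refine integral_congr_ae (.of_forall fun g => ?_)
  simp only [Lw, en]
  congr 1
  refine Finset.sum_congr rfl fun σ _ => ?_
  congr 2
  exact Fintype.sum_equiv e _ _ fun i => by rw [ht]

lemma fT_eq (b : ℝ) (a : Fin r → ℝ) (n : ℕ) {M : ℕ} (t : Fin M → Fin r) :
    fT b a n t = fC b a n (cnt t) := fT_congr b a n t _ fun j => (cnt_can _ j).symm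

lemma cnt_cons {M : ℕ} (j0 : Fin r) (t : Fin M → Fin r) (j : Fin r) :
    cnt (Fin.cons (α := fun _ => Fin r) j0 t) j = (if j0 = j then 1 else 0) + cnt t j := by
  simp only [cnt, Finset.card_filter, Fin.sum_univ_succ, Fin.cons_zero, Fin.cons_succ]

lemma cb_mono {x y : ℝ} (hxy : x ≤ y) (hy : y < 1) : cb x ≤ cb y := by
  simp only [cb]
  refine sub_le_sub_right (inv_anti₀ (Real.sqrt_pos.2 (by linarith)) (Real.sqrt_le_sqrt (by linarith))) _

lemma fC_succ {b : ℝ} (hb0 : 0 ≤ b) (hb : b ≤ 1 / 10) {a : Fin r → ℝ} (ha : ∀ j, a j ∈ Set.Icc (0:ℝ) 1)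
    {n : ℕ} (hn : 0 < n) (k : Fin r → ℕ) (j0 : Fin r) :
    fC b a n k ≤ fC b a n (k + Pi.single j0 1) ∧ fC b a n (k + Pi.single j0 1) ≤ fC b a n k + cb (1 / 10) := by
  set v := unif (Fin n)
  have hv : v ∈ Simplex (Fin n) := unif_mem (by simpa using hn)
  set t := Fin.cons (α := fun _ => Fin r) j0 (can k)
  have ht : ∀ j, cnt t j = (k + Pi.single j0 1 : Fin r → ℕ) j := fun j => by
    simp only [t, cnt_cons, cnt_can, Pi.add_apply, Pi.single_apply]
    by_cases h : j0 = j
    · subst h; simp [add_comm]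
    · simp [h, Ne.symm h]
  have e0 : fT b a n t = fC b a n (k + Pi.single j0 1) := fT_congr b a n t _ fun j => by rw [ht, cnt_can]
  have hc : (fun i => a (t i) • v) = Fin.cons (a j0 • v) (fun i => a (can k i) • v) := by
    funext i; refine Fin.cases ?_ (fun i => ?_) i <;> simp [t]
  have h := Fw_cons hb0 (w := w0 (Fin n)) w0_pos (a j0 • v) (fun i => a (can k i) • v)
  have hba : b * a j0 ≤ 1 / 10 := (mul_le_of_le_one_right hb0 (ha j0).2).trans hb
  have hp := fun g : Fin (∑ j, k j) → Fin n → ℝ =>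
    psi_bounds (b := b * a j0) (mul_nonneg hb0 (ha j0).1) (by linarith)
      (fun σ => mul_pos (w0_pos σ) (Real.exp_pos (en b (fun i => a (can k i) • v) g σ))) hv
  have hL : Integrable (fun g => Real.log (∑ σ, w0 (Fin n) σ * Real.exp (en b (fun i => a (can k i) • v) g σ)))
      (pats (Fin n) (∑ j, k j)) := integrable_Lw hb0 w0_pos _
  have e : fC b a n (k + Pi.single j0 1) = ∫ g, psi b
      (fun σ => w0 (Fin n) σ * Real.exp (en b (fun i => a (can k i) • v) g σ)) (a j0 • v) ∂pats (Fin n) (∑ j, k j) := by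
    rw [← e0, fT, hc]; exact h.2.1
  rw [e]
  simp only [psi_smul (ha j0).1] at h ⊢
  refine ⟨integral_mono hL h.2.2.2 fun g => (hp g).1, ?_⟩
  have hcb := cb_mono hba (by norm_num)
  refine (integral_mono h.2.2.2 (hL.add (integrable_const (cb (1 / 10)))) fun g =>
    (hp g).2.trans (add_le_add le_rfl hcb)).trans (le_of_eq ?_)
  simp only [Pi.add_apply]
  rw [integral_add hL (integrable_const _)]
  simp [fC, fT, Fw, Lw, v]

lemma fC_nonneg {b : ℝ} (hb0 : 0 ≤ b) (a : Fin r → ℝ) (n : ℕ) (k : Fin r → ℕ) : 0 ≤ fC b a n k := by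
  refine integral_nonneg fun g => ?_
  have := (Lw_bounds hb0 (w0_pos (ι := Fin n)) (fun i => a (can k i) • unif (Fin n)) g).1
  rwa [sum_w0, Real.log_one] at this

lemma fC_zero (b : ℝ) (a : Fin r → ℝ) (n : ℕ) : fC b a n 0 = 0 := by
  have h := fT_congr b a n (can (0 : Fin r → ℕ)) (Fin.elim0 : Fin 0 → Fin r) fun j => by
    rw [cnt_can]; simp [cnt]
  rw [fC, h]
  simp [fT, Fw, Lw, en, sum_w0]

lemma fC_add {b : ℝ} (hb0 : 0 ≤ b) (hb : b ≤ 1 / 10) {a : Fin r → ℝ} (ha : ∀ j, a j ∈ Set.Icc (0:ℝ) 1)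
    {n : ℕ} (hn : 0 < n) (k : Fin r → ℕ) :
    ∀ (m : ℕ) (d : Fin r → ℕ), ∑ j, d j = m →
      fC b a n k ≤ fC b a n (k + d) ∧ fC b a n (k + d) ≤ fC b a n k + m * cb (1 / 10) := by
  intro m
  induction m with
  | zero =>
    intro d hd
    have : d = 0 := funext fun j => Finset.sum_eq_zero_iff.1 hd j (Finset.mem_univ j)
    simp [this]
  | succ m ih =>
    intro d hd
    obtain ⟨j0, -, hj0⟩ := Finset.exists_ne_zero_of_sum_ne_zero (s := Finset.univ) (f := d) (by omega)
    set d' := Function.update d j0 (d j0 - 1)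
    have hdd : d = d' + Pi.single j0 1 := by
      funext j
      by_cases h : j = j0
      · subst h; simp [d']; omega
      · simp [d', h]
    have hm : ∑ j, d' j = m := by
      have := congrArg (fun f : Fin r → ℕ => ∑ j, f j) hdd
      simp only [Pi.add_apply, Finset.sum_add_distrib, Finset.sum_pi_single', Finset.mem_univ, if_true] at this
      omega
    obtain ⟨h1, h2⟩ := ih d' hm
    obtain ⟨h3, h4⟩ := fC_succ hb0 hb ha hn (k + d') j0
    rw [hdd, ← add_assoc]
    push_cast
    constructor <;> linarith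

lemma fC_lip {b : ℝ} (hb0 : 0 ≤ b) (hb : b ≤ 1 / 10) {a : Fin r → ℝ} (ha : ∀ j, a j ∈ Set.Icc (0:ℝ) 1)
    {n : ℕ} (hn : 0 < n) (k k' : Fin r → ℕ) :
    fC b a n k - cb (1 / 10) * ∑ j, |(k' j : ℝ) - k j| ≤ fC b a n k' := by
  set K : Fin r → ℕ := fun j => max (k j) (k' j)
  have hsum : ((∑ j, (K j - k' j) : ℕ) : ℝ) ≤ ∑ j, |(k' j : ℝ) - k j| := by
    push_cast
    refine Finset.sum_le_sum fun j _ => ?_
    rcases le_total (k j) (k' j) with h | h
    · simp [K, max_eq_right h]
    · simp only [K, max_eq_left h, Nat.cast_sub h]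
      rw [abs_sub_comm]
      exact le_abs_self _
  obtain ⟨h1, -⟩ := fC_add hb0 hb ha hn k _ (fun j => K j - k j) rfl
  obtain ⟨-, h2⟩ := fC_add hb0 hb ha hn k' _ (fun j => K j - k' j) rfl
  rw [show k + (fun j => K j - k j) = K from funext fun j => by simp [K]] at h1
  rw [show k' + (fun j => K j - k' j) = K from funext fun j => by simp [K]] at h2
  have hc := cb_nonneg (b := 1 / 10) (by norm_num) (by norm_num)
  nlinarith [mul_le_mul_of_nonneg_left hsum hc]

lemma fC_le {b : ℝ} (hb0 : 0 ≤ b) (hb : b ≤ 1 / 10) {a : Fin r → ℝ} (ha : ∀ j, a j ∈ Set.Icc (0:ℝ) 1)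
    {n : ℕ} (hn : 0 < n) (k : Fin r → ℕ) : fC b a n k ≤ ((∑ j, k j : ℕ) : ℝ) * cb (1 / 10) := by
  have := (fC_add hb0 hb ha hn 0 _ k rfl).2
  simpa [fC_zero] using this

section blocks

variable {A : Type*} [Fintype A] [DecidableEq A]

/-- patterns of strength `j` assigned to `c` -/
def cnt2 {M : ℕ} (t : Fin M → Fin r) (s : Fin M → A) (c : A) (j : Fin r) : ℕ :=
  (Finset.univ.filter fun k => s k = c ∧ t k = j).card

lemma Fw_blocks {b : ℝ} (hb0 : 0 ≤ b) {a : Fin r → ℝ} (n : A → ℕ) {M : ℕ} (t : Fin M → Fin r)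
    (s : Fin M → A) :
    Fw b (w0 (Σ c, Fin (n c))) (fun k => a (t k) • ub n (s k)) = ∑ c, fC b a (n c) (cnt2 t s c) := by
  classical
  set e : ∀ c, Fin (cnt s c) → Fin M := fun c => (Finset.univ.filter fun k => s k = c).orderEmbOfFin rfl
  have he : ∀ c, Function.Injective (e c) := fun c => ((Finset.univ.filter fun k => s k = c).orderEmbOfFin rfl).injective
  set R : ∀ c, (Fin M → (Σ c, Fin (n c)) → ℝ) → Fin (cnt s c) → Fin (n c) → ℝ :=
    fun c g j i => g (e c j) ⟨c, i⟩
  have hmp : ∀ c, MeasurePreserving (R c) (pats (Σ c, Fin (n c)) M) (pats (Fin (n c)) (cnt s c)) := fun c =>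
    mp_restrict (he c) fun i j h => by simpa using h
  have key : ∀ g, Lw b (w0 (Σ c, Fin (n c))) (fun k => a (t k) • ub n (s k)) g =
      ∑ c, Lw b (w0 (Fin (n c))) (fun k => a (t (e c k)) • unif (Fin (n c))) (R c g) := by
    intro g
    simp only [Lw]
    rw [← Real.log_prod (fun c _ => (sum_w_pos (w0_pos (ι := Fin (n c))) _).ne')]
    congr 1
    rw [Fintype.prod_sum]
    refine Fintype.sum_equiv (Equiv.piCurry fun c (_ : Fin (n c)) => Bool) _ _ fun σ => ?_
    rw [Finset.prod_mul_distrib, ← Real.exp_sum]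
    congr 1
    · simp only [w0]
      rw [Finset.prod_inv_distrib, Finset.prod_pow_eq_pow_sum, Fintype.card_sigma]
    · congr 1
      simp only [en]
      rw [← Finset.sum_fiberwise Finset.univ s]
      refine Finset.sum_congr rfl fun c _ => ?_
      conv_lhs => rw [← Finset.map_orderEmbOfFin_univ (Finset.univ.filter fun k => s k = c) rfl, Finset.sum_map]
      refine Finset.sum_congr rfl fun j _ => ?_
      have hs : s (e c j) = c := (Finset.mem_filter.1 (Finset.orderEmbOfFin_mem _ rfl j)).2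
      have hx : X (a (t (e c j)) • ub n (s (e c j))) (g (e c j)) σ =
          X (a (t (e c j)) • unif (Fin (n c))) (R c g j) (fun i => σ ⟨c, i⟩) := by
        rw [hs]
        simp only [X, lin, co, R, Pi.smul_apply, smul_eq_mul]
        rw [Fintype.sum_sigma, Finset.sum_eq_single c]
        · simp [ub, unif]
        · intro c' _ h; simp [ub, h]
        · simp
      change b / 2 * X (a (t (e c j)) • ub n (s (e c j))) (g (e c j)) σ ^ 2 = _
      rw [hx]; rfl
  have hint : ∀ c, Integrable (fun g => Lw b (w0 (Fin (n c))) (fun k => a (t (e c k)) • unif (Fin (n c))) (R c g))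
      (pats (Σ c, Fin (n c)) M) := fun c =>
    ((hmp c).integrable_comp (continuous_Lw b w0_pos _).aestronglyMeasurable).2 (integrable_Lw hb0 w0_pos _)
  have hcnt : ∀ c j, cnt (t ∘ e c) j = cnt2 t s c j := fun c j => by
    rw [cnt, cnt2]
    refine (Finset.card_map (f := (⟨e c, he c⟩ : Fin (cnt s c) ↪ Fin M))).symm.trans (congrArg Finset.card ?_)
    ext k
    simp only [Finset.mem_map, Finset.mem_filter, Finset.mem_univ, true_and, Function.comp,
      Function.Embedding.coeFn_mk]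
    constructor
    · rintro ⟨i, hi, rfl⟩
      exact ⟨(Finset.mem_filter.1 (Finset.orderEmbOfFin_mem _ rfl i)).2, hi⟩
    · rintro ⟨h1, h2⟩
      obtain ⟨i, hi⟩ : k ∈ Set.range ((Finset.univ.filter fun k => s k = c).orderEmbOfFin rfl) := by
        rw [Finset.range_orderEmbOfFin]; simp [h1]
      refine ⟨i, ?_, hi⟩
      simp only [e]; rw [hi]; exact h2
  simp only [Fw, key]
  rw [integral_finsetSum _ fun c _ => hint c]
  refine Finset.sum_congr rfl fun c _ => ?_
  rw [← show fT b a (n c) (t ∘ e c) = fC b a (n c) (cnt2 t s c) by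
    rw [fT_eq]; congr 1; funext j; exact hcnt c j]
  rw [fT, Fw, ← (hmp c).map_eq, integral_map (hmp c).measurable.aemeasurable
    (continuous_Lw b w0_pos _).aestronglyMeasurable]
  rfl

/-- first two moments of the number of selected patterns sent to one block -/
lemma moments2 (lam : A → ℝ) (hl0 : ∀ c, 0 ≤ lam c) (hl : ∑ c, lam c = 1) (c : A) : ∀ {M : ℕ} (T : Finset (Fin M)),
    (∑ s : Fin M → A, ∏ k, lam (s k) = 1) ∧
    (∑ s : Fin M → A, (∏ k, lam (s k)) * ((((T.filter fun k => s k = c).card : ℕ) : ℝ) - lam c * T.card) = 0) ∧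
    (∑ s : Fin M → A, (∏ k, lam (s k)) * ((((T.filter fun k => s k = c).card : ℕ) : ℝ) - lam c * T.card) ^ 2 ≤
      lam c * T.card) := by
  intro M T
  have hM : ∑ s : Fin M → A, ∏ k, lam (s k) = 1 := by
    rw [← Fintype.prod_sum]; simp [hl]
  set I := fun (s : Fin M → A) (k : Fin M) => (if s k = c then (1:ℝ) else 0) - lam c
  have hI : ∀ s : Fin M → A, (((T.filter fun k => s k = c).card : ℕ) : ℝ) - lam c * T.card = ∑ k ∈ T, I s k := by
    intro s
    simp only [I, Finset.sum_sub_distrib, Finset.sum_boole, Finset.sum_const, nsmul_eq_mul]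
    ring
  have h1 : ∀ k, ∑ s : Fin M → A, (∏ i, lam (s i)) * I s k = 0 := by
    intro k
    have e : ∀ s : Fin M → A, (∏ i, lam (s i)) * I s k =
        ∏ i, lam (s i) * (if i = k then (if s i = c then (1:ℝ) else 0) - lam c else 1) := fun s => by
      rw [Finset.prod_mul_distrib, Finset.prod_ite_eq']; simp [I]
    simp only [e]
    rw [← Fintype.prod_sum (f := fun i x => lam x * (if i = k then (if x = c then (1:ℝ) else 0) - lam c else 1))]
    refine Finset.prod_eq_zero (Finset.mem_univ k) ?_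
    simp [mul_sub, Finset.sum_sub_distrib, ← Finset.sum_mul, hl]
  have h2 : ∀ k l, ∑ s : Fin M → A, (∏ i, lam (s i)) * (I s k * I s l) ≤ if k = l then lam c else 0 := by
    intro k l
    by_cases hkl : k = l
    · subst hkl
      rw [if_pos rfl]
      have e : ∀ s : Fin M → A, (∏ i, lam (s i)) * (I s k * I s k) =
          ∏ i, lam (s i) * (if i = k then ((if s i = c then (1:ℝ) else 0) - lam c) ^ 2 else 1) := fun s => by
        rw [Finset.prod_mul_distrib, Finset.prod_ite_eq']; simp [I, sq]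
      simp only [e]
      rw [← Fintype.prod_sum (f := fun i x => lam x * (if i = k then ((if x = c then (1:ℝ) else 0) - lam c) ^ 2 else 1)),
        Finset.prod_eq_single k]
      · rw [show ∑ x, lam x * (if k = k then ((if x = c then (1:ℝ) else 0) - lam c) ^ 2 else 1) =
          ∑ x, ((if x = c then lam x * (1 - 2 * lam c) else 0) + lam x * lam c ^ 2) from
            Finset.sum_congr rfl fun x _ => by rw [if_pos rfl]; split <;> ring,
          Finset.sum_add_distrib, Finset.sum_ite_eq', ← Finset.sum_mul, hl]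
        simp only [Finset.mem_univ, if_true]
        nlinarith [sq_nonneg (lam c)]
      · intro i _ hi; simp [hi, hl]
      · simp
    · rw [if_neg hkl]
      refine le_of_eq ?_
      have e : ∀ s : Fin M → A, (∏ i, lam (s i)) * (I s k * I s l) =
          ∏ i, lam (s i) * ((if i = k then (if s i = c then (1:ℝ) else 0) - lam c else 1) *
            (if i = l then (if s i = c then (1:ℝ) else 0) - lam c else 1)) := fun s => by
        rw [Finset.prod_mul_distrib, Finset.prod_mul_distrib, Finset.prod_ite_eq', Finset.prod_ite_eq']; simp [I]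
      simp only [e]
      rw [← Fintype.prod_sum (f := fun i x => lam x * ((if i = k then (if x = c then (1:ℝ) else 0) - lam c else 1) *
            (if i = l then (if x = c then (1:ℝ) else 0) - lam c else 1)))]
      refine Finset.prod_eq_zero (Finset.mem_univ k) ?_
      simp [hkl, mul_sub, Finset.sum_sub_distrib, ← Finset.sum_mul, hl]
  refine ⟨hM, ?_, ?_⟩
  · simp only [hI, Finset.mul_sum]
    rw [Finset.sum_comm]
    exact Finset.sum_eq_zero fun k _ => h1 k
  · have e : ∀ s : Fin M → A, (∏ i, lam (s i)) * (∑ k ∈ T, I s k) ^ 2 =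
        ∑ k ∈ T, ∑ l ∈ T, (∏ i, lam (s i)) * (I s k * I s l) := fun s => by
      rw [sq, Finset.sum_mul_sum]
      simp only [Finset.mul_sum]
    simp only [hI, e]
    rw [Finset.sum_comm, Finset.sum_congr rfl fun k _ => Finset.sum_comm]
    refine (Finset.sum_le_sum fun k _ => Finset.sum_le_sum fun l _ => h2 k l).trans (le_of_eq ?_)
    simp [Finset.sum_ite_eq, mul_comm]

theorem superadd {b : ℝ} (hb0 : 0 ≤ b) (hb : b ≤ 1 / 10) {a : Fin r → ℝ} (ha : ∀ j, a j ∈ Set.Icc (0:ℝ) 1)
    (n : A → ℕ) (hn : ∀ c, 0 < n c) {M : ℕ} (t : Fin M → Fin r) [Nonempty A] :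
    ∑ s : Fin M → A, (∏ k, (n (s k) : ℝ) / (∑ c, n c : ℕ)) * ∑ c, fC b a (n c) (cnt2 t s c) ≤
      fT b a (∑ c, n c) t := by
  set ι' := Σ c, Fin (n c)
  have hc : Fintype.card ι' = ∑ c, n c := by simp [ι', Fintype.card_sigma]
  have hN : (0:ℝ) < ((∑ c, n c : ℕ) : ℝ) := by
    exact_mod_cast Finset.sum_pos (fun c _ => hn c) Finset.univ_nonempty
  have hsum : ∑ c, (n c : ℝ) / ((∑ c, n c : ℕ) : ℝ) = 1 := by
    rw [← Finset.sum_div, ← Nat.cast_sum, div_self hN.ne']
  have h := mixture hb0 hb (fun c => (n c : ℝ) / ((∑ c, n c : ℕ) : ℝ)) (fun c => by positivity) hsum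
    (ub n) (ub_mem hn) M (fun k => a (t k)) (fun k => ha _) (w0 ι') w0_pos
  simp only [ι', Fw_blocks hb0] at h
  refine h.trans (le_of_eq ?_)
  have hmix : ∑ c, ((n c : ℝ) / ((∑ c, n c : ℕ) : ℝ)) • ub n c = unif ι' := by
    funext i
    simp only [Finset.sum_apply, Pi.smul_apply, smul_eq_mul, ub, mul_ite, mul_zero, Finset.sum_ite_eq,
      Finset.mem_univ, if_true, unif, hc]
    have : (n i.1 : ℝ) ≠ 0 := by exact_mod_cast (hn i.1).ne'
    field_simp
  rw [hmix]
  set e : Fin (∑ c, n c) ≃ ι' := (Fintype.equivFinOfCardEq hc).symm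
  have hmp : MeasurePreserving (fun g : Fin M → ι' → ℝ => fun j i => g j (e i)) (pats ι' M)
      (pats (Fin (∑ c, n c)) M) := mp_restrict (fun _ _ h => h) e.injective
  rw [fT, Fw, Fw, ← hmp.map_eq, integral_map hmp.measurable.aemeasurable
    (continuous_Lw b w0_pos _).aestronglyMeasurable]
  refine integral_congr_ae (.of_forall fun g => ?_)
  simp only [Lw]
  congr 1
  refine Fintype.sum_equiv (e.arrowCongr (Equiv.refl Bool)).symm _ _ fun σ => ?_
  have hx : ∀ k, X (a (t k) • unif ι') (g k) σ =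
      X (a (t k) • unif (Fin (∑ c, n c))) (fun i => g k (e i)) fun i => σ (e i) := fun k => by
    simp only [X, lin, co, unif, hc, Fintype.card_fin, Pi.smul_apply]
    exact (Fintype.sum_equiv e _ _ fun i => rfl).symm
  simp only [en, hx, w0, Fintype.card_fin]
  rw [show Fintype.card (Σ c, Fin (n c)) = ∑ c, n c from hc]
  rfl

end blocks

end Vale.Agent.P166.Pattern.Multi
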