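import Vale.Agent.P166.Pattern.Multi.Limit
import Vale.Agent.P166.Pattern.Link

/-!
From the pattern model with several strengths to rotated diagonal couplings.
-/

open MeasureTheory ProbabilityTheory Filter Matrix
open scoped Topology

noncomputable section

namespace Vale.Agent.P166.Pattern.Multi

variable {ι : Type*} [Fintype ι] [DecidableEq ι]

/-- the variance of the log partition function is at most linear in the number of patterns -/
theorem var_Lw {b : ℝ} (hb0 : 0 ≤ b) (hb : b < 1 / 2) {w : (ι → Bool) → ℝ} (hw : ∀ σ, 0 < w σ) (M : ℕ)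
    (c : Fin M → ℝ) (hc : ∀ k, c k ∈ Set.Icc (0:ℝ) 1) {v : ι → ℝ} (hv : v ∈ Simplex ι) :
    ∫ g, (Lw b w (fun k => c k • v) g - Fw b w fun k => c k • v) ^ 2 ∂pats ι M ≤
      M * (√(1 - 2 * b))⁻¹ := by
  set F := Lw b w (fun k => c k • v)
  set R := fun (k : Fin M) (g : Fin M → ι → ℝ) (σ : ι → Bool) =>
    ∑ j ∈ Finset.univ.erase k, b / 2 * X (c j • v) (g j) σ ^ 2
  set Fk := fun k g => Real.log (∑ σ, w σ * Real.exp (R k g σ))
  have hF := good_Lw hb0 hw (fun k => c k • v)
  have hR0 : ∀ k g σ, 0 ≤ R k g σ := fun k g σ => Finset.sum_nonneg fun j _ => by positivity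
  have hRle : ∀ k g σ, en b (fun k => c k • v) g σ = b / 2 * X (c k • v) (g k) σ ^ 2 + R k g σ := fun k g σ =>
    (Finset.add_sum_erase _ _ (Finset.mem_univ k)).symm
  have hW : 0 < ∑ σ, w σ := Finset.sum_pos (fun σ _ => hw σ) Finset.univ_nonempty
  have hFk : ∀ k, Good (Fk k) := fun k => by
    have hc : Continuous (Fk k) := by
      refine Continuous.log (continuous_finsetSum _ fun σ _ => continuous_const.mul (Real.continuous_exp.comp ?_))
        fun g => (sum_w_pos hw _).ne'
      exact continuous_finsetSum _ fun j _ => continuous_const.mul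
        (((continuous_X _ σ).comp (continuous_apply j)).pow 2)
    refine ⟨hc.measurable, (hF.2.abs.add (Poly.const |Real.log (∑ σ, w σ)|)).mono fun g => ?_⟩
    have l1 : Real.log (∑ σ, w σ) ≤ Fk k g :=
      Real.log_le_log hW (Finset.sum_le_sum fun σ _ => le_mul_of_one_le_right (hw σ).le (Real.one_le_exp (hR0 k g σ)))
    have l2 : Fk k g ≤ F g :=
      Real.log_le_log (sum_w_pos hw _) (Finset.sum_le_sum fun σ _ => mul_le_mul_of_nonneg_left
        (Real.exp_le_exp.2 (by rw [hRle k g σ]; exact le_add_of_nonneg_left (by positivity))) (hw σ).le)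
    rw [abs_of_nonneg (a := |F g| + |Real.log (∑ σ, w σ)|) (by positivity), abs_le]
    constructor <;> linarith [neg_abs_le (Real.log (∑ σ, w σ)), le_abs_self (F g),
      abs_nonneg (F g), abs_nonneg (Real.log (∑ σ, w σ))]
  have hRu : ∀ k g y σ, R k (Function.update g k y) σ = R k g σ := fun k g y σ =>
    Finset.sum_congr rfl fun j hj => by rw [Function.update_of_ne (Finset.ne_of_mem_erase hj)]
  have hup : ∀ k g y, Fk k (Function.update g k y) = Fk k g := fun k g y => by simp only [Fk, hRu]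
  have hu : ∀ σ, ∑ i, co v σ i ^ 2 = 1 := fun σ => by
    rw [← cov_co_self hv σ]; exact Finset.sum_congr rfl fun i _ => sq _
  have hi : ∀ σ, Integrable (fun y => Real.exp (b * X v y σ ^ 2)) (gauss ι) := fun σ =>
    integrable_linear (co v σ) (hu σ) (F := fun t => Real.exp (b * t ^ 2)) (integrable_exp_sq hb)
  have hC : ∀ k, ∫ g, (F g - Fk k g) * (F g - Fk k g) ∂pats ι M ≤ (√(1 - 2 * b))⁻¹ := by
    intro k
    have hd := good_sub hF (hFk k)
    have hdd := good_mul hd hd
    have h := mp_update (ι := ι) k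
    conv_lhs => rw [← h.map_eq, integral_map h.measurable.aemeasurable hdd.1.aestronglyMeasurable]
    have hint : Integrable (fun p : (Fin M → ι → ℝ) × (ι → ℝ) =>
        (F (Function.update p.1 k p.2) - Fk k (Function.update p.1 k p.2)) *
        (F (Function.update p.1 k p.2) - Fk k (Function.update p.1 k p.2))) ((pats ι M).prod (gauss ι)) :=
      (h.integrable_comp hdd.1.aestronglyMeasurable).2 (integrable_pats hdd)
    rw [integral_prod _ hint]
    refine (integral_mono hint.integral_prod_left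
      (integrable_const ((√(1 - 2 * b))⁻¹)) fun g => ?_).trans (le_of_eq (by simp))
    set S := ∑ σ, w σ * Real.exp (R k g σ)
    have hS : 0 < S := sum_w_pos hw _
    have hpt : ∀ y, (F (Function.update g k y) - Fk k (Function.update g k y)) *
        (F (Function.update g k y) - Fk k (Function.update g k y)) ≤
          ∑ σ, w σ * Real.exp (R k g σ) / S * Real.exp (b * X v y σ ^ 2) := by
      intro y
      rw [hup]
      set p := fun σ => w σ * Real.exp (R k g σ) / S
      have hp : ∀ σ, 0 ≤ p σ := fun σ => div_nonneg (mul_nonneg (hw σ).le (Real.exp_pos _).le) hS.le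
      have hp1 : ∑ σ, p σ = 1 := by simp only [p, ← Finset.sum_div]; exact div_self hS.ne'
      set Y0 := ∑ σ, p σ * Real.exp (b / 2 * X (c k • v) y σ ^ 2)
      set Y := ∑ σ, p σ * Real.exp (b / 2 * X v y σ ^ 2)
      have hY01 : 1 ≤ Y0 := by
        calc (1:ℝ) = ∑ σ, p σ * 1 := by simp [hp1]
          _ ≤ _ := Finset.sum_le_sum fun σ _ =>
              mul_le_mul_of_nonneg_left (Real.one_le_exp (by positivity)) (hp σ)
      have hY0 : Y0 ≤ Y := Finset.sum_le_sum fun σ _ => by
        refine mul_le_mul_of_nonneg_left (Real.exp_le_exp.2 (mul_le_mul_of_nonneg_left ?_ (by linarith))) (hp σ)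
        rw [X_smul (hc k).1, mul_pow, Real.sq_sqrt (hc k).1]
        exact mul_le_of_le_one_left (sq_nonneg _) (hc k).2
      have hY1 : 1 ≤ Y := by
        calc (1:ℝ) = ∑ σ, p σ * 1 := by simp [hp1]
          _ ≤ _ := Finset.sum_le_sum fun σ _ =>
              mul_le_mul_of_nonneg_left (Real.one_le_exp (by positivity)) (hp σ)
      have e : F (Function.update g k y) - Fk k g = Real.log Y0 := by
        simp only [F, Fk, Lw, hRle k, Function.update_self, hRu, Real.exp_add]
        rw [← Real.log_div (Finset.sum_pos (fun σ _ => by have := hw σ; positivity) Finset.univ_nonempty).ne'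
          hS.ne', Finset.sum_div]
        congr 1
        exact Finset.sum_congr rfl fun σ _ => by simp only [p]; ring
      rw [e]
      have hl0 := Real.log_nonneg hY01
      have hl1 := Real.log_le_sub_one_of_pos (show 0 < Y0 by linarith)
      have hY2 : Y ^ 2 ≤ ∑ σ, p σ * Real.exp (b * X v y σ ^ 2) := by
        have h0 : 0 ≤ ∑ σ, p σ * (Real.exp (b / 2 * X v y σ ^ 2) - Y) ^ 2 :=
          Finset.sum_nonneg fun σ _ => mul_nonneg (hp σ) (sq_nonneg _)
        have e2 : ∀ σ, p σ * (Real.exp (b / 2 * X v y σ ^ 2) - Y) ^ 2 = p σ * Real.exp (b * X v y σ ^ 2) -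
            2 * Y * (p σ * Real.exp (b / 2 * X v y σ ^ 2)) + Y ^ 2 * p σ := fun σ => by
          rw [show b * X v y σ ^ 2 = b / 2 * X v y σ ^ 2 + b / 2 * X v y σ ^ 2 by ring, Real.exp_add]; ring
        simp only [e2, Finset.sum_add_distrib, Finset.sum_sub_distrib, ← Finset.mul_sum, hp1] at h0
        nlinarith
      nlinarith
    refine (integral_mono_of_nonneg (.of_forall fun y => mul_self_nonneg _)
      (integrable_finsetSum _ fun σ _ => (hi σ).const_mul _) (.of_forall hpt)).trans (le_of_eq ?_)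
    rw [integral_finsetSum _ fun σ _ => (hi σ).const_mul _]
    have h1 : ∀ σ, ∫ y, Real.exp (b * X v y σ ^ 2) ∂gauss ι = (√(1 - 2 * b))⁻¹ := fun σ => by
      rw [show (∫ y, Real.exp (b * X v y σ ^ 2) ∂gauss ι) = ∫ t, Real.exp (b * t ^ 2) ∂gaussianReal 0 1
        from integral_linear (co v σ) (hu σ) (F := fun t => Real.exp (b * t ^ 2)) (by fun_prop),
        integral_exp_sq hb]
    simp only [integral_const_mul, h1, ← Finset.sum_mul, ← Finset.sum_div]
    rw [div_self hS.ne', one_mul]
  have h := efron M F Fk _ hF hFk hup hC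
  have i1 := integrable_pats (good_mul hF hF)
  have i2 : Integrable (fun g => 2 * (∫ g, F g ∂pats ι M) * F g) (pats ι M) := (integrable_pats hF).const_mul _
  have i3 : Integrable (fun g => F g * F g - 2 * (∫ g, F g ∂pats ι M) * F g) (pats ι M) := i1.sub i2
  refine le_trans (le_of_eq ?_) h
  rw [show (fun g => (F g - Fw b w fun k => c k • v) ^ 2) = fun g => F g * F g - 2 * (∫ g, F g ∂pats ι M) * F g +
      (∫ g, F g ∂pats ι M) ^ 2 by funext g; simp only [Fw, F]; ring,
    integral_add i3 (integrable_const _), integral_sub i1 i2, integral_const_mul, integral_const]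
  simp only [probReal_univ, one_smul]
  ring

variable {M N : ℕ}

/-- the Wishart matrix with strengths `c` -/
def WC (c : Fin M → ℝ) (g : Fin M × Fin N → ℝ) : Matrix (Fin N) (Fin N) ℝ :=
  (N : ℝ)⁻¹ • ((XM g)ᵀ * Matrix.diagonal c * XM g)

/-- pressure of the pattern model with strengths `c` in the frame `U` -/
def pC (b : ℝ) (c : Fin M → ℝ) (g : Fin M × Fin N → ℝ) (U : Mat N) : ℝ :=
  1 / (N : ℝ) * Real.log (((2:ℝ) ^ N)⁻¹ * ∑ σ : Fin N → Bool,
    Real.exp (b / 2 * ((N:ℝ)⁻¹ * ∑ m, c m * (∑ i, rot U g (m, i) * spin (σ i)) ^ 2)))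

lemma pC_rot (b : ℝ) (c : Fin M → ℝ) (g : Fin M × Fin N → ℝ) {U V : Mat N}
    (hV : V = fun i j => if i = j then 1 else 0) : pC b c g U = pC b c (rot U g) V := by
  subst hV
  simp [pC, rot]

lemma continuous_pC (b : ℝ) (c : Fin M → ℝ) :
    Continuous fun p : (Fin M × Fin N → ℝ) × Mat N => pC b c p.1 p.2 := by
  unfold pC rot
  refine continuous_const.mul (Continuous.log (by fun_prop) fun p => ?_)
  exact (mul_pos (by positivity) (Finset.sum_pos (fun σ _ => Real.exp_pos _) Finset.univ_nonempty)).ne'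

/-- diagonalised Wishart couplings -/
lemma pC_eq_pressure (b : ℝ) (c : Fin M → ℝ) {g : Fin M × Fin N → ℝ} {lam : Fin N → ℝ} {Q : Matrix (Fin N) (Fin N) ℝ}
    (hW : WC c g = Qᵀ * Matrix.diagonal lam * Q) (U : Mat N) :
    pC b c g U = pressure b lam (fun i j => ∑ k, Q i k * U k j) := by
  rw [pressure_eq]
  simp only [pC, energy]
  congr 3
  refine Finset.sum_congr rfl fun σ _ => ?_
  congr 2
  set y := fun k => ∑ i, U k i * spin (σ i)
  have h1 : ∀ m, ∑ i, rot U g (m, i) * spin (σ i) = ∑ k, g (m, k) * y k := fun m => by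
    simp only [rot, y, Finset.sum_mul, Finset.mul_sum]
    rw [Finset.sum_comm]
    exact Finset.sum_congr rfl fun k _ => Finset.sum_congr rfl fun i _ => by ring
  have h2 : ∀ j, field (fun i j => ∑ k, Q i k * U k j) σ j = ∑ k, Q j k * y k := fun j => by
    simp only [field, y, Finset.sum_mul, Finset.mul_sum]
    rw [Finset.sum_comm]
    exact Finset.sum_congr rfl fun k _ => Finset.sum_congr rfl fun i _ => by ring
  have hA : ∀ k l, (N:ℝ)⁻¹ * ∑ m, g (m, k) * c m * g (m, l) = ∑ j, Q j k * lam j * Q j l := fun k l => by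
    have h := congrFun (congrFun hW k) l
    simp only [WC, XM, Matrix.smul_apply, smul_eq_mul, Matrix.mul_apply, Matrix.transpose_apply, Matrix.of_apply,
      Matrix.diagonal_apply, mul_ite, mul_zero, Finset.sum_ite_eq', Finset.mem_univ, if_true] at h
    exact h
  simp only [h1, h2]
  calc (N:ℝ)⁻¹ * ∑ m, c m * (∑ k, g (m, k) * y k) ^ 2
      = ∑ k, ∑ l, y k * y l * ((N:ℝ)⁻¹ * ∑ m, g (m, k) * c m * g (m, l)) := by
        simp only [sq, Finset.sum_mul_sum]
        rw [Finset.mul_sum]
        simp only [Finset.mul_sum]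
        rw [Finset.sum_comm]
        refine Finset.sum_congr rfl fun k _ => ?_
        rw [Finset.sum_comm]
        exact Finset.sum_congr rfl fun l _ => Finset.sum_congr rfl fun m _ => by ring
    _ = ∑ j, lam j * (∑ k, Q j k * y k) ^ 2 := by
        simp only [hA, sq, Finset.sum_mul_sum]
        simp only [Finset.mul_sum]
        conv_rhs => rw [Finset.sum_comm]
        refine Finset.sum_congr rfl fun k _ => ?_
        conv_rhs => rw [Finset.sum_comm]
        exact Finset.sum_congr rfl fun l _ => Finset.sum_congr rfl fun j _ => by ring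

lemma pC_one (b : ℝ) {c : Fin M → ℝ} (hc : ∀ k, 0 ≤ c k) (g : Fin M → Fin N → ℝ) {V : Mat N}
    (hV : V = fun i j => if i = j then 1 else 0) :
    pC b c (fun p => g p.1 p.2) V = Lw b (w0 (Fin N)) (fun k => c k • unif (Fin N)) g / N := by
  subst hV
  simp only [pC, rot, mul_ite, mul_one, mul_zero, Finset.sum_ite_eq', Finset.mem_univ, if_true, Lw, w0,
    Fintype.card_fin, ← Finset.mul_sum]
  rw [one_div_mul_eq_div]
  congr 4
  funext σ
  congr 1
  simp only [en, X_smul (hc _), mul_pow, Real.sq_sqrt (hc _)]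
  simp only [X, lin, co, unif, Fintype.card_fin, Finset.mul_sum]
  refine Finset.sum_congr rfl fun m _ => ?_
  have hs : √((N:ℝ)⁻¹) * √((N:ℝ)⁻¹) = (N:ℝ)⁻¹ := Real.mul_self_sqrt (by positivity)
  have e : ∑ i, √((N:ℝ)⁻¹) * sg (σ i) * g m i = √((N:ℝ)⁻¹) * ∑ i, g m i * spin (σ i) := by
    rw [Finset.mul_sum]
    exact Finset.sum_congr rfl fun i _ => by simp only [sg, spin]; ring
  rw [e, mul_pow, sq (√((N:ℝ)⁻¹)), hs]
  ring

variable {r : ℕ}

/-- the strengths of the patterns at size `N` -/
def cs (a : Fin r → ℝ) (α : Fin r → ℝ) (N : ℕ) : Fin (∑ j, Ks α N j) → ℝ := fun k => a (can (Ks α N) k)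

theorem good_functional {b : ℝ} (hb0 : 0 ≤ b) (hb : b ≤ 1/10) {a : Fin r → ℝ}
    (ha : ∀ j, a j ∈ Set.Icc (0:ℝ) 1) {α : Fin r → ℝ} (hα : ∀ j, 0 < α j) :
    ∃ p : ℝ, ∀ ν : ∀ N, Measure (Mat N), (∀ N, IsHaarOrthogonal (ν N)) →
      ∃ Ψ : ∀ N : ℕ, (Fin (∑ j, Ks α N j) × Fin N → ℝ) → ℝ,
        (∀ N, Measurable (Ψ N)) ∧ (∀ N g, 0 ≤ Ψ N g ∧ Ψ N g ≤ 1) ∧
        Tendsto (fun N : ℕ => ∫ g, Ψ N g ∂gauss (Fin (∑ j, Ks α N j) × Fin N)) atTop (𝓝 0) ∧
        ∀ N g (lam : Fin N → ℝ) (Q : Matrix (Fin N) (Fin N) ℝ), Q ∈ Matrix.orthogonalGroup (Fin N) ℝ →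
          WC (cs a α N) g = Qᵀ * Matrix.diagonal lam * Q → ∫ U, min |pressure b lam U - p| 1 ∂ν N = Ψ N g := by
  obtain ⟨p, hp⟩ := exists_limit hb0 hb ha hα
  refine ⟨p, fun ν hν => ?_⟩
  set φ : ℝ → ℝ := fun x => min |x - p| 1 with hφ
  have hφ0 : ∀ x, 0 ≤ φ x := fun x => le_min (abs_nonneg _) zero_le_one
  have hφ1 : ∀ x, φ x ≤ 1 := fun x => min_le_right _ _
  have hφc : Continuous φ := by unfold φ; fun_prop
  set Ψ := fun (N : ℕ) (g : Fin (∑ j, Ks α N j) × Fin N → ℝ) => ∫ U, φ (pC b (cs a α N) g U) ∂ν N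
  have hP : ∀ N : ℕ, IsProbabilityMeasure (ν N) := fun N => (hν N).1
  have hj : ∀ N : ℕ, Continuous fun q : (Fin (∑ j, Ks α N j) × Fin N → ℝ) × Mat N => φ (pC b (cs a α N) q.1 q.2) := fun N =>
    hφc.comp (continuous_pC b _)
  refine ⟨Ψ, fun N => (hj N).measurable.stronglyMeasurable.integral_prod_right'.measurable, fun N g => ?_, ?_, ?_⟩
  · refine ⟨integral_nonneg fun U => hφ0 _, ?_⟩
    refine (integral_mono_of_nonneg (.of_forall fun U => hφ0 _) (integrable_const (1:ℝ))
      (.of_forall fun U => hφ1 _)).trans (le_of_eq ?_)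
    simp
  swap
  · intro N g lam Q hQ hW
    have hm : Measurable fun (U : Mat N) (i j : Fin N) => ∑ k, Q i k * U k j := by fun_prop
    have hinv := (hν N).2.2 (fun i j => Q i j) hQ
    show _ = ∫ U, φ (pC b (cs a α N) g U) ∂ν N
    conv_lhs => rw [← hinv]
    have hmp : Measurable fun V : Mat N => min |pressure b lam V - p| 1 :=
      hφc.measurable.comp (measurable_pressure b lam)
    rw [integral_map hm.aemeasurable hmp.aestronglyMeasurable]
    simp only [pC_eq_pressure b _ hW, φ]
  · set C := (√(1 - 2 * b))⁻¹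
    have hC : 0 ≤ C := by positivity
    have hlim : Tendsto (fun N : ℕ => ((∑ j, α j) * C + 1) / 2 * (√(N:ℝ))⁻¹ + |fC b a N (Ks α N) / N - p|) atTop (𝓝 0) := by
      simpa using ((tendsto_inv_atTop_zero.comp (Real.tendsto_sqrt_atTop.comp tendsto_natCast_atTop_atTop)).const_mul
        (((∑ j, α j) * C + 1) / 2)).add ((hp.sub_const p).abs)
    refine squeeze_zero' (.of_forall fun N => integral_nonneg fun g => integral_nonneg fun U => hφ0 _) ?_ hlim
    filter_upwards [eventually_gt_atTop 0] with N hN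
    set M := (∑ j, Ks α N j)
    set c := cs a α N
    have hc01 : ∀ k, c k ∈ Set.Icc (0:ℝ) 1 := fun k => ha _
    set one : Mat N := fun i j => if i = j then 1 else 0
    have hint : Integrable (fun q : (Fin M × Fin N → ℝ) × Mat N => φ (pC b (cs a α N) q.1 q.2))
        ((gauss (Fin M × Fin N)).prod (ν N)) :=
      Integrable.of_bound (hj N).aestronglyMeasurable 1 (.of_forall fun q => by
        rw [Real.norm_eq_abs, abs_of_nonneg (hφ0 _)]; exact hφ1 _)
    have hmo : Measurable fun g : Fin M × Fin N → ℝ => φ (pC b (cs a α N) g one) :=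
      ((hj N).comp (by fun_prop : Continuous fun g : Fin M × Fin N → ℝ => (g, one))).measurable
    have h1 : ∫ g, Ψ N g ∂gauss (Fin M × Fin N) = ∫ g, φ (pC b (cs a α N) g one) ∂gauss (Fin M × Fin N) := by
      simp only [Ψ]
      rw [integral_integral_swap hint]
      refine (integral_congr_ae ((hν N).2.1.mono fun U hU => ?_)).trans (by simp : ∫ _, ∫ g, φ (pC b (cs a α N) g one) ∂gauss (Fin M × Fin N) ∂ν N = _)
      have hm : Measurable (rot (M := M) U) := by unfold rot; fun_prop
      conv_rhs => rw [← mp_rot (M := M) hU, integral_map hm.aemeasurable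
        hmo.aestronglyMeasurable]
      exact integral_congr_ae (.of_forall fun g => congrArg φ (pC_rot b (cs a α N) g (U := U) (V := one) rfl))
    have h2 : ∫ g, φ (pC b (cs a α N) g one) ∂gauss (Fin M × Fin N) =
        ∫ g, φ (Lw b (w0 (Fin N)) (fun k => c k • unif (Fin N)) g / N) ∂pats (Fin N) M := by
      have h := mp_uncurry (Fin N) M
      rw [← h.map_eq, integral_map h.measurable.aemeasurable
        hmo.aestronglyMeasurable]
      exact integral_congr_ae (.of_forall fun g => congrArg φ (pC_one b (c := cs a α N) (fun k => (hc01 k).1) g (V := one) rfl))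
    rw [h1, h2]
    have hv : unif (Fin N) ∈ Simplex (Fin N) := unif_mem (by simpa using hN)
    set L := fun g => Lw b (w0 (Fin N)) (fun k => c k • unif (Fin N)) g
    set F := Fw b (w0 (Fin N)) (fun k => c k • unif (Fin N))
    have hvar : ∫ g, (L g - F) ^ 2 ∂pats (Fin N) M ≤ M * C := var_Lw hb0 (by linarith) w0_pos M c hc01 hv
    have hG : Good L := good_Lw hb0 w0_pos _
    have hd : Good fun g => (L g - F) ^ 2 := ⟨(hG.1.sub_const F).pow_const 2, (hG.2.sub (Poly.const F)).pow 2⟩
    have hN' : (0:ℝ) < N := by exact_mod_cast hN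
    set s := √(N:ℝ)
    have hs : 0 < s := Real.sqrt_pos.2 hN'
    have i1 : Integrable (fun g => (L g - F) ^ 2 / (2 * s * N)) (pats (Fin N) M) :=
      (integrable_pats hd).div_const _
    refine (integral_mono_of_nonneg (.of_forall fun g => hφ0 _) (i1.add (integrable_const
      (s / (2 * N) + |fC b a N (Ks α N) / N - p|))) (.of_forall fun g => ?_)).trans ?_
    · refine (min_le_left _ _).trans ?_
      show |L g / N - p| ≤ (L g - F) ^ 2 / (2 * s * N) + (s / (2 * N) + |fC b a N (Ks α N) / N - p|)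
      have e : L g / N - p = (L g - F) / N + (fC b a N (Ks α N) / N - p) := by
        simp only [F, fC, fT, c, cs]; ring
      rw [e, ← add_assoc]
      refine (abs_add_le _ _).trans (add_le_add ?_ le_rfl)
      rw [abs_div, abs_of_pos hN', show (L g - F) ^ 2 / (2 * s * N) + s / (2 * N) =
        ((L g - F) ^ 2 + s ^ 2) / (2 * s) / N by field_simp]
      refine div_le_div_of_nonneg_right ?_ hN'.le
      rw [le_div_iff₀ (by positivity), ← sq_abs (L g - F)]
      nlinarith [sq_nonneg (|L g - F| - s)]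
    · rw [integral_add' i1 (integrable_const _), integral_div, integral_const]
      simp only [probReal_univ, one_smul]
      rw [← add_assoc]
      refine add_le_add ?_ le_rfl
      have hss : s * s = N := Real.mul_self_sqrt hN'.le
      have hM : (M:ℝ) ≤ (∑ j, α j) * N := by
        simp only [M]; push_cast; rw [Finset.sum_mul]
        exact Finset.sum_le_sum fun j _ => Nat.floor_le (by have := hα j; positivity)
      refine (add_le_add (div_le_div_of_nonneg_right (hvar.trans (mul_le_mul_of_nonneg_right hM hC)) (by positivity))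
        le_rfl).trans (le_of_eq ?_)
      field_simp
      linear_combination hss

end Vale.Agent.P166.Pattern.Multi
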