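import Vale.Agent.P166.Pattern.Multi.Bottom

/-!
The self-consistent equation continues up to the top of the support.
-/

open MeasureTheory ProbabilityTheory Filter Matrix
open scoped Topology

noncomputable section

namespace Vale.Agent.P166.Pattern.Multi

variable {r : ℕ}

/-- the moment series sums to the transform -/
lemma tsum_moments {μ : Measure ℝ} [IsProbabilityMeasure μ] {s : ℝ} (hs : 0 < s)
    (hsupp : ∀ᵐ x ∂μ, x ∈ Set.Icc 0 s) {u : ℝ} (hu : u ∈ Set.Ioo (-(1 / s)) (1 / s)) :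
    ∑' k : ℕ, (∫ x, x ^ k ∂μ) * u ^ k = ∫ x, 1 / (1 - u * x) ∂μ := by
  set d := |u| * s
  have hd0 : 0 ≤ d := by positivity
  have hd1 : d < 1 := by
    have h := mul_lt_mul_of_pos_right (abs_lt.2 hu) hs
    rwa [div_mul_cancel₀ _ hs.ne'] at h
  have hint : ∀ k : ℕ, Integrable (fun x : ℝ => x ^ k) μ := fun k => by
    simpa using integrable_ratio hsupp k (le_refl (0:ℝ))
  have hm : ∀ k : ℕ, |∫ x, x ^ k ∂μ| ≤ s ^ k := fun k => by
    rw [← Real.norm_eq_abs]
    refine (norm_integral_le_of_norm_le_const (C := s ^ k) (hsupp.mono fun x hx => ?_)).trans_eq (by simp)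
    rw [Real.norm_eq_abs, abs_of_nonneg (pow_nonneg hx.1 k)]
    exact pow_le_pow_left₀ hx.1 hx.2 k
  have hux : ∀ x ∈ Set.Icc 0 s, |u * x| ≤ d := fun x hx => by
    rw [abs_mul, abs_of_nonneg hx.1]; exact mul_le_mul_of_nonneg_left hx.2 (abs_nonneg u)
  have hS : Summable fun k : ℕ => (∫ x, x ^ k ∂μ) * u ^ k := by
    refine Summable.of_norm_bounded (summable_geometric_of_lt_one hd0 hd1) fun k => ?_
    rw [Real.norm_eq_abs, abs_mul, abs_pow, mul_pow, mul_comm]
    exact mul_le_mul_of_nonneg_left (hm k) (by positivity)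
  refine tendsto_nhds_unique hS.hasSum.tendsto_sum_nat ?_
  rw [tendsto_iff_dist_tendsto_zero]
  refine squeeze_zero (fun n => dist_nonneg) (fun n => ?_)
    (by simpa using (tendsto_pow_atTop_nhds_zero_of_lt_one hd0 hd1).div_const (1 - d))
  have hI : Integrable (fun x => 1 / (1 - u * x)) μ := by
    refine Integrable.of_bound (Measurable.aestronglyMeasurable (by fun_prop)) (1 / (1 - d)) (hsupp.mono fun x hx => ?_)
    have h := abs_le.1 (hux x hx)
    rw [Real.norm_eq_abs, abs_of_nonneg (by have : 0 < 1 - u * x := by linarith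
                                            positivity)]
    exact one_div_le_one_div_of_le (by linarith) (by linarith)
  have e : ∑ k ∈ Finset.range n, (∫ x, x ^ k ∂μ) * u ^ k = ∫ x, ∑ k ∈ Finset.range n, (u * x) ^ k ∂μ := by
    rw [integral_finsetSum]
    · exact Finset.sum_congr rfl fun k _ => by rw [← integral_mul_const]; congr 1; funext x; ring
    · intro k _; simp only [mul_pow]; exact (hint k).const_mul _
  rw [e, Real.dist_eq, ← integral_sub (integrable_finsetSum _ fun k _ => by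
    simp only [mul_pow]; exact (hint k).const_mul _) hI, ← Real.norm_eq_abs]
  refine (norm_integral_le_of_norm_le_const (C := d ^ n / (1 - d)) (hsupp.mono fun x hx => ?_)).trans_eq (by simp)
  have h := abs_le.1 (hux x hx)
  have hg := geom_sum_mul (u * x) n
  have e2 : ∑ k ∈ Finset.range n, (u * x) ^ k - 1 / (1 - u * x) = -((u * x) ^ n / (1 - u * x)) := by
    rw [eq_neg_iff_add_eq_zero, sub_add, sub_eq_zero, ← sub_div, eq_div_iff (by linarith)]
    linear_combination -hg
  rw [e2, norm_neg, Real.norm_eq_abs, abs_div, abs_of_pos (show 0 < 1 - u * x by linarith), abs_pow]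
  exact div_le_div₀ (by positivity) (pow_le_pow_left₀ (abs_nonneg _) (hux x hx) n) (by linarith) (by linarith)

/-- above the support the transform inverts `y ↦ 1/y + ∑ α a/(1 - y a)` -/
theorem eq_above {a α : Fin r → ℝ} (hr : 0 < r) (ha : ∀ j, 0 < a j ∧ a j ≤ 1) (hα : ∀ j, 0 < α j) {μ : Measure ℝ}
    [IsProbabilityMeasure μ] {s : ℝ} (hs : 0 < s) (hsupp : ∀ᵐ x ∂μ, x ∈ Set.Icc 0 s) (heq : SolvesEq a α μ)
    {t : ℝ} (ht1 : s < t) :
    0 < ∫ x, 1 / (t - x) ∂μ ∧ (∀ j, (∫ x, 1 / (t - x) ∂μ) * a j < 1) ∧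
      t = 1 / (∫ x, 1 / (t - x) ∂μ) + ∑ j, α j * (a j / (1 - (∫ x, 1 / (t - x) ∂μ) * a j)) := by
  classical
  set m : ℕ → ℝ := fun k => ∫ x, x ^ k ∂μ
  have hint : ∀ k : ℕ, Integrable (fun x : ℝ => x ^ k) μ := fun k => by
    simpa using integrable_ratio hsupp k (le_refl (0:ℝ))
  have hm : ∀ k, |m k| ≤ s ^ k := fun k => by
    show |∫ x, x ^ k ∂μ| ≤ s ^ k
    rw [← Real.norm_eq_abs]
    refine (norm_integral_le_of_norm_le_const (C := s ^ k) (hsupp.mono fun x hx => ?_)).trans_eq (by simp)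
    rw [Real.norm_eq_abs, abs_of_nonneg (pow_nonneg hx.1 k)]
    exact pow_le_pow_left₀ hx.1 hx.2 k
  set p := FormalMultilinearSeries.ofScalars ℝ m
  set R : NNReal := ⟨1 / s, by positivity⟩
  have hrad : (R : ENNReal) ≤ p.radius := by
    refine p.le_radius_of_bound 1 fun n => ?_
    rw [FormalMultilinearSeries.ofScalars_norm, Real.norm_eq_abs]
    show |m n| * (1 / s) ^ n ≤ 1
    rw [div_pow, one_pow, mul_one_div, div_le_one (by positivity)]
    exact hm n
  have hR : (0 : ENNReal) < R := by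
    refine ENNReal.coe_pos.2 ?_
    show (0:ℝ) < 1 / s
    positivity
  set F := p.sum
  have han : AnalyticOnNhd ℝ F (Set.Ioo (-(1 / s)) (1 / s)) := by
    refine (((p.hasFPowerSeriesOnBall (hR.trans_le hrad)).mono hR hrad).analyticOnNhd).mono fun u hu => ?_
    have : dist u 0 < (R:ℝ) := by
      rw [Real.dist_eq, sub_zero]
      show |u| < 1 / s
      exact abs_lt.2 hu
    exact Metric.mem_eball.2 (by rw [edist_dist, ← ENNReal.ofReal_coe_nnreal]; exact (ENNReal.ofReal_lt_ofReal_iff_of_nonneg dist_nonneg).2 this)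
  have hsum : ∀ u, F u = ∑' k : ℕ, m k * u ^ k := fun u => by
    simp [F, p, FormalMultilinearSeries.sum, mul_comm]
  have hser : ∀ u ∈ Set.Ioo (-(1 / s)) (1 / s), F u = ∫ x, 1 / (1 - u * x) ∂μ := fun u hu => by
    rw [hsum, tsum_moments hs hsupp hu]
  have hneg : ∀ u ∈ Set.Ioo (-(1 / s)) 0, F u = ∫ x, 1 / (1 + -u * x) ∂μ := fun u hu => by
    rw [hser u ⟨hu.1, hu.2.trans (by positivity)⟩]
    simp only [neg_mul, ← sub_eq_add_neg]
  set H : ℝ → ℝ := fun u => (F u - 1) * ∏ j, (1 - u * a j * F u) -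
    ∑ j, α j * (u * a j * F u) * ∏ i ∈ Finset.univ.erase j, (1 - u * a i * F u)
  have hid : AnalyticOnNhd ℝ (fun u : ℝ => u) (Set.Ioo (-(1 / s)) (1 / s)) := analyticOnNhd_id
  have hfac : ∀ j, AnalyticOnNhd ℝ (fun u => u * a j * F u) (Set.Ioo (-(1 / s)) (1 / s)) := fun j =>
    (hid.mul analyticOnNhd_const).mul han
  have hone : ∀ j, AnalyticOnNhd ℝ (fun u => 1 - u * a j * F u) (Set.Ioo (-(1 / s)) (1 / s)) := fun j =>
    analyticOnNhd_const.sub (hfac j)
  have hH : AnalyticOnNhd ℝ H (Set.Ioo (-(1 / s)) (1 / s)) :=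
    ((han.sub analyticOnNhd_const).mul (Finset.analyticOnNhd_fun_prod _ fun j _ => hone j)).sub
      (Finset.analyticOnNhd_fun_sum _ fun j _ =>
        (analyticOnNhd_const.mul (hfac j)).mul (Finset.analyticOnNhd_fun_prod _ fun i _ => hone i))
  have key : ∀ u, (∀ j, 1 - u * a j * F u ≠ 0) →
      H u = (∏ j, (1 - u * a j * F u)) * (F u - 1 - ∑ j, α j * (u * a j * F u / (1 - u * a j * F u))) := by
    intro u hu
    simp only [H, mul_sub, Finset.mul_sum]
    congr 1
    · ring
    · refine Finset.sum_congr rfl fun j hj => ?_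
      rw [← Finset.mul_prod_erase _ _ hj]
      field_simp [hu j]
  have hs' : 0 < 1 / s := by positivity
  have hzero : Set.EqOn H 0 (Set.Ioo (-(1 / s)) (1 / s)) := by
    refine hH.eqOn_zero_of_preconnected_of_eventuallyEq_zero isPreconnected_Ioo (z₀ := -(1 / s) / 2)
      ⟨by linarith, by linarith⟩ ?_
    filter_upwards [Ioo_mem_nhds (show -(1 / s) < -(1 / s) / 2 by linarith) (show -(1 / s) / 2 < 0 by linarith)]
      with u hu
    have hF := hneg u hu
    have hF0 : 0 ≤ F u := hF ▸ integral_nonneg_of_ae (hsupp.mono fun x hx => by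
      have := mul_nonneg (show 0 ≤ -u by linarith [hu.2]) hx.1
      positivity)
    have hne : ∀ j, 1 - u * a j * F u ≠ 0 := fun j => by
      have := mul_nonneg (mul_nonneg (show 0 ≤ -u by linarith [hu.2]) (ha j).1.le) hF0
      intro h0
      linarith
    have h := heq (-u) (by linarith [hu.2])
    rw [← hF, Gf] at h
    rw [key u hne]
    refine mul_eq_zero_of_right _ ?_
    have e : ∀ j, α j * (u * a j * F u / (1 - u * a j * F u)) = -(α j * (-u * a j * F u / (1 + -u * a j * F u))) :=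
      fun j => by
        rw [show 1 + -u * a j * F u = 1 - u * a j * F u by ring]
        ring
    simp only [e, Finset.sum_neg_distrib]
    linarith
  obtain ⟨j0, -, hj0⟩ := Finset.exists_max_image Finset.univ a ⟨⟨0, hr⟩, Finset.mem_univ _⟩
  set φ := fun u => u * a j0 * F u
  have hFc : ∀ u ∈ Set.Ioo (-(1 / s)) (1 / s), ContinuousAt F u := fun u hu => (han u hu).continuousAt
  -- the equation where all denominators are positive
  have heqn : ∀ u ∈ Set.Ico (0:ℝ) (1 / s), 0 ≤ φ u → φ u < 1 →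
      (∀ j, 0 < 1 - u * a j * F u) ∧ F u - 1 = ∑ j, α j * (u * a j * F u / (1 - u * a j * F u)) := by
    intro u hu h0 h1
    have hd : ∀ j, u * a j * F u ≤ φ u := fun j => by
      rcases eq_or_lt_of_le hu.1 with h | h
      · simp [φ, ← h]
      · have hF0 : 0 ≤ F u := nonneg_of_mul_nonneg_right h0 (mul_pos h (ha j0).1)
        exact mul_le_mul_of_nonneg_right (mul_le_mul_of_nonneg_left (hj0 j (Finset.mem_univ j)) hu.1) hF0
    have hpos : ∀ j, 0 < 1 - u * a j * F u := fun j => by linarith [hd j]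
    refine ⟨hpos, ?_⟩
    have := hzero ⟨(by linarith [hu.1] : -(1 / s) < u), hu.2⟩
    rw [Pi.zero_apply, key u fun j => (hpos j).ne', mul_eq_zero] at this
    rcases this with h | h
    · exact absurd h (Finset.prod_pos fun j _ => hpos j).ne'
    · linarith
  have hFnn : ∀ u ∈ Set.Ico (0:ℝ) (1 / s), 1 ≤ F u ∧ φ u < 1 := by
    intro u1 hu1
    have hF1 : ∀ u ∈ Set.Ico (0:ℝ) (1 / s), 0 ≤ φ u → φ u < 1 → 1 ≤ F u := fun u hu h0 h1 => by
      obtain ⟨hp, he⟩ := heqn u hu h0 h1
      have hF0 : 0 ≤ F u := by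
        rcases eq_or_lt_of_le hu.1 with h | h
        · rw [← h] at he; simp at he; rw [← h]; linarith
        · exact nonneg_of_mul_nonneg_right h0 (mul_pos h (ha j0).1)
      have : 0 ≤ ∑ j, α j * (u * a j * F u / (1 - u * a j * F u)) := Finset.sum_nonneg fun j _ =>
        mul_nonneg (hα j).le (div_nonneg (mul_nonneg (mul_nonneg hu.1 (ha j).1.le) hF0) (hp j).le)
      linarith
    by_contra hbad
    -- first time the bound fails
    set T := {u | u ∈ Set.Icc (0:ℝ) u1 ∧ (1 ≤ φ u ∨ F u ≤ 1 / 2)}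
    have hmaps : ∀ u ∈ Set.Icc (0:ℝ) u1, u ∈ Set.Ioo (-(1 / s)) (1 / s) := fun u hu =>
      ⟨by linarith [hu.1], hu.2.trans_lt hu1.2⟩
    have hFco : ContinuousOn F (Set.Icc (0:ℝ) u1) := fun u hu => (hFc u (hmaps u hu)).continuousWithinAt
    have hφco : ContinuousOn φ (Set.Icc (0:ℝ) u1) := (continuousOn_id.mul continuousOn_const).mul hFco
    have hF00 : F 0 = 1 := by
      rw [hsum, tsum_eq_single 0 fun k hk => by simp [hk]]
      simp [m]
    have hTc : IsClosed T := by
      have e : T = (Set.Icc (0:ℝ) u1 ∩ φ ⁻¹' Set.Ici 1) ∪ (Set.Icc (0:ℝ) u1 ∩ F ⁻¹' Set.Iic (1 / 2)) := by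
        ext u; simp [T, and_or_left]
      rw [e]
      exact (hφco.preimage_isClosed_of_isClosed isClosed_Icc isClosed_Ici).union
        (hFco.preimage_isClosed_of_isClosed isClosed_Icc isClosed_Iic)
    have hTne : T.Nonempty := by
      refine ⟨u1, ⟨hu1.1, le_rfl⟩, ?_⟩
      by_contra hc
      push Not at hc
      have h0 : 0 ≤ φ u1 := mul_nonneg (mul_nonneg hu1.1 (ha j0).1.le) (by linarith [hc.2])
      exact hbad ⟨hF1 u1 hu1 h0 hc.1, hc.1⟩
    set u0 := sInf T
    have hu0 : u0 ∈ T := hTc.csInf_mem hTne ⟨0, fun u hu => hu.1.1⟩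
    have hu0pos : 0 < u0 := by
      refine lt_of_le_of_ne hu0.1.1 fun h => ?_
      rcases hu0.2 with h1 | h1
      · simp only [φ] at h1; rw [← h, zero_mul, zero_mul] at h1; linarith
      · rw [← h, hF00] at h1; linarith
    have hbefore : ∀ u ∈ Set.Ico (0:ℝ) u0, φ u < 1 ∧ 1 / 2 < F u := fun u hu => by
      have hnot : u ∉ T := fun hT => not_lt.2 (csInf_le ⟨0, fun v hv => hv.1.1⟩ hT) hu.2
      have hmem : u ∈ Set.Icc (0:ℝ) u1 := ⟨hu.1, hu.2.le.trans hu0.1.2⟩
      simp only [T, Set.mem_ofPred_eq, not_and, not_or, not_le] at hnot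
      exact hnot hmem
    have hIn : u0 ∈ Set.Ioo (-(1 / s)) (1 / s) := hmaps u0 hu0.1
    have hφc : ContinuousAt φ u0 := (continuousAt_id.mul continuousAt_const).mul (hFc u0 hIn)
    have hev : ∀ᶠ u in 𝓝[<] u0, 1 ≤ F u ∧ α j0 * φ u ≤ (F u - 1) * (1 - φ u) := by
      filter_upwards [Ioo_mem_nhdsLT hu0pos] with u hu
      obtain ⟨b1, b2⟩ := hbefore u ⟨hu.1.le, hu.2⟩
      have huI : u ∈ Set.Ico (0:ℝ) (1 / s) := ⟨hu.1.le, hu.2.trans hIn.2⟩
      have h0 : 0 ≤ φ u := mul_nonneg (mul_nonneg hu.1.le (ha j0).1.le) (by linarith)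
      obtain ⟨hp, he⟩ := heqn u huI h0 b1
      refine ⟨hF1 u huI h0 b1, ?_⟩
      have hle : α j0 * (φ u / (1 - φ u)) ≤ F u - 1 := by
        rw [he]
        exact Finset.single_le_sum (f := fun j => α j * (u * a j * F u / (1 - u * a j * F u))) (fun j _ =>
          mul_nonneg (hα j).le (div_nonneg (mul_nonneg (mul_nonneg hu.1.le (ha j).1.le) (by linarith)) (hp j).le))
          (Finset.mem_univ j0)
      rw [← mul_div_assoc, div_le_iff₀ (by linarith)] at hle
      exact hle
    have hF1' : 1 ≤ F u0 :=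
      ge_of_tendsto ((hFc u0 hIn).tendsto.mono_left nhdsWithin_le_nhds) (hev.mono fun u hu => hu.1)
    have hlim' : 0 ≤ (F u0 - 1) * (1 - φ u0) - α j0 * φ u0 :=
      ge_of_tendsto (((((hFc u0 hIn).sub continuousAt_const).mul (continuousAt_const.sub hφc)).sub
        (continuousAt_const.mul hφc)).tendsto.mono_left nhdsWithin_le_nhds)
        (hev.mono fun u hu => by simp only [Pi.sub_apply, Pi.mul_apply]; linarith [hu.2])
    rcases hu0.2 with h1 | h1
    · nlinarith [mul_nonneg (sub_nonneg.2 hF1') (sub_nonneg.2 h1), mul_le_mul_of_nonneg_left h1 (hα j0).le, hα j0]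
    · linarith
  have ht : 0 < t := hs.trans ht1
  set u := 1 / t
  have hu : u ∈ Set.Ico (0:ℝ) (1 / s) := ⟨by positivity, one_div_lt_one_div_of_lt hs ht1⟩
  obtain ⟨hF1, hφ1⟩ := hFnn u hu
  have hupos : 0 < u := by positivity
  have hφ0 : 0 ≤ φ u := mul_nonneg (mul_nonneg hupos.le (ha j0).1.le) (by linarith)
  obtain ⟨hp, he⟩ := heqn u hu hφ0 hφ1
  have hG : ∫ x, 1 / (t - x) ∂μ = u * F u := by
    rw [hser u ⟨by linarith [hu.1], hu.2⟩, ← integral_const_mul]
    refine integral_congr_ae (hsupp.mono fun x hx => ?_)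
    have h1 : 0 < t - x := by linarith [hx.2]
    simp only [u]
    field_simp
  rw [hG]
  set y := u * F u
  have hy : 0 < y := mul_pos hupos (by linarith)
  refine ⟨hy, fun j => by
    have := hp j
    simp only [y]; nlinarith, ?_⟩
  have e : ∀ j, α j * (a j / (1 - y * a j)) = α j * (u * a j * F u / (1 - u * a j * F u)) / y := fun j => by
    have hd := (hp j).ne'
    rw [show 1 - y * a j = 1 - u * a j * F u by simp only [y]; ring]
    simp only [y]
    field_simp
  simp only [e, ← Finset.sum_div, ← he, ← add_div]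
  rw [show 1 + (F u - 1) = F u by ring]
  have hne : F u ≠ 0 := by linarith
  simp only [y, u] at hne ⊢
  field_simp

end Vale.Agent.P166.Pattern.Multi
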