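import Vale.Agent.P166.Pattern.Multi.Law
import Vale.Agent.P166.Pattern.Assemble

/-!
The limit of the pressure for free compound Poisson laws with finitely many positive jump sizes.
-/

open MeasureTheory Filter Matrix
open scoped Topology

noncomputable section

namespace Vale.Agent.P166.Pattern.Multi

variable {r : ℕ}

theorem limit_normalised {a α : Fin r → ℝ} (hr : 0 < r) (ha : ∀ j, 0 < a j ∧ a j ≤ 1) (hα : ∀ j, 0 < α j) :
    ∃ μ : Measure ℝ, IsProbabilityMeasure μ ∧ IsCompact μ.support ∧ μ.support ⊆ Set.Ici 0 ∧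
      SolvesEq a α μ ∧ (∃ lam, Admissible μ lam) ∧
      ∀ β : ℝ, 0 ≤ β → β ≤ 1 / 10 → ∃ p : ℝ, ∀ lam : ∀ N : ℕ, Fin N → ℝ, Admissible μ lam →
        ∀ ν : ∀ N : ℕ, Measure (Mat N), (∀ N, IsHaarOrthogonal (ν N)) → ∀ ε : ℝ, 0 < ε →
          Tendsto (fun N : ℕ => (ν N).real {U | ε ≤ |pressure β (lam N) U - p|}) atTop (𝓝 0) := by
  have ha' : ∀ j, a j ∈ Set.Icc (0:ℝ) 1 := fun j => ⟨(ha j).1.le, (ha j).2⟩
  obtain ⟨g0, lam0, h0, -, -⟩ := exists_spec hr ha' hα (fun _ _ => 0) (fun _ => measurable_const)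
    (fun _ _ => ⟨le_rfl, zero_le_one⟩) (by simp)
  obtain ⟨μ, hμp, hμ, hsupp, hsup, heq⟩ := exists_law hr ha hα h0
  set E0 := edge a α
  have hE0 : 0 ≤ E0 := edge_nonneg ha' hα
  have hae : ∀ᵐ x ∂μ, x ∈ Set.Icc 0 (E0 + 1) := by
    filter_upwards [Measure.support_mem_ae (μ := μ)] with x hx
    exact ⟨(hsupp hx).1, by linarith [(hsupp hx).2]⟩
  have hweak : ∀ {lam : ∀ N : ℕ, Fin N → ℝ}, Spec a α lam → ∀ g : BoundedContinuousFunction ℝ ℝ,
      Tendsto (fun N : ℕ => (∑ k, g (lam N k)) / (N : ℝ)) atTop (𝓝 (∫ x, g x ∂μ)) := fun {lam} h =>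
    weak_of_moments hae h.nonneg (h.top 1 one_pos) fun k => by
      rw [tendsto_iff_ultrafilter]
      intro U hU
      obtain ⟨ρ, hρ, hρL, hρeq, hρmom⟩ := exists_cluster ha' hα h U hU
      have := hρ
      rw [moments_unique (fun j => (ha j).1.le) (fun j => (hα j).le) hae hρL heq hρeq k]
      exact hρmom k
  refine ⟨μ, hμp, hμ, fun x hx => (hsupp hx).1, heq, exists_admissible hμ (hweak h0), fun β hβ hβB => ?_⟩
  obtain ⟨p, hp⟩ := good_functional hβ hβB ha' hα
  refine ⟨p, fun lam hlam ν hν ε hε => ?_⟩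
  obtain ⟨Ψ, hm, h01, hlim, hid⟩ := hp ν hν
  obtain ⟨g, lamS, hS, hΨ, hdiag⟩ := exists_spec hr ha' hα Ψ hm h01 hlim
  set L := |sSup μ.support| + |sInf μ.support| + 1
  have hnS : Near μ L lamS := by
    refine ⟨hweak hS, ?_, fun δ hδ => ?_⟩
    · filter_upwards [hS.top 1 one_pos] with N hN k
      rw [abs_of_nonneg (hS.nonneg N k)]
      simp only [L, hsup, abs_of_nonneg hE0]
      linarith [hN k, abs_nonneg (sInf μ.support)]
    · rw [hsup]; exact hS.top δ hδ
  set φ := fun x : ℝ => min |x - p| 1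
  have hφ : Continuous φ := by fun_prop
  have hS0 : Tendsto (fun N : ℕ => ∫ U, φ (pressure β (lamS N) U) ∂ν N) atTop (𝓝 0) :=
    hΨ.congr fun N => by
      obtain ⟨Q, hQ, hW⟩ := hdiag N
      exact (hid N (g N) (lamS N) Q hQ hW).symm
  have h1 : Tendsto (fun N : ℕ => ∫ U, φ (pressure β (lam N) U) ∂ν N) atTop (𝓝 0) := by
    simpa using (near_phi_diff hμ (by simp only [L]; linarith [abs_nonneg (sInf μ.support)]) hnS
      (hlam.near hμ) hβ hν hφ).add hS0
  have hmin : 0 < min ε 1 := lt_min hε one_pos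
  refine squeeze_zero' (Eventually.of_forall fun N => measureReal_nonneg) ?_
    (by simpa using h1.div_const (min ε 1))
  filter_upwards [eventually_gt_atTop 0] with N hN
  have := (hν N).1
  rw [le_div_iff₀ hmin, mul_comm]
  refine le_trans ?_ (mul_meas_ge_le_integral_of_nonneg
    (.of_forall fun U => le_min (abs_nonneg _) zero_le_one)
    (integrable_of_continuous (hν N) hN hβ (lam N) hφ) (min ε 1))
  exact mul_le_mul_of_nonneg_left
    (measureReal_mono fun U (hU : ε ≤ |pressure β (lam N) U - p|) => min_le_min hU le_rfl) hmin.le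

lemma pressure_scale {N : ℕ} (β A : ℝ) (lam : Fin N → ℝ) (U : Mat N) :
    pressure β (fun k => A * lam k) U = pressure (β * A) lam U := by
  unfold pressure
  congr 2
  congr 1
  refine Finset.sum_congr rfl fun σ _ => congrArg Real.exp ?_
  simp only [Finset.mul_sum, Finset.sum_mul]
  exact Finset.sum_congr rfl fun i _ => Finset.sum_congr rfl fun j _ => Finset.sum_congr rfl fun k _ => by ring

lemma support_map_scale {μ : Measure ℝ} {A : ℝ} (hA : 0 < A) :
    (μ.map fun x => A * x).support = (fun x => A * x) '' μ.support := by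
  set e := Homeomorph.mulLeft₀ A hA.ne'
  ext x
  have hmap : ∀ V : Set ℝ, (μ.map fun x => A * x) V = μ ((fun x => A * x) ⁻¹' V) := fun V =>
    e.toMeasurableEquiv.map_apply V
  constructor
  · intro hx
    refine ⟨x / A, (Measure.mem_support_iff_forall _).2 fun V hV => ?_, by field_simp⟩
    have hV' : (fun y => y / A) ⁻¹' V ∈ 𝓝 x :=
      (continuous_id.div_const A).continuousAt.preimage_mem_nhds hV
    have h := (Measure.mem_support_iff_forall _).1 hx _ hV'
    rw [hmap] at h
    convert h using 2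
    ext y
    simp [hA.ne']
  · rintro ⟨y, hy, rfl⟩
    refine (Measure.mem_support_iff_forall _).2 fun V hV => ?_
    rw [hmap]
    exact (Measure.mem_support_iff_forall _).1 hy _
      ((continuous_const.mul continuous_id).continuousAt.preimage_mem_nhds hV)

lemma admissible_scale {μ : Measure ℝ} [IsProbabilityMeasure μ] (hμ : IsCompact μ.support) {A : ℝ} (hA : 0 < A)
    {lam : ∀ N : ℕ, Fin N → ℝ} :
    Admissible (μ.map fun x => A * x) lam ↔ Admissible μ fun N k => lam N k / A := by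
  have hm : Measurable fun x : ℝ => A * x := by fun_prop
  have hint : ∀ g : BoundedContinuousFunction ℝ ℝ, ∫ x, g x ∂(μ.map fun x => A * x) = ∫ x, g (A * x) ∂μ :=
    fun g => integral_map hm.aemeasurable g.continuous.aestronglyMeasurable
  have hsup : sSup (μ.map fun x => A * x).support = A * sSup μ.support := by
    rw [support_map_scale hA]
    exact (Monotone.map_csSup_of_continuousAt (by fun_prop) (monotone_mul_left_of_nonneg hA.le)
      support_nonempty hμ.bddAbove).symm
  have hinf : sInf (μ.map fun x => A * x).support = A * sInf μ.support := by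
    rw [support_map_scale hA]
    exact (Monotone.map_csInf_of_continuousAt (by fun_prop) (monotone_mul_left_of_nonneg hA.le)
      support_nonempty hμ.bddBelow).symm
  have hs : ∀ N : ℕ, (⨆ k, lam N k / A) = (⨆ k, lam N k) / A := fun N => by
    simp only [div_eq_mul_inv]
    exact (Real.iSup_mul_of_nonneg (inv_nonneg.2 hA.le) _).symm
  have hi : ∀ N : ℕ, (⨅ k, lam N k / A) = (⨅ k, lam N k) / A := fun N => by
    simp only [div_eq_mul_inv]
    exact (Real.iInf_mul_of_nonneg (inv_nonneg.2 hA.le) _).symm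
  constructor
  · rintro ⟨h1, h2, h3⟩
    refine ⟨fun g => ?_, ?_, ?_⟩
    · have h := h1 (g.compContinuous ⟨fun x => x / A, by fun_prop⟩)
      rw [hint] at h
      simpa [hA.ne'] using h
    · rw [hsup] at h2
      simpa [hs, hA.ne'] using h2.div_const A
    · rw [hinf] at h3
      simpa [hi, hA.ne'] using h3.div_const A
  · rintro ⟨h1, h2, h3⟩
    refine ⟨fun g => ?_, ?_, ?_⟩
    · have h := h1 (g.compContinuous ⟨fun x => A * x, by fun_prop⟩)
      rw [hint]
      simpa [mul_div_cancel₀ _ hA.ne'] using h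
    · rw [hsup]
      simpa [hs, mul_div_cancel₀ _ hA.ne'] using h2.const_mul A
    · rw [hinf]
      simpa [hi, mul_div_cancel₀ _ hA.ne'] using h3.const_mul A

/-- the general form: jump sizes arbitrary positive, `β` times every jump at most `1/10` -/
theorem limit_compound {a α : Fin r → ℝ} (hr : 0 < r) (ha : ∀ j, 0 < a j) (hα : ∀ j, 0 < α j) :
    ∃ μ : Measure ℝ, IsProbabilityMeasure μ ∧ IsCompact μ.support ∧ μ.support ⊆ Set.Ici 0 ∧
      (∀ z : ℝ, 0 ≤ z → 1 - ∫ x, 1 / (1 + z * x) ∂μ =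
        ∑ j, α j * (z * a j * (∫ x, 1 / (1 + z * x) ∂μ) / (1 + z * a j * ∫ x, 1 / (1 + z * x) ∂μ))) ∧
      (∃ lam, Admissible μ lam) ∧
      ∀ β : ℝ, 0 ≤ β → (∀ j, β * a j ≤ 1 / 10) → ∃ p : ℝ, ∀ lam : ∀ N : ℕ, Fin N → ℝ, Admissible μ lam →
        ∀ ν : ∀ N : ℕ, Measure (Mat N), (∀ N, IsHaarOrthogonal (ν N)) → ∀ ε : ℝ, 0 < ε →
          Tendsto (fun N : ℕ => (ν N).real {U | ε ≤ |pressure β (lam N) U - p|}) atTop (𝓝 0) := by
  obtain ⟨j0, -, hj0⟩ := Finset.exists_max_image Finset.univ a ⟨⟨0, hr⟩, Finset.mem_univ _⟩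
  set A := a j0
  have hA : 0 < A := ha j0
  obtain ⟨μ, hp, hμ, hsupp, heq, ⟨lam0, h0⟩, hlim⟩ := limit_normalised (a := fun j => a j / A) hr
    (fun j => ⟨div_pos (ha j) hA, (div_le_one hA).2 (hj0 j (Finset.mem_univ j))⟩) hα
  have hm : Measurable fun x : ℝ => A * x := by fun_prop
  refine ⟨μ.map fun x => A * x, Measure.isProbabilityMeasure_map hm.aemeasurable, ?_, ?_, fun z hz => ?_,
    ⟨fun N k => A * lam0 N k, (admissible_scale hμ hA).2 (by simpa [hA.ne'] using h0)⟩, fun β hβ hβa => ?_⟩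
  · rw [support_map_scale hA]; exact hμ.image (by fun_prop)
  · rw [support_map_scale hA]
    rintro _ ⟨y, hy, rfl⟩
    exact mul_nonneg hA.le (hsupp hy)
  · have h := heq (z * A) (mul_nonneg hz hA.le)
    rw [Gf] at h
    rw [integral_map hm.aemeasurable (Measurable.aestronglyMeasurable (by fun_prop))]
    simp only [← mul_assoc]
    have e : ∀ j, z * A * (a j / A) = z * a j := fun j => by field_simp
    simp only [e] at h
    linarith
  · obtain ⟨p, hp⟩ := hlim (β * A) (mul_nonneg hβ hA.le) (hβa j0)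
    refine ⟨p, fun lam hlam ν hν ε hε => ?_⟩
    refine (hp _ ((admissible_scale hμ hA).1 hlam) ν hν ε hε).congr fun N => ?_
    simp only [← pressure_scale β A, mul_div_cancel₀ _ hA.ne']

end Vale.Agent.P166.Pattern.Multi
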