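import Vale.Agent.P166.Pattern.Multi.Assemble

/-!
A lower bound on the spectrum of the centred Wishart matrix with several strengths: it depends only
on the second moment of the strengths and on an upper bound of the spectrum.
-/

open MeasureTheory ProbabilityTheory Filter Matrix
open scoped Topology

noncomputable section

namespace Vale.Agent.P166.Pattern.Multi

variable {M N : ℕ}

/-- centred quadratic form of the weighted Wishart matrix -/
def cquad (c : Fin M → ℝ) (g : Fin M × Fin N → ℝ) (y : Fin N → ℝ) : ℝ :=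
  (N:ℝ)⁻¹ * ∑ m, c m * ((∑ i, g (m, i) * y i) ^ 2 - ∑ i, y i ^ 2)

/-- truncated exponential average of the centred quadratic form -/
def zfun (c : Fin M → ℝ) (g : Fin M × Fin N → ℝ) : ℝ :=
  ∫ y, {y : Fin N → ℝ | ∑ i, y i ^ 2 ≤ 4 * N}.indicator (fun y => Real.exp (-cquad c g y)) y ∂gauss (Fin N)

lemma measurableSet_ball : MeasurableSet {y : Fin N → ℝ | ∑ i, y i ^ 2 ≤ 4 * N} :=
  measurableSet_le (by fun_prop) measurable_const

lemma zfun_integrand_le (c : Fin M → ℝ) (hc : ∀ m, 0 ≤ c m) (g : Fin M × Fin N → ℝ) (y : Fin N → ℝ) :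
    {y : Fin N → ℝ | ∑ i, y i ^ 2 ≤ 4 * N}.indicator (fun y => Real.exp (-cquad c g y)) y ≤
      Real.exp (4 * ∑ m, c m) := by
  by_cases hy : y ∈ {y : Fin N → ℝ | ∑ i, y i ^ 2 ≤ 4 * N}
  · rw [Set.indicator_of_mem hy]
    refine Real.exp_le_exp.2 ?_
    rcases Nat.eq_zero_or_pos N with h | h
    · subst h; simp [cquad, Finset.sum_nonneg fun m (_ : m ∈ Finset.univ) => hc m]
    have hN : (0:ℝ) < N := by exact_mod_cast h
    have h1 : -(∑ m, c m * (4 * N)) ≤ ∑ m, c m * ((∑ i, g (m, i) * y i) ^ 2 - ∑ i, y i ^ 2) := by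
      rw [← Finset.sum_neg_distrib]
      refine Finset.sum_le_sum fun m _ => ?_
      rw [← mul_neg]
      exact mul_le_mul_of_nonneg_left (by nlinarith [sq_nonneg (∑ i, g (m, i) * y i), Set.mem_ofPred_eq ▸ hy]) (hc m)
    rw [cquad, inv_mul_eq_div, neg_le, le_div_iff₀ hN]
    rw [← Finset.sum_mul] at h1
    linarith
  · rw [Set.indicator_of_notMem hy]; exact (Real.exp_pos _).le

lemma continuous_cquad (c : Fin M → ℝ) :
    Continuous fun p : (Fin M × Fin N → ℝ) × (Fin N → ℝ) => cquad c p.1 p.2 := by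
  unfold cquad; fun_prop

lemma measurable_zintegrand (c : Fin M → ℝ) : Measurable fun p : (Fin M × Fin N → ℝ) × (Fin N → ℝ) =>
    {y : Fin N → ℝ | ∑ i, y i ^ 2 ≤ 4 * N}.indicator (fun y => Real.exp (-cquad c p.1 y)) p.2 := by
  have h : (fun p : (Fin M × Fin N → ℝ) × (Fin N → ℝ) =>
      {y : Fin N → ℝ | ∑ i, y i ^ 2 ≤ 4 * N}.indicator (fun y => Real.exp (-cquad c p.1 y)) p.2) =
      ((fun p : (Fin M × Fin N → ℝ) × (Fin N → ℝ) => p.2) ⁻¹' {y : Fin N → ℝ | ∑ i, y i ^ 2 ≤ 4 * N}).indicator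
        (fun p => Real.exp (-cquad c p.1 p.2)) := by
    funext p
    by_cases hp : p.2 ∈ {y : Fin N → ℝ | ∑ i, y i ^ 2 ≤ 4 * N}
    · rw [Set.indicator_of_mem hp, Set.indicator_of_mem (Set.mem_preimage.2 hp)]
    · rw [Set.indicator_of_notMem hp, Set.indicator_of_notMem (fun h => hp (Set.mem_preimage.1 h))]
  rw [h]
  exact (Real.measurable_exp.comp (continuous_cquad c).measurable.neg).indicator
    (measurable_snd measurableSet_ball)

lemma measurable_zfun (c : Fin M → ℝ) : Measurable (zfun (N := N) c) :=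
  (measurable_zintegrand c).stronglyMeasurable.integral_prod_right'.measurable

lemma zfun_nonneg (c : Fin M → ℝ) (g : Fin M × Fin N → ℝ) : 0 ≤ zfun c g :=
  integral_nonneg fun _ => Set.indicator_nonneg (fun _ _ => (Real.exp_pos _).le) _

lemma integrable_zintegrand (c : Fin M → ℝ) (hc : ∀ m, 0 ≤ c m) :
    Integrable (fun p : (Fin M × Fin N → ℝ) × (Fin N → ℝ) =>
      {y : Fin N → ℝ | ∑ i, y i ^ 2 ≤ 4 * N}.indicator (fun y => Real.exp (-cquad c p.1 y)) p.2)
      ((gauss (Fin M × Fin N)).prod (gauss (Fin N))) :=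
  Integrable.of_bound (measurable_zintegrand c).aestronglyMeasurable (Real.exp (4 * ∑ m, c m))
    (.of_forall fun p => by
      rw [Real.norm_eq_abs, abs_of_nonneg (Set.indicator_nonneg (fun _ _ => (Real.exp_pos _).le) _)]
      exact zfun_integrand_le c hc p.1 p.2)

/-- mean of the truncated exponential average -/
theorem mean_zfun {c : Fin M → ℝ} (hc : ∀ m, 0 ≤ c m) :
    ∫ g, zfun c g ∂gauss (Fin M × Fin N) ≤ Real.exp (32 * ∑ m, c m ^ 2) := by
  unfold zfun
  rw [integral_integral_swap (integrable_zintegrand c hc)]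
  refine (integral_mono (integrable_zintegrand c hc).integral_prod_right
    (integrable_const (Real.exp (32 * ∑ m, c m ^ 2))) fun y => ?_).trans_eq
    (by simp)
  by_cases hy : y ∈ {y : Fin N → ℝ | ∑ i, y i ^ 2 ≤ 4 * N}
  swap
  · simp only [Set.indicator_of_notMem hy, integral_zero]
    exact (Real.exp_pos _).le
  simp only [Set.indicator_of_mem hy]
  have hy' : ∑ i, y i ^ 2 ≤ 4 * N := hy
  set q := ∑ i, y i ^ 2
  rcases Nat.eq_zero_or_pos N with h | h
  · subst h
    have e : ∀ g : Fin M × Fin 0 → ℝ, cquad c g y = 0 := fun g => by simp [cquad]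
    simp only [e, neg_zero, Real.exp_zero, integral_const, probReal_univ, one_smul]
    exact Real.one_le_exp (by positivity)
  have hN : (0:ℝ) < N := by exact_mod_cast h
  set θ : Fin M → ℝ := fun m => -(c m / N)
  have hmp := mp_uncurry (Fin N) M
  rw [← hmp.map_eq, integral_map hmp.measurable.aemeasurable
    (by unfold cquad; exact Measurable.aestronglyMeasurable (by fun_prop))]
  have e : ∀ g : Fin M → Fin N → ℝ, Real.exp (-cquad c (fun p : Fin M × Fin N => g p.1 p.2) y) =
      ∏ m, Real.exp (θ m * ((∑ i, g m i * y i) ^ 2 - q)) := fun g => by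
    rw [← Real.exp_sum]
    congr 1
    simp only [cquad, θ, Finset.mul_sum, ← Finset.sum_neg_distrib]
    exact Finset.sum_congr rfl fun m _ => by ring
  simp only [e]
  rw [pats, integral_fintype_prod_eq_prod (fun m (x : Fin N → ℝ) => Real.exp (θ m * ((∑ i, x i * y i) ^ 2 - q))),
    Finset.mul_sum, Real.exp_sum]
  refine Finset.prod_le_prod (fun m _ => integral_nonneg fun x => (Real.exp_pos _).le) fun m _ => ?_
  have hq0 : 0 ≤ q := Finset.sum_nonneg fun i _ => sq_nonneg _
  rcases eq_or_lt_of_le hq0 with hq | hq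
  · have hz : ∀ x : Fin N → ℝ, ∑ i, x i * y i = 0 := fun x => Finset.sum_eq_zero fun i _ => by
      have := (Finset.sum_eq_zero_iff_of_nonneg fun i _ => sq_nonneg (y i)).1 hq.symm i (Finset.mem_univ i)
      rw [pow_eq_zero_iff two_ne_zero] at this
      rw [this, mul_zero]
    simp only [hz, ← hq]
    simp only [zero_pow two_ne_zero, sub_zero, mul_zero, Real.exp_zero, integral_const, probReal_univ, one_smul]
    exact Real.one_le_exp (by positivity)
  set u : Fin N → ℝ := fun i => y i / √q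
  have hu : ∑ i, u i ^ 2 = 1 := by
    simp only [u, div_pow, Real.sq_sqrt hq0, ← Finset.sum_div]
    exact div_self hq.ne'
  have hlin : ∀ x : Fin N → ℝ, (∑ i, x i * y i) ^ 2 = q * (∑ i, u i * x i) ^ 2 := fun x => by
    have : ∑ i, x i * y i = √q * ∑ i, u i * x i := by
      rw [Finset.mul_sum]
      refine Finset.sum_congr rfl fun i _ => ?_
      simp only [u]
      field_simp [(Real.sqrt_pos.2 hq).ne']
    rw [this, mul_pow, Real.sq_sqrt hq0]
  set s := c m * q / N
  have hs : 0 ≤ s := div_nonneg (mul_nonneg (hc m) hq0) hN.le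
  have hs4 : s ≤ 4 * c m := by
    simp only [s]; rw [div_le_iff₀ hN]; nlinarith [mul_le_mul_of_nonneg_left hy' (hc m)]
  have hint : ∫ x, Real.exp (θ m * ((∑ i, x i * y i) ^ 2 - q)) ∂gauss (Fin N) =
      Real.exp s * (√(1 - 2 * -s))⁻¹ := by
    have e2 : ∀ x : Fin N → ℝ, Real.exp (θ m * ((∑ i, x i * y i) ^ 2 - q)) =
        Real.exp s * Real.exp (-s * (∑ i, u i * x i) ^ 2) := fun x => by
      rw [← Real.exp_add, hlin]
      congr 1
      simp only [θ, s]
      ring
    simp only [e2]
    rw [integral_const_mul]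
    congr 1
    rw [show (∫ x, Real.exp (-s * (∑ i, u i * x i) ^ 2) ∂gauss (Fin N)) =
      ∫ t, Real.exp (-s * t ^ 2) ∂gaussianReal 0 1 from
        integral_linear u hu (F := fun t => Real.exp (-s * t ^ 2)) (by fun_prop), integral_exp_sq (by linarith)]
  rw [hint, show 1 - 2 * -s = 1 + 2 * s by ring, ← div_eq_mul_inv, div_le_iff₀ (Real.sqrt_pos.2 (by linarith))]
  have hl : 2 * s - (2 * s) ^ 2 ≤ Real.log (1 + 2 * s) := by
    refine le_trans ?_ (Real.one_sub_inv_le_log_of_pos (by linarith))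
    rw [← sub_nonneg]
    have : 1 - (1 + 2 * s)⁻¹ - (2 * s - (2 * s) ^ 2) = (2 * s) ^ 3 / (1 + 2 * s) := by field_simp; ring
    rw [this]; positivity
  rw [Real.sqrt_eq_rpow, Real.rpow_def_of_pos (by linarith), ← Real.exp_add]
  refine Real.exp_le_exp.2 ?_
  nlinarith [mul_le_mul hs4 hs4 hs (by linarith [hc m])]

/-- the constant in the cost of a unit step of one coordinate -/
def gK : ℝ := max (-Real.log ((gaussianReal 0 1).real (Set.Icc (-1) 1))) 1 + 4

lemma gauss_interval_lower {a : ℝ} (ha : 0 ≤ a) :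
    (√(2 * Real.pi))⁻¹ * Real.exp (-(a + 1) ^ 2 / 2) ≤ (gaussianReal 0 1).real (Set.Icc a (a + 1)) := by
  have hc : Continuous (gaussianPDFReal 0 1) := continuous_iff_continuousAt.2 fun t => (hasDerivAt_pdf t).continuousAt
  rw [measureReal_def, gaussianReal_apply_eq_integral _ one_ne_zero,
    ENNReal.toReal_ofReal (integral_nonneg fun t => gaussianPDFReal_nonneg _ _ _)]
  calc (√(2 * Real.pi))⁻¹ * Real.exp (-(a + 1) ^ 2 / 2)
      = ∫ _t in Set.Icc a (a + 1), (√(2 * Real.pi))⁻¹ * Real.exp (-(a + 1) ^ 2 / 2) := by simp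
    _ ≤ _ := by
        refine setIntegral_mono_on (integrableOn_const (by simp)) (hc.continuousOn.integrableOn_compact isCompact_Icc)
          measurableSet_Icc fun t ht => ?_
        simp only [gaussianPDFReal_def, NNReal.coe_one, mul_one, sub_zero]
        refine mul_le_mul_of_nonneg_left (Real.exp_le_exp.2 ?_) (by positivity)
        nlinarith [ht.1, ht.2]

/-- if the centred form is bounded above by `B` and some eigenvalue is below `-T`, the truncated average is big -/
theorem zfun_lower {c : Fin M → ℝ} (hc : ∀ m, 0 ≤ c m) {g : Fin M × Fin N → ℝ} {lam : Fin N → ℝ}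
    {Q : Matrix (Fin N) (Fin N) ℝ} (hQ : Q ∈ Matrix.orthogonalGroup (Fin N) ℝ)
    (hW : WC c g = Qᵀ * Matrix.diagonal lam * Q) {B T : ℝ} (hB : 0 ≤ B) (hT : 0 ≤ T)
    (htop : ∀ i, lam i - (∑ m, c m) / N ≤ B) {i0 : Fin N} (hbot : lam i0 - (∑ m, c m) / N ≤ -T) :
    Real.exp (T * N - B * N - gK * N) ≤ zfun c g := by
  classical
  have hN : (0:ℝ) < N := by exact_mod_cast i0.pos
  have hQ1 : ∀ i j, ∑ k, Q k i * Q k j = if i = j then 1 else 0 := fun i j => by
    have := congrFun (congrFun ((Matrix.mem_orthogonalGroup_iff' (Fin N) ℝ).1 hQ) i) j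
    simpa [Matrix.mul_apply, Matrix.transpose_apply, Matrix.one_apply] using this
  set z : (Fin N → ℝ) → Fin N → ℝ := fun y k => ∑ i, Q k i * y i
  have hnorm : ∀ y, ∑ k, z y k ^ 2 = ∑ i, y i ^ 2 := fun y => by
    simp only [z, sq, Finset.sum_mul_sum]
    rw [Finset.sum_comm]
    refine Finset.sum_congr rfl fun i _ => ?_
    rw [Finset.sum_comm]
    calc ∑ j, ∑ k, Q k i * y i * (Q k j * y j) = ∑ j, y i * y j * ∑ k, Q k i * Q k j :=
          Finset.sum_congr rfl fun j _ => by
            rw [Finset.mul_sum]; exact Finset.sum_congr rfl fun k _ => by ring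
      _ = _ := by simp [hQ1]
  have hquad : ∀ y, cquad c g y = ∑ k, (lam k - (∑ m, c m) / N) * z y k ^ 2 := fun y => by
    have hA : ∀ k l, (N:ℝ)⁻¹ * ∑ m, g (m, k) * c m * g (m, l) = ∑ j, Q j k * lam j * Q j l := fun k l => by
      have h := congrFun (congrFun hW k) l
      simp only [WC, XM, Matrix.smul_apply, smul_eq_mul, Matrix.mul_apply, Matrix.transpose_apply, Matrix.of_apply,
        Matrix.diagonal_apply, mul_ite, mul_zero, Finset.sum_ite_eq', Finset.mem_univ, if_true] at h
      exact h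
    simp only [cquad, sub_mul, Finset.sum_sub_distrib, mul_sub, ← Finset.mul_sum, hnorm, ← Finset.sum_mul]
    congr 1
    swap
    · ring
    calc (N:ℝ)⁻¹ * ∑ m, c m * (∑ i, g (m, i) * y i) ^ 2
        = ∑ k, ∑ l, y k * y l * ((N:ℝ)⁻¹ * ∑ m, g (m, k) * c m * g (m, l)) := by
          simp only [sq, Finset.sum_mul_sum]
          rw [Finset.mul_sum]
          simp only [Finset.mul_sum]
          rw [Finset.sum_comm]
          refine Finset.sum_congr rfl fun k _ => ?_
          rw [Finset.sum_comm]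
          exact Finset.sum_congr rfl fun l _ => Finset.sum_congr rfl fun m _ => by ring
      _ = ∑ j, lam j * z y j ^ 2 := by
          simp only [hA, z, sq, Finset.sum_mul_sum]
          simp only [Finset.mul_sum]
          conv_rhs => rw [Finset.sum_comm]
          refine Finset.sum_congr rfl fun k _ => ?_
          conv_rhs => rw [Finset.sum_comm]
          exact Finset.sum_congr rfl fun l _ => Finset.sum_congr rfl fun j _ => by ring
  -- the Gaussian law is invariant under `z`
  have hzm : Measurable z := by fun_prop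
  have hinv : (gauss (Fin N)).map z = gauss (Fin N) := by
    set U : Mat N := fun i k => Q k i
    have hU : Matrix.of U ∈ Matrix.orthogonalGroup (Fin N) ℝ := by
      rw [Matrix.mem_orthogonalGroup_iff]
      ext i j
      simpa [U, Matrix.mul_apply, Matrix.transpose_apply, Matrix.one_apply] using hQ1 i j
    have hp : MeasurePreserving (fun x : Fin 1 × Fin N → ℝ => fun i => x (0, i)) (gauss (Fin 1 × Fin N))
        (gauss (Fin N)) := mp_inj (gaussianReal 0 1) fun i j h => by simpa using h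
    have h1 := mp_rot (M := 1) hU
    have hr : Measurable (rot (M := 1) U) := by unfold rot; fun_prop
    conv_lhs => rw [← hp.map_eq, Measure.map_map hzm hp.measurable]
    conv_rhs => rw [← hp.map_eq, ← h1, Measure.map_map hp.measurable hr]
    congr 1
    funext x k
    simp only [Function.comp, rot, U, z]
    exact Finset.sum_congr rfl fun i _ => by ring
  set S : Set (Fin N → ℝ) := Set.univ.pi fun i =>
    if i = i0 then Set.Icc (√(N:ℝ)) (√(N:ℝ) + 1) else Set.Icc (-1:ℝ) 1
  have hSm : MeasurableSet S := MeasurableSet.univ_pi fun i => by split <;> exact measurableSet_Icc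
  have hs1 : 1 ≤ √(N:ℝ) := Real.one_le_sqrt.2 (by exact_mod_cast i0.pos)
  have hsN : √(N:ℝ) * √(N:ℝ) = N := Real.mul_self_sqrt hN.le
  have hcomp : ∀ w ∈ S, (N:ℝ) ≤ w i0 ^ 2 ∧ w i0 ^ 2 + ∑ i ∈ Finset.univ.erase i0, w i ^ 2 ≤ 4 * N ∧
      ∑ i ∈ Finset.univ.erase i0, w i ^ 2 ≤ (N:ℝ) := by
    intro w hw
    have h0 := hw i0 (Set.mem_univ i0)
    simp only [if_true] at h0
    have hrest : ∑ i ∈ Finset.univ.erase i0, w i ^ 2 ≤ (N:ℝ) - 1 := by
      refine (Finset.sum_le_card_nsmul _ _ 1 fun i hi => ?_).trans (le_of_eq ?_)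
      · have := hw i (Set.mem_univ i)
        simp only [if_neg (Finset.ne_of_mem_erase hi)] at this
        rw [sq_le_one_iff_abs_le_one, abs_le]; exact this
      · have h1 : 1 ≤ N := i0.pos
        simp [Nat.cast_sub h1]
    refine ⟨?_, ?_, by linarith⟩
    · nlinarith [h0.1, h0.2]
    · nlinarith [h0.1, h0.2]
  have hlow : ∀ y, S.indicator (fun _ => Real.exp (T * N - B * N)) (z y) ≤
      {y : Fin N → ℝ | ∑ i, y i ^ 2 ≤ 4 * N}.indicator (fun y => Real.exp (-cquad c g y)) y := by
    intro y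
    by_cases hy : z y ∈ S
    · obtain ⟨h1, h2, h3⟩ := hcomp _ hy
      have hmem : y ∈ {y : Fin N → ℝ | ∑ i, y i ^ 2 ≤ 4 * N} := by
        show ∑ i, y i ^ 2 ≤ 4 * N
        rw [← hnorm, ← Finset.add_sum_erase _ _ (Finset.mem_univ i0)]
        exact h2
      rw [Set.indicator_of_mem hy, Set.indicator_of_mem hmem]
      refine Real.exp_le_exp.2 ?_
      rw [hquad, ← Finset.add_sum_erase _ _ (Finset.mem_univ i0)]
      have h4 : ∑ k ∈ Finset.univ.erase i0, (lam k - (∑ m, c m) / N) * z y k ^ 2 ≤ B * N := by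
        refine (Finset.sum_le_sum fun k _ => mul_le_mul_of_nonneg_right (htop k) (sq_nonneg _)).trans ?_
        rw [← Finset.mul_sum]
        exact mul_le_mul_of_nonneg_left h3 hB
      nlinarith [mul_le_mul_of_nonneg_right hbot (sq_nonneg (z y i0)), mul_le_mul_of_nonneg_left h1 hT]
    · rw [Set.indicator_of_notMem hy]
      exact Set.indicator_nonneg (fun _ _ => (Real.exp_pos _).le) _
  have hi1 : Integrable (fun y => S.indicator (fun _ => Real.exp (T * N - B * N)) (z y)) (gauss (Fin N)) := by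
    refine Integrable.of_bound ((measurable_const.indicator hSm).comp hzm).aestronglyMeasurable
      (Real.exp (T * N - B * N)) (.of_forall fun y => ?_)
    rw [Real.norm_eq_abs, abs_of_nonneg (Set.indicator_nonneg (fun _ _ => (Real.exp_pos _).le) _)]
    exact Set.indicator_le' (fun _ _ => le_rfl) (fun _ _ => (Real.exp_pos _).le) _
  have hi2 : Integrable (fun y => {y : Fin N → ℝ | ∑ i, y i ^ 2 ≤ 4 * N}.indicator
      (fun y => Real.exp (-cquad c g y)) y) (gauss (Fin N)) := by
    refine Integrable.of_bound ((Real.measurable_exp.comp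
      ((by unfold cquad; fun_prop : Measurable (cquad c g)).neg)).indicator measurableSet_ball).aestronglyMeasurable
      (Real.exp (4 * ∑ m, c m)) (.of_forall fun y => ?_)
    rw [Real.norm_eq_abs, abs_of_nonneg (Set.indicator_nonneg (fun _ _ => (Real.exp_pos _).le) _)]
    exact zfun_integrand_le c hc g y
  refine le_trans ?_ (integral_mono hi1 hi2 hlow)
  rw [← integral_map (f := fun w => S.indicator (fun _ => Real.exp (T * N - B * N)) w) hzm.aemeasurable
    (measurable_const.indicator hSm).aestronglyMeasurable, hinv, integral_indicator_const _ hSm, smul_eq_mul]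
  set q := (gaussianReal 0 1).real (Set.Icc (-1:ℝ) 1)
  have hq : 0 < q := by
    have h := gauss_interval_lower (le_refl (0:ℝ))
    rw [zero_add] at h
    exact lt_of_lt_of_le (lt_of_lt_of_le (by positivity) h)
      (measureReal_mono (Set.Icc_subset_Icc (by norm_num) le_rfl))
  have hq1 : q ≤ 1 := measureReal_le_one
  have hS : q ^ N * ((√(2 * Real.pi))⁻¹ * Real.exp (-(√(N:ℝ) + 1) ^ 2 / 2)) ≤ (gauss (Fin N)).real S := by
    simp only [S, gauss, measureReal_def, Measure.pi_pi, ENNReal.toReal_prod]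
    rw [← Finset.mul_prod_erase _ _ (Finset.mem_univ i0)]
    simp only [if_true]
    rw [mul_comm]
    refine mul_le_mul (gauss_interval_lower (Real.sqrt_nonneg _)) ?_ (pow_nonneg hq.le _) ENNReal.toReal_nonneg
    rw [Finset.prod_congr rfl fun i hi => by rw [if_neg (Finset.ne_of_mem_erase hi)], Finset.prod_const,
      Finset.card_erase_of_mem (Finset.mem_univ _), Finset.card_univ, Fintype.card_fin]
    exact pow_le_pow_of_le_one hq.le hq1 (Nat.sub_le _ _)
  have hK : Real.exp (-gK * N) ≤ q ^ N * ((√(2 * Real.pi))⁻¹ * Real.exp (-(√(N:ℝ) + 1) ^ 2 / 2)) := by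
    have hpi : Real.exp (-1) ≤ (√(2 * Real.pi))⁻¹ := by
      rw [Real.exp_neg]
      refine inv_anti₀ (Real.sqrt_pos.2 (by positivity)) ?_
      rw [Real.sqrt_le_iff]
      refine ⟨(Real.exp_pos _).le, ?_⟩
      nlinarith [Real.exp_one_gt_d9, Real.pi_lt_d2, Real.pi_pos]
    rw [← Real.exp_log (pow_pos hq N), Real.log_pow]
    refine le_trans ?_ (mul_le_mul_of_nonneg_left (mul_le_mul_of_nonneg_right hpi (Real.exp_pos _).le) (Real.exp_pos _).le)
    rw [← Real.exp_add, ← Real.exp_add]
    refine Real.exp_le_exp.2 ?_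
    have hg : -Real.log q ≤ gK - 4 := by simp only [gK, q]; linarith [le_max_left (-Real.log q) 1]
    have hN1 : (1:ℝ) ≤ N := by exact_mod_cast i0.pos
    nlinarith [mul_le_mul_of_nonneg_left hg hN.le]
  rw [sub_eq_add_neg (T * N - B * N), ← neg_mul, Real.exp_add, mul_comm]
  exact mul_le_mul_of_nonneg_right (hK.trans hS) (Real.exp_pos _).le

end Vale.Agent.P166.Pattern.Multi
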