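import Vale.Agent.P166.Pattern.Multi.Resolvent

/-!
The largest eigenvalue of the Wishart matrix with several strengths.
-/

open MeasureTheory ProbabilityTheory Filter Matrix
open scoped Topology

noncomputable section

namespace Vale.Agent.P166.Pattern.Multi

variable {M N : ℕ}

lemma cp_wsqrt {κ : Type*} [Fintype κ] {w : κ → ℝ} (hw : ∀ p, 0 ≤ w p) :
    CP fun x : κ → ℝ => √(∑ p, w p * x p ^ 2) := by
  refine ⟨by fun_prop, ?_⟩
  refine (Poly.add (Poly.const (1:ℝ)) (Poly.sum Finset.univ fun p _ => ((poly_coord p).pow 2).const_mul (w p))).mono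
    fun x => ?_
  have h0 : 0 ≤ ∑ p, w p * x p ^ 2 := Finset.sum_nonneg fun p _ => mul_nonneg (hw p) (sq_nonneg _)
  rw [abs_of_nonneg (Real.sqrt_nonneg _), abs_of_nonneg (by linarith), Real.sqrt_le_iff]
  constructor <;> nlinarith

lemma integral_wsqrt_le {κ : Type*} [Fintype κ] {w : κ → ℝ} (hw : ∀ p, 0 ≤ w p) (hW : 0 < ∑ p, w p) :
    ∫ x, √(∑ p, w p * x p ^ 2) ∂gauss κ ≤ √(∑ p, w p) := by
  set s := √(∑ p, w p)
  have hs : 0 < s := Real.sqrt_pos.2 hW
  have hi : ∀ p, Integrable (fun x : κ → ℝ => x p ^ 2) (gauss κ) := fun p =>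
    integrable_poly (by fun_prop) ((poly_coord p).pow 2)
  have hv : ∀ p, ∫ x, x p ^ 2 ∂gauss κ = 1 := fun p => by
    have h := measurePreserving_eval (fun _ : κ => gaussianReal 0 1) p
    rw [gauss, ← integral_map (φ := fun x : κ → ℝ => x p) (f := fun t => t ^ 2) h.measurable.aemeasurable
      (by fun_prop)]
    rw [show Measure.map (fun x : κ → ℝ => x p) (Measure.pi fun _ : κ => gaussianReal 0 1) = gaussianReal 0 1
      from h.map_eq]
    simpa [sq] using integral_id_sq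
  have i1 : Integrable (fun x : κ → ℝ => (∑ p, w p * x p ^ 2) / s) (gauss κ) :=
    (integrable_finsetSum _ fun p _ => (hi p).const_mul (w p)).div_const _
  have hS : Integrable (fun x : κ → ℝ => ((∑ p, w p * x p ^ 2) / s + s) / 2) (gauss κ) :=
    (i1.add (integrable_const _)).div_const _
  refine (integral_mono (cp_wsqrt hw).integrable hS fun x => ?_).trans (le_of_eq ?_)
  · have h0 : 0 ≤ ∑ p, w p * x p ^ 2 := Finset.sum_nonneg fun p _ => mul_nonneg (hw p) (sq_nonneg _)
    rw [le_div_iff₀ two_pos, div_add' _ _ _ hs.ne', le_div_iff₀ hs]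
    nlinarith [sq_nonneg (√(∑ p, w p * x p ^ 2) - s), Real.sq_sqrt h0]
  · rw [integral_div, integral_add i1 (integrable_const _), integral_div,
      integral_finsetSum _ fun p _ => (hi p).const_mul (w p)]
    simp only [integral_const_mul, hv, mul_one, integral_const, probReal_univ, one_smul]
    have : s * s = ∑ p, w p := Real.mul_self_sqrt hW.le
    field_simp
    nlinarith

/-- the squared bound -/
def bd (N : ℕ) (c : Fin M → ℝ) (y : ℝ) : ℝ := (N:ℝ) / y + ∑ m, c m / (1 - y * c m)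

lemma bd_pos (hN : 0 < N) {c : Fin M → ℝ} (hc : ∀ m, 0 ≤ c m) {y : ℝ} (hy : 0 < y) (hyc : ∀ m, y * c m < 1) :
    0 < bd N c y :=
  add_pos_of_pos_of_nonneg (div_pos (by exact_mod_cast hN) hy)
    (Finset.sum_nonneg fun m _ => div_nonneg (hc m) (sub_nonneg.2 (hyc m).le))

/-- tail bound for finitely many test vectors -/
lemma tail_finite (hN : 0 < N) {c : Fin M → ℝ} (hc : ∀ m, c m ∈ Set.Icc (0:ℝ) 1) {y : ℝ} (hy : 0 < y)
    (hyc : ∀ m, y * c m < 1) {S : Type} [Fintype S] [Nonempty S]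
    (u : S → Fin M → ℝ) (v : S → Fin N → ℝ) (hu : ∀ σ, ∑ i, u σ i ^ 2 = 1) (hv : ∀ σ, ∑ i, v σ i ^ 2 = 1)
    {t : ℝ} (ht : 0 < t) :
    (gauss (Fin M × Fin N)).real {g | ∃ σ, √(bd N c y) + 1 + t < bil g (fun m => √(c m) * u σ m) (v σ)} ≤
      1 / t ^ 2 := by
  set θ : ℝ := Real.log (Fintype.card S) + 1
  have hl : 0 ≤ Real.log (Fintype.card S) := Real.log_natCast_nonneg _
  have hθ : 0 < θ := by simp only [θ]; linarith
  set U := fun σ m => √(c m) * u σ m
  set s : S → ℝ := fun σ => √(∑ m, c m * u σ m ^ 2)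
  have hs0 : ∀ σ, 0 ≤ ∑ m, c m * u σ m ^ 2 := fun σ =>
    Finset.sum_nonneg fun m _ => mul_nonneg (hc m).1 (sq_nonneg _)
  have hUsq : ∀ σ, ∑ m, U σ m ^ 2 = s σ ^ 2 := fun σ => by
    simp only [U, s, mul_pow, Real.sq_sqrt (hc _).1, Real.sq_sqrt (hs0 σ)]
  have hs1 : ∀ σ, s σ ≤ 1 := fun σ => by
    simp only [s]
    rw [Real.sqrt_le_one]
    exact (Finset.sum_le_sum fun m _ => mul_le_of_le_one_left (sq_nonneg _) (hc m).2).trans (hu σ).le
  set a : S → Fin M × Fin N → ℝ := fun σ p => U σ p.1 * v σ p.2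
  set b : S → Fin M ⊕ Fin N → ℝ := fun σ => Sum.elim (U σ) (fun i => s σ * v σ i)
  have hbil : ∀ g σ, bil g (U σ) (v σ) = lin a g σ := fun g σ => by
    simp only [bil, lin, a, Fintype.sum_prod_type]
    exact Finset.sum_congr rfl fun m _ => Finset.sum_congr rfl fun i _ => by ring
  have hca : ∀ σ τ, cov a σ τ = (∑ i, U σ i * U τ i) * ∑ i, v σ i * v τ i := fun σ τ => by
    simp only [cov, a, Fintype.sum_prod_type, Finset.sum_mul_sum]
    exact Finset.sum_congr rfl fun m _ => Finset.sum_congr rfl fun i _ => by ring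
  have hcb : ∀ σ τ, cov b σ τ = (∑ i, U σ i * U τ i) + s σ * s τ * ∑ i, v σ i * v τ i := fun σ τ => by
    simp only [cov, b, Fintype.sum_sum_type, Sum.elim_inl, Sum.elim_inr, Finset.mul_sum]
    congr 1
    exact Finset.sum_congr rfl fun i _ => by ring
  have hC : ∀ σ τ, |∑ i, U σ i * U τ i| ≤ s σ * s τ := fun σ τ => by
    rw [abs_le]
    constructor
    · have := Real.sum_mul_le_sqrt_mul_sqrt Finset.univ (fun i => -U σ i) (U τ)
      simp only [neg_mul, Finset.sum_neg_distrib, neg_sq, hUsq, Real.sqrt_sq (Real.sqrt_nonneg _), s] at this ⊢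
      linarith
    · have := Real.sum_mul_le_sqrt_mul_sqrt Finset.univ (U σ) (U τ)
      simpa only [hUsq, Real.sqrt_sq (Real.sqrt_nonneg _), s] using this
  have h1 : ∀ σ, ∑ i, U σ i * U σ i = s σ * s σ := fun σ => by simpa [sq] using hUsq σ
  have h2 : ∀ σ, ∑ i, v σ i * v σ i = 1 := fun σ => by simpa [sq] using hv σ
  have hK := smooth_lse (S := S) θ
  have hcov : ∀ σ τ, |cov a σ τ| ≤ 1 := fun σ τ => by
    rw [hca, abs_mul]
    exact mul_le_one₀ ((hC σ τ).trans (mul_le_one₀ (hs1 σ) (Real.sqrt_nonneg _) (hs1 τ))) (abs_nonneg _)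
      (abs_dot_le_one (hv σ) (hv τ))
  set B := bd N c y
  have hB : 0 < B := bd_pos hN (fun m => (hc m).1) hy hyc
  set w : Fin M ⊕ Fin N → ℝ := Sum.elim (fun m => c m / (1 - y * c m)) (fun _ => 1 / y)
  have hw : ∀ p, 0 ≤ w p := by
    rintro (m | i)
    · exact div_nonneg (hc m).1 (sub_nonneg.2 (hyc m).le)
    · exact (one_div_pos.2 hy).le
  have hwB : ∑ p, w p = B := by
    simp only [w, Fintype.sum_sum_type, Sum.elim_inl, Sum.elim_inr, B, bd, Finset.sum_const, Finset.card_univ,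
      Fintype.card_fin, nsmul_eq_mul, mul_one_div]
    ring
  have hpt : ∀ (x : Fin M ⊕ Fin N → ℝ) σ, lin b x σ ≤ √(∑ p, w p * x p ^ 2) := fun x σ => by
    set p : Fin M ⊕ Fin N → ℝ := Sum.elim (fun m => √(1 - y * c m) * u σ m) (fun i => √y * (s σ * v σ i))
    set q : Fin M ⊕ Fin N → ℝ := Sum.elim (fun m => √(c m) / √(1 - y * c m) * x (Sum.inl m))
      (fun i => x (Sum.inr i) / √y)
    have hy' : √y ≠ 0 := (Real.sqrt_pos.2 hy).ne'
    have hym : ∀ m, √(1 - y * c m) ≠ 0 := fun m => (Real.sqrt_pos.2 (sub_pos.2 (hyc m))).ne'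
    have e : lin b x σ = ∑ k, p k * q k := by
      simp only [lin, b, p, q, U, Fintype.sum_sum_type, Sum.elim_inl, Sum.elim_inr]
      congr 1
      · exact Finset.sum_congr rfl fun m _ => by have := hym m; field_simp
      · exact Finset.sum_congr rfl fun i _ => by field_simp
    have hp : ∑ k, p k ^ 2 = 1 := by
      simp only [p, Fintype.sum_sum_type, Sum.elim_inl, Sum.elim_inr, mul_pow, Real.sq_sqrt hy.le,
        ← Finset.mul_sum, hv σ, mul_one]
      rw [Finset.sum_congr rfl fun m _ => by rw [Real.sq_sqrt (sub_nonneg.2 (hyc m).le)], Real.sq_sqrt (hs0 σ),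
        Finset.mul_sum, ← Finset.sum_add_distrib]
      refine Eq.trans (Finset.sum_congr rfl fun m _ => ?_) (hu σ)
      ring
    have hq : ∑ k, q k ^ 2 = ∑ p, w p * x p ^ 2 := by
      simp only [q, w, Fintype.sum_sum_type, Sum.elim_inl, Sum.elim_inr, mul_pow, div_pow, Real.sq_sqrt hy.le]
      congr 1
      · exact Finset.sum_congr rfl fun m _ => by rw [Real.sq_sqrt (hc m).1, Real.sq_sqrt (sub_nonneg.2 (hyc m).le)]
      · exact Finset.sum_congr rfl fun i _ => by ring
    rw [e]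
    have := Real.sum_mul_le_sqrt_mul_sqrt Finset.univ p q
    rwa [hp, Real.sqrt_one, one_mul, hq] at this
  set E := ∫ x, lse θ (lin a x) ∂gauss (Fin M × Fin N)
  have hmean : E ≤ θ * √B := by
    refine (lse_compare θ a b fun σ τ => ?_).trans ?_
    · simp only [hca, hcb, h1, h2]
      nlinarith [mul_nonneg (sub_nonneg.2 (le_of_abs_le (hC σ τ)))
        (sub_nonneg.2 (le_of_abs_le (abs_dot_le_one (hv σ) (hv τ)))), sq_nonneg (s σ - s τ)]
    · have i1 : Integrable (fun x : Fin M ⊕ Fin N → ℝ => θ * √(∑ p, w p * x p ^ 2)) (gauss (Fin M ⊕ Fin N)) :=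
        (cp_wsqrt hw).integrable.const_mul θ
      refine (integral_mono (integrable_lin _ hK.cont hK.p0) i1 fun x => lse_le hθ.le _ (hpt x)).trans ?_
      rw [integral_const_mul, ← hwB]
      exact mul_le_mul_of_nonneg_left (integral_wsqrt_le hw (hwB ▸ hB)) hθ.le
  have hvar := lse_var θ a hcov
  have i0 : Integrable (fun x => lse θ (lin a x)) (gauss (Fin M × Fin N)) := integrable_lin _ hK.cont hK.p0
  have i1 : Integrable (fun x => lse θ (lin a x) * lse θ (lin a x)) (gauss (Fin M × Fin N)) :=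
    integrable_lin _ (F := fun y => lse θ y * lse θ y) (hK.cont.mul hK.cont) (hK.p0.mul hK.p0)
  have i2 : Integrable (fun x => lse θ (lin a x) * lse θ (lin a x) - 2 * E * lse θ (lin a x))
      (gauss (Fin M × Fin N)) := i1.sub (i0.const_mul _)
  have i3 : Integrable (fun x => (lse θ (lin a x) - E) ^ 2) (gauss (Fin M × Fin N)) :=
    (i2.add (integrable_const (E ^ 2))).congr (.of_forall fun x => by simp only [Pi.add_apply]; ring)
  have hv2 : ∫ x, (lse θ (lin a x) - E) ^ 2 ∂gauss (Fin M × Fin N) ≤ θ ^ 2 := by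
    refine le_trans (le_of_eq ?_) hvar
    rw [show (fun x => (lse θ (lin a x) - E) ^ 2) = fun x =>
        lse θ (lin a x) * lse θ (lin a x) - 2 * E * lse θ (lin a x) + E ^ 2 by funext x; ring,
      integral_add i2 (integrable_const _), integral_sub i1 (i0.const_mul _), integral_const_mul, integral_const]
    simp only [probReal_univ, one_smul, E]
    ring
  have hcheb := mul_meas_ge_le_integral_of_nonneg (.of_forall fun x => sq_nonneg _) i3 ((θ * t) ^ 2)
  have hsub : {g : Fin M × Fin N → ℝ | ∃ σ, √B + 1 + t < bil g (U σ) (v σ)} ⊆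
      {x | (θ * t) ^ 2 ≤ (lse θ (lin a x) - E) ^ 2} := by
    rintro g ⟨σ, hσ⟩
    rw [hbil] at hσ
    have h := le_lse θ (lin a g) σ
    have h3 := mul_le_mul_of_nonneg_left hσ.le hθ.le
    show (θ * t) ^ 2 ≤ (lse θ (lin a g) - E) ^ 2
    refine pow_le_pow_left₀ (by positivity) ?_ 2
    simp only [θ] at h3 hmean h ⊢
    nlinarith
  have h4 : (gauss (Fin M × Fin N)).real {g | ∃ σ, √B + 1 + t < bil g (U σ) (v σ)} ≤
      (gauss (Fin M × Fin N)).real {x | (θ * t) ^ 2 ≤ (lse θ (lin a x) - E) ^ 2} :=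
    measureReal_mono hsub
  rw [le_div_iff₀ (by positivity)]
  have h5 := hcheb.trans hv2
  nlinarith [mul_le_mul_of_nonneg_left h4 (show 0 ≤ θ ^ 2 * t ^ 2 by positivity), sq_pos_of_pos hθ]

/-- with high probability the weighted pattern matrix has norm at most `√(bd N c y) + 1 + t` -/
theorem tail_norm (hM : 0 < M) (hN : 0 < N) {c : Fin M → ℝ} (hc : ∀ m, c m ∈ Set.Icc (0:ℝ) 1) {y : ℝ}
    (hy : 0 < y) (hyc : ∀ m, y * c m < 1) {t : ℝ} (ht : 0 < t) :
    (gauss (Fin M × Fin N)).real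
      {g | ∃ v : Fin N → ℝ, ∑ i, v i ^ 2 = 1 ∧
        (√(bd N c y) + 1 + t) ^ 2 < ∑ m, c m * (∑ i, g (m, i) * v i) ^ 2} ≤ 1 / t ^ 2 := by
  set a := √(bd N c y) + 1 + t
  have ha : 0 < a := by positivity
  have ne : ∀ {k : ℕ}, 0 < k → Nonempty {u : Fin k → ℝ // ∑ i, u i ^ 2 = 1} := fun {k} hk =>
    ⟨⟨(Pi.single (⟨0, hk⟩ : Fin k) (1:ℝ) : Fin k → ℝ), by simp [Pi.single_apply]⟩⟩
  have := ne hM; have := ne hN
  obtain ⟨q, hq⟩ := TopologicalSpace.exists_dense_seq
    ({u : Fin M → ℝ // ∑ i, u i ^ 2 = 1} × {v : Fin N → ℝ // ∑ i, v i ^ 2 = 1})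
  set T := fun n : ℕ => {g : Fin M × Fin N → ℝ |
    ∃ σ : Fin (n + 1), a < bil g (fun m => √(c m) * (q σ).1.1 m) (q σ).2.1}
  have hT : ∀ n, (gauss (Fin M × Fin N)).real (T n) ≤ 1 / t ^ 2 := fun n =>
    tail_finite hN hc hy hyc (fun σ : Fin (n + 1) => (q σ).1.1) (fun σ => (q σ).2.1) (fun σ => (q σ).1.2)
      (fun σ => (q σ).2.2) ht
  have hmono : Monotone T := by
    intro n m hnm g hg
    obtain ⟨σ, hσ⟩ := hg
    exact ⟨⟨σ, by omega⟩, hσ⟩
  have hsub : {g | ∃ v : Fin N → ℝ, ∑ i, v i ^ 2 = 1 ∧ a ^ 2 < ∑ m, c m * (∑ i, g (m, i) * v i) ^ 2} ⊆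
      ⋃ n, T n := by
    rintro g ⟨v, hv, hg⟩
    set z := fun m => √(c m) * ∑ i, g (m, i) * v i
    have hz : ∑ m, c m * (∑ i, g (m, i) * v i) ^ 2 = ∑ m, z m ^ 2 := by
      simp only [z, mul_pow, Real.sq_sqrt (hc _).1]
    rw [hz] at hg
    set s := √(∑ m, z m ^ 2)
    have hs : a < s := (Real.lt_sqrt ha.le).2 hg
    have hs0 : 0 < s := ha.trans hs
    have hss : s * s = ∑ m, z m ^ 2 := Real.mul_self_sqrt (Finset.sum_nonneg fun m _ => sq_nonneg _)
    have hu : ∑ m, (z m / s) ^ 2 = 1 := by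
      simp only [div_pow, ← Finset.sum_div, ← hss]
      field_simp
    set x : {u : Fin M → ℝ // ∑ i, u i ^ 2 = 1} × {v : Fin N → ℝ // ∑ i, v i ^ 2 = 1} :=
      (⟨fun m => z m / s, hu⟩, ⟨v, hv⟩)
    have hbx : a < bil g (fun m => √(c m) * x.1.1 m) x.2.1 := by
      have e : bil g (fun m => √(c m) * (z m / s)) v = s := by
        have : bil g (fun m => √(c m) * (z m / s)) v = ∑ m, z m / s * z m := by
          simp only [bil, z, Finset.mul_sum]
          exact Finset.sum_congr rfl fun m _ => Finset.sum_congr rfl fun i _ => by ring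
        rw [this, show ∑ m, z m / s * z m = (∑ m, z m ^ 2) / s by
          rw [Finset.sum_div]; exact Finset.sum_congr rfl fun m _ => by ring, ← hss]
        field_simp
      simpa [x, e] using hs
    have hopen : IsOpen {p : {u : Fin M → ℝ // ∑ i, u i ^ 2 = 1} × {v : Fin N → ℝ // ∑ i, v i ^ 2 = 1} |
        a < bil g (fun m => √(c m) * p.1.1 m) p.2.1} := by
      refine isOpen_lt continuous_const ?_
      unfold bil
      exact continuous_finsetSum _ fun m _ => continuous_finsetSum _ fun i _ =>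
        ((continuous_const.mul ((continuous_apply m).comp (continuous_subtype_val.comp continuous_fst))).mul
          continuous_const).mul ((continuous_apply i).comp (continuous_subtype_val.comp continuous_snd))
    obtain ⟨n, hn⟩ := hq.exists_mem_open hopen ⟨x, hbx⟩
    exact Set.mem_iUnion.2 ⟨n, Fin.last n, by simpa using hn⟩
  refine le_trans (measureReal_mono hsub) ?_
  rw [measureReal_def]
  refine ENNReal.toReal_le_of_le_ofReal (by positivity) ?_
  rw [hmono.measure_iUnion]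
  exact iSup_le fun n => by
    rw [← ofReal_measureReal]; exact ENNReal.ofReal_le_ofReal (hT n)

/-- diagonalisation of the weighted Wishart matrix -/
theorem exists_eig {c : Fin M → ℝ} (hc : ∀ m, 0 ≤ c m) (g : Fin M × Fin N → ℝ) :
    ∃ (lam : Fin N → ℝ) (Q : Matrix (Fin N) (Fin N) ℝ), Q ∈ Matrix.orthogonalGroup (Fin N) ℝ ∧
      WC c g = Qᵀ * Matrix.diagonal lam * Q ∧ (∀ i, 0 ≤ lam i) ∧
      ∀ a : ℝ, (∀ v : Fin N → ℝ, ∑ i, v i ^ 2 = 1 → ∑ m, c m * (∑ i, g (m, i) * v i) ^ 2 ≤ a) →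
        ∀ i, lam i ≤ a / N := by
  have hh : (WC c g).IsHermitian := by
    rw [Matrix.IsHermitian, Matrix.conjTranspose_eq_transpose_of_trivial, WC, Matrix.transpose_smul,
      Matrix.transpose_mul, Matrix.transpose_mul, Matrix.transpose_transpose, Matrix.diagonal_transpose,
      Matrix.mul_assoc]
  set U : Matrix (Fin N) (Fin N) ℝ := (hh.eigenvectorUnitary : Matrix (Fin N) (Fin N) ℝ)
  have hU1 : Uᵀ * U = 1 := by
    have := (Matrix.mem_unitaryGroup_iff').1 hh.eigenvectorUnitary.2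
    simpa [U, Matrix.star_eq_conjTranspose] using this
  set lam := hh.eigenvalues
  have hW : WC c g = U * Matrix.diagonal lam * Uᵀ := by
    have := hh.spectral_theorem
    simp only [Unitary.conjStarAlgAut_apply] at this
    simpa [U, lam, Matrix.star_eq_conjTranspose, Function.comp_def] using this
  have hquad : ∀ i, lam i * N = ∑ m, c m * (∑ j, g (m, j) * U j i) ^ 2 := by
    intro i
    have e : (Uᵀ * WC c g * U) i i = lam i := by
      rw [hW]
      calc (Uᵀ * (U * Matrix.diagonal lam * Uᵀ) * U) i i = ((Uᵀ * U) * Matrix.diagonal lam * (Uᵀ * U)) i i := by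
            simp only [Matrix.mul_assoc]
        _ = lam i := by rw [hU1]; simp
    have e2 : (Uᵀ * WC c g * U) i i = (N:ℝ)⁻¹ * ∑ m, c m * (∑ j, g (m, j) * U j i) ^ 2 := by
      simp only [WC, Matrix.mul_smul, Matrix.smul_mul, Matrix.smul_apply, smul_eq_mul]
      rw [show Uᵀ * ((XM g)ᵀ * Matrix.diagonal c * XM g) * U = (XM g * U)ᵀ * Matrix.diagonal c * (XM g * U) by
        rw [Matrix.transpose_mul]; simp only [Matrix.mul_assoc]]
      congr 1
      rw [Matrix.mul_apply]
      refine Finset.sum_congr rfl fun m _ => ?_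
      rw [Matrix.mul_diagonal]
      simp only [Matrix.mul_apply, Matrix.transpose_apply, XM, Matrix.of_apply]
      ring
    rw [← e, e2]
    have hN : (N:ℝ) ≠ 0 := by exact_mod_cast (i.pos).ne'
    field_simp
  refine ⟨lam, Uᵀ, ?_, by rw [Matrix.transpose_transpose]; exact hW, fun i => ?_, fun a ha i => ?_⟩
  · rw [Matrix.mem_orthogonalGroup_iff]; simpa using hU1
  · have h := hquad i
    have hN : (0:ℝ) < N := by exact_mod_cast i.pos
    nlinarith [Finset.sum_nonneg fun m (_ : m ∈ Finset.univ) =>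
      mul_nonneg (hc m) (sq_nonneg (∑ j, g (m, j) * U j i))]
  · rw [le_div_iff₀ (by exact_mod_cast i.pos), hquad i]
    refine ha _ ?_
    have := congrFun (congrFun hU1 i) i
    simpa [Matrix.mul_apply, sq] using this

end Vale.Agent.P166.Pattern.Multi
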