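import Vale.Agent.P166.Pattern.Multi.Above

/-!
Analytic facts about the free Lévy-Khintchine kernel: the top of the support of a law is at least the
edge of its kernel, and the equation near infinity determines the law.
-/

open MeasureTheory Filter
open scoped Topology ENNReal

noncomputable section

namespace Vale.Agent.P166.Pattern.Multi

/-- the kernel `γ + ∫ y/(1 - x y) dρ(x)` -/
def Rk (γ : ℝ) (ρ : Measure ℝ) (y : ℝ) : ℝ := γ + ∫ x, y / (1 - x * y) ∂ρ

/-- admissible arguments of the kernel -/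
def dom (ρ : Measure ℝ) : Set ℝ := {y | 0 < y ∧ y * sSup ρ.support < 1}

/-- the upper edge of the kernel -/
def edgeR (γ : ℝ) (ρ : Measure ℝ) : ℝ := sInf ((fun y => 1 / y + Rk γ ρ y) '' dom ρ)

/-- Cauchy transform on the real line, to the right of the support -/
def cauchy (μ : Measure ℝ) (w : ℝ) : ℝ := ∫ x, 1 / (w - x) ∂μ

/-- a finite measure carried by a bounded interval `[0, A]` -/
structure Carried (ρ : Measure ℝ) (A : ℝ) : Prop where
  finite : IsFiniteMeasure ρ
  nonneg : 0 ≤ A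
  mem : ∀ᵐ x ∂ρ, x ∈ Set.Icc 0 A

lemma Carried.support_subset {ρ : Measure ℝ} {A : ℝ} (h : Carried ρ A) : ρ.support ⊆ Set.Icc 0 A :=
  Measure.support_subset_of_isClosed isClosed_Icc h.mem

lemma Carried.top_nonneg {ρ : Measure ℝ} {A : ℝ} (h : Carried ρ A) : 0 ≤ sSup ρ.support :=
  Real.sSup_nonneg fun _ hx => (h.support_subset hx).1

lemma Carried.top_le {ρ : Measure ℝ} {A : ℝ} (h : Carried ρ A) : sSup ρ.support ≤ A :=
  Real.sSup_le (fun _ hx => (h.support_subset hx).2) h.nonneg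

lemma Carried.ae_top {ρ : Measure ℝ} {A : ℝ} (h : Carried ρ A) : ∀ᵐ x ∂ρ, x ∈ Set.Icc 0 (sSup ρ.support) := by
  filter_upwards [Measure.support_mem_ae (μ := ρ)] with x hx
  exact ⟨(h.support_subset hx).1, le_csSup (bddAbove_Icc.mono h.support_subset) hx⟩

lemma Carried.den_pos {ρ : Measure ℝ} {A : ℝ} (h : Carried ρ A) {y : ℝ} (hy : y ∈ dom ρ) :
    ∀ᵐ x ∂ρ, 0 ≤ x ∧ 1 - y * sSup ρ.support ≤ 1 - x * y :=
  h.ae_top.mono fun x hx => ⟨hx.1, by nlinarith [mul_le_mul_of_nonneg_left hx.2 hy.1.le]⟩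

/-- coefficients of a geometric kernel -/
def gco (ρ : Measure ℝ) (c q : ℝ → ℝ) (k : ℕ) : ℝ := ∫ x, c x * q x ^ k ∂ρ

/-- an integral of geometric series is analytic -/
theorem geom_hasFPS {ρ : Measure ℝ} [IsFiniteMeasure ρ] {c q : ℝ → ℝ} (hcm : Measurable c) (hqm : Measurable q)
    {C Q : ℝ} (hQ : 0 < Q) (hb : ∀ᵐ x ∂ρ, |c x| ≤ C ∧ |q x| ≤ Q) :
    HasFPowerSeriesAt (fun h => ∫ x, c x / (1 - q x * h) ∂ρ) (FormalMultilinearSeries.ofScalars ℝ (gco ρ c q)) 0 := by
  set p := FormalMultilinearSeries.ofScalars ℝ (gco ρ c q)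
  set R : NNReal := ⟨1 / (2 * Q), by positivity⟩
  set m := ρ.real Set.univ
  have hm : 0 ≤ m := measureReal_nonneg
  have hco : ∀ k, |gco ρ c q k| ≤ |C| * Q ^ k * m := fun k => by
    rw [← Real.norm_eq_abs]
    refine norm_integral_le_of_norm_le_const (hb.mono fun x hx => ?_)
    rw [Real.norm_eq_abs, abs_mul, abs_pow]
    exact mul_le_mul (hx.1.trans (le_abs_self C)) (pow_le_pow_left₀ (abs_nonneg _) hx.2 k) (by positivity) (abs_nonneg C)
  have hrad : (R : ℝ≥0∞) ≤ p.radius := by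
    refine p.le_radius_of_bound (|C| * m) fun n => ?_
    rw [FormalMultilinearSeries.ofScalars_norm, Real.norm_eq_abs]
    show |gco ρ c q n| * (1 / (2 * Q)) ^ n ≤ |C| * m
    refine (mul_le_mul_of_nonneg_right (hco n) (by positivity)).trans ?_
    have h1 : Q ^ n * (1 / (2 * Q)) ^ n ≤ 1 := by
      rw [← mul_pow]
      refine pow_le_one₀ (by positivity) ?_
      rw [mul_one_div, div_le_one (by positivity)]; linarith
    nlinarith [mul_le_mul_of_nonneg_left h1 (mul_nonneg (abs_nonneg C) hm)]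
  have hR : (0 : ℝ≥0∞) < R := by
    refine ENNReal.coe_pos.2 ?_
    show (0:ℝ) < 1 / (2 * Q)
    positivity
  refine ⟨R, ((p.hasFPowerSeriesOnBall (hR.trans_le hrad)).mono hR hrad).congr fun h hh => ?_⟩
  have hh' : |h| < 1 / (2 * Q) := by
    have h1 : edist h 0 < (R : ℝ≥0∞) := hh
    rw [edist_dist, ← ENNReal.ofReal_coe_nnreal, ENNReal.ofReal_lt_ofReal_iff (show (0:ℝ) < (R:ℝ) from ENNReal.coe_pos.1 hR),
      Real.dist_eq, sub_zero] at h1
    exact h1
  set d := Q * |h|
  have hd0 : 0 ≤ d := by positivity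
  have hd1 : d < 1 := by
    have := mul_lt_mul_of_pos_left hh' hQ
    rw [mul_one_div, show Q / (2 * Q) = 1 / 2 by field_simp] at this
    linarith
  have hsum : p.sum h = ∑' k : ℕ, gco ρ c q k * h ^ k := by
    simp [p, FormalMultilinearSeries.sum, mul_comm]
  have hS : Summable fun k : ℕ => gco ρ c q k * h ^ k := by
    refine Summable.of_norm_bounded ((summable_geometric_of_lt_one hd0 hd1).mul_left (|C| * m)) fun k => ?_
    rw [Real.norm_eq_abs, abs_mul, abs_pow, mul_pow]
    nlinarith [mul_le_mul_of_nonneg_right (hco k) (pow_nonneg (abs_nonneg h) k)]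
  have hi : ∀ k : ℕ, Integrable (fun x => c x * q x ^ k) ρ := fun k =>
    Integrable.of_bound (hcm.mul (hqm.pow_const k)).aestronglyMeasurable (|C| * Q ^ k) (hb.mono fun x hx => by
      rw [Real.norm_eq_abs, abs_mul, abs_pow]
      exact mul_le_mul (hx.1.trans (le_abs_self C)) (pow_le_pow_left₀ (abs_nonneg _) hx.2 k) (by positivity) (abs_nonneg C))
  have hb' : ∀ᵐ x ∂ρ, |c x| ≤ |C| ∧ |q x * h| ≤ d := hb.mono fun x hx =>
    ⟨hx.1.trans (le_abs_self C), by rw [abs_mul]; exact mul_le_mul_of_nonneg_right hx.2 (abs_nonneg h)⟩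
  have hI : Integrable (fun x => c x / (1 - q x * h)) ρ := by
    refine Integrable.of_bound (hcm.div (measurable_const.sub (hqm.mul_const h))).aestronglyMeasurable
      (|C| / (1 - d)) (hb'.mono fun x hx => ?_)
    have := abs_le.1 hx.2
    rw [Real.norm_eq_abs, abs_div, abs_of_pos (show 0 < 1 - q x * h by linarith)]
    exact div_le_div₀ (abs_nonneg C) hx.1 (by linarith) (by linarith)
  rw [hsum]
  refine tendsto_nhds_unique hS.hasSum.tendsto_sum_nat ?_
  rw [tendsto_iff_dist_tendsto_zero]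
  refine squeeze_zero (fun n => dist_nonneg) (fun n => ?_)
    (show Tendsto (fun n => |C| * (d ^ n / (1 - d)) * m) atTop (𝓝 0) by
      simpa using (((tendsto_pow_atTop_nhds_zero_of_lt_one hd0 hd1).div_const (1 - d)).const_mul |C|).mul_const m)
  have e : ∑ k ∈ Finset.range n, gco ρ c q k * h ^ k = ∫ x, ∑ k ∈ Finset.range n, c x * (q x * h) ^ k ∂ρ := by
    rw [integral_finsetSum]
    · exact Finset.sum_congr rfl fun k _ => by rw [gco, ← integral_mul_const]; congr 1; funext x; ring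
    · intro k _; simp only [mul_pow, ← mul_assoc]; exact (hi k).mul_const _
  rw [e, Real.dist_eq, ← integral_sub (integrable_finsetSum _ fun k _ => by
    simp only [mul_pow, ← mul_assoc]; exact (hi k).mul_const _) hI, ← Real.norm_eq_abs]
  refine norm_integral_le_of_norm_le_const (hb'.mono fun x hx => ?_)
  have h1 := abs_le.1 hx.2
  have hg := geom_sum_mul (q x * h) n
  have e2 : ∑ k ∈ Finset.range n, c x * (q x * h) ^ k - c x / (1 - q x * h) =
      -(c x * ((q x * h) ^ n / (1 - q x * h))) := by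
    rw [← Finset.mul_sum, eq_neg_iff_add_eq_zero]
    have hne : (1 - q x * h) ≠ 0 := by linarith
    field_simp
    linear_combination (-(c x)) * hg
  rw [e2, norm_neg, Real.norm_eq_abs, abs_mul, abs_div, abs_of_pos (show 0 < 1 - q x * h by linarith), abs_pow]
  exact mul_le_mul hx.1 (div_le_div₀ (by positivity) (pow_le_pow_left₀ (abs_nonneg _) hx.2 n) (by linarith)
    (by linarith)) (by have : 0 < 1 - q x * h := by linarith
                       positivity) (abs_nonneg C)

/-- the kernel integral around an interior point -/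
lemma inner_series {ρ : Measure ℝ} {A : ℝ} (h : Carried ρ A) {y0 : ℝ} (hy : y0 ∈ dom ρ) :
    HasFPowerSeriesAt (fun y => ∫ x, 1 / (1 - x * y) ∂ρ)
      (FormalMultilinearSeries.ofScalars ℝ (gco ρ (fun x => 1 / (1 - x * y0)) fun x => x / (1 - x * y0))) y0 := by
  haveI := h.finite
  set A0 := sSup ρ.support
  have hA0 : 0 ≤ A0 := h.top_nonneg
  have hd : 0 < 1 - y0 * A0 := sub_pos.2 hy.2
  have hb : ∀ᵐ x ∂ρ, |1 / (1 - x * y0)| ≤ 1 / (1 - y0 * A0) ∧ |x / (1 - x * y0)| ≤ (A0 + 1) / (1 - y0 * A0) := by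
    filter_upwards [h.den_pos hy, h.ae_top] with x hx hx'
    have h0 : 0 < 1 - x * y0 := hd.trans_le hx.2
    rw [abs_of_pos (one_div_pos.2 h0), abs_of_nonneg (div_nonneg hx.1 h0.le)]
    exact ⟨one_div_le_one_div_of_le hd hx.2, div_le_div₀ (by linarith) (by linarith [hx'.2]) hd hx.2⟩
  have hs := geom_hasFPS (ρ := ρ) (c := fun x => 1 / (1 - x * y0)) (q := fun x => x / (1 - x * y0))
    (by fun_prop) (by fun_prop) (by positivity) hb
  obtain ⟨R, hR⟩ := hs
  have := hR.comp_sub y0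
  rw [zero_add] at this
  refine (HasFPowerSeriesOnBall.hasFPowerSeriesAt this).congr (.of_forall fun y => ?_)
  refine integral_congr_ae (h.den_pos hy |>.mono fun x hx => ?_)
  have h0 : 0 < 1 - x * y0 := hd.trans_le hx.2
  have e : 1 - x * y = (1 - x * y0) * (1 - x / (1 - x * y0) * (y - y0)) := by
    field_simp
    ring
  show 1 / (1 - x * y0) / (1 - x / (1 - x * y0) * (y - y0)) = 1 / (1 - x * y)
  rw [e, div_div]

lemma Rk_eq {ρ : Measure ℝ} (γ y : ℝ) : Rk γ ρ y = γ + y * ∫ x, 1 / (1 - x * y) ∂ρ := by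
  rw [Rk, ← integral_const_mul]
  congr 1
  congr 1
  funext x
  ring

lemma analytic_Rk {ρ : Measure ℝ} {A : ℝ} (h : Carried ρ A) (γ : ℝ) {y0 : ℝ} (hy : y0 ∈ dom ρ) :
    AnalyticAt ℝ (Rk γ ρ) y0 := by
  rw [show Rk γ ρ = fun y => γ + y * ∫ x, 1 / (1 - x * y) ∂ρ from funext (Rk_eq γ)]
  exact analyticAt_const.add (analyticAt_id.mul (inner_series h hy).analyticAt)

/-- no analytic function continues the kernel across `1 / sup supp ρ` -/
theorem no_continuation {ρ : Measure ℝ} {A : ℝ} (h : Carried ρ A) (γ : ℝ) (hA0 : 0 < sSup ρ.support) {f : ℝ → ℝ}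
    (hf : AnalyticAt ℝ f (1 / sSup ρ.support)) (hag : ∀ᶠ y in 𝓝[<] (1 / sSup ρ.support), f y = Rk γ ρ y) :
    False := by
  haveI := h.finite
  set A0 := sSup ρ.support
  set y1 := 1 / A0
  have hy1 : 0 < y1 := by positivity
  set K := fun y => (f y - γ) / y
  have hK : AnalyticAt ℝ K y1 := (hf.sub analyticAt_const).div analyticAt_id hy1.ne'
  obtain ⟨p, R, hp⟩ := hK
  obtain ⟨δ, hδ0, hδR⟩ := ENNReal.lt_iff_exists_nnreal_btwn.1 hp.r_pos
  have hδ : (0:ℝ) < δ := by exact_mod_cast hδ0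
  obtain ⟨l, hl, hsub⟩ := mem_nhdsLT_iff_exists_Ioo_subset.1 hag
  obtain ⟨y0, h0l, h01⟩ := exists_between (show max (max l 0) (y1 - (δ:ℝ) / 3) < y1 from
    max_lt (max_lt hl hy1) (by linarith))
  simp only [max_lt_iff] at h0l
  obtain ⟨⟨hl0, hy0⟩, hd3⟩ := h0l
  have hdom : y0 ∈ dom ρ := ⟨hy0, by
    have := mul_lt_mul_of_pos_right h01 hA0
    simp only [y1] at this
    rw [div_mul_cancel₀ _ hA0.ne'] at this
    exact this⟩
  have hk := inner_series h hdom
  set b := gco ρ (fun x => 1 / (1 - x * y0)) fun x => x / (1 - x * y0)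
  have hagree : ∀ᶠ y in 𝓝 y0, K y = ∫ x, 1 / (1 - x * y) ∂ρ := by
    filter_upwards [Ioo_mem_nhds hl0 h01, eventually_gt_nhds hy0] with y hy hy'
    have := hsub hy
    show (f y - γ) / y = _
    rw [show f y = Rk γ ρ y from this, Rk_eq]
    field_simp
    ring
  have hlt : ‖y0 - y1‖ₑ < (δ : ℝ≥0∞) := by
    rw [← ofReal_norm, ← ENNReal.ofReal_coe_nnreal, ENNReal.ofReal_lt_ofReal_iff hδ,
      Real.norm_eq_abs, abs_of_neg (sub_neg.2 h01)]
    linarith
  have hp0 := (hp.mono (by exact_mod_cast hδ0) hδR.le).changeOrigin (y := y0 - y1) hlt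
  rw [add_sub_cancel] at hp0
  have hEq := (hp0.hasFPowerSeriesAt.congr hagree).eq_formalMultilinearSeries hk
  set r : NNReal := δ / 2
  have hr : (r : ℝ) = δ / 2 := by simp [r]
  have hrad : (r : ℝ≥0∞) < (p.changeOrigin (y0 - y1)).radius := by
    refine lt_of_lt_of_le ?_ hp0.r_le
    rw [lt_tsub_iff_right, ← ENNReal.ofReal_coe_nnreal, ← ENNReal.ofReal_coe_nnreal (p := δ), ← enorm_eq_nnnorm, ← ofReal_norm,
      ← ENNReal.ofReal_add r.coe_nonneg (norm_nonneg _), ENNReal.ofReal_lt_ofReal_iff hδ, hr,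
      Real.norm_eq_abs, abs_of_neg (sub_neg.2 h01)]
    linarith
  obtain ⟨C, -, hC⟩ := (p.changeOrigin (y0 - y1)).norm_mul_pow_le_of_lt_radius hrad
  rw [hEq] at hC
  -- a point of the support below the top whose ratio exceeds one
  set φ := fun x : ℝ => x / (1 - x * y0) * r
  have hd1 : 0 < 1 - A0 * y0 := by rw [mul_comm]; exact sub_pos.2 hdom.2
  have hφA : 1 < φ A0 := by
    simp only [φ, hr]
    rw [div_mul_eq_mul_div, lt_div_iff₀ hd1, one_mul]
    have h5 : A0 * y1 = 1 := by simp only [y1]; field_simp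
    nlinarith [mul_lt_mul_of_pos_left hd3 hA0]
  have hφc : ContinuousAt φ A0 := by
    have h1 : ContinuousAt (fun x : ℝ => x / (1 - x * y0)) A0 := continuousAt_id.div (by fun_prop) hd1.ne'
    exact h1.mul continuousAt_const
  obtain ⟨x0, hx0, hx0'⟩ : ∃ x0, (x0 < A0 ∧ 0 < x0) ∧ 1 < φ x0 := by
    obtain ⟨x, ⟨hx1, hx2⟩, hx3⟩ := (((hφc.eventually_const_lt hφA).filter_mono
      (nhdsWithin_le_nhds (s := Set.Iio A0))).and (eventually_gt_nhds hA0 |>.filter_mono nhdsWithin_le_nhds) |>.and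
      (self_mem_nhdsWithin : ∀ᶠ x in 𝓝[<] A0, x < A0)).exists
    exact ⟨x, ⟨hx3, hx2⟩, hx1⟩
  have hne : ρ.support.Nonempty := by
    by_contra hc
    rw [Set.not_nonempty_iff_eq_empty] at hc
    simp [A0, hc] at hA0
  have hmem : A0 ∈ ρ.support :=
    (Measure.isClosed_support).csSup_mem hne (bddAbove_Icc.mono h.support_subset)
  have hpos : 0 < ρ.real (Set.Ioi x0) :=
    ENNReal.toReal_pos ((Measure.mem_support_iff_forall _).1 hmem _ (Ioi_mem_nhds hx0.1)).ne' (measure_ne_top _ _)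
  have hlow : ∀ k : ℕ, ρ.real (Set.Ioi x0) * φ x0 ^ k ≤ C := fun k => by
    have hb := hC k
    rw [FormalMultilinearSeries.ofScalars_norm, Real.norm_eq_abs] at hb
    refine le_trans ?_ ((mul_le_mul_of_nonneg_right (le_abs_self (b k)) (pow_nonneg r.coe_nonneg k)).trans hb)
    simp only [b, gco, ← integral_mul_const]
    have hint : Integrable (fun x => 1 / (1 - x * y0) * (x / (1 - x * y0)) ^ k * (r:ℝ) ^ k) ρ := by
      refine Integrable.of_bound (Measurable.aestronglyMeasurable (by fun_prop))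
        (1 / (1 - y0 * A0) * (A0 / (1 - y0 * A0)) ^ k * (r:ℝ) ^ k) ?_
      filter_upwards [h.den_pos hdom, h.ae_top] with x hx hx'
      have hd : 0 < 1 - y0 * A0 := sub_pos.2 hdom.2
      have h0 : 0 < 1 - x * y0 := hd.trans_le hx.2
      rw [Real.norm_eq_abs, abs_of_nonneg (by have := hx.1; positivity)]
      refine mul_le_mul_of_nonneg_right (mul_le_mul (one_div_le_one_div_of_le hd hx.2)
        (pow_le_pow_left₀ (div_nonneg hx.1 h0.le) (div_le_div₀ hA0.le hx'.2 hd hx.2) k)
        (pow_nonneg (div_nonneg hx.1 h0.le) k) (by positivity)) (by positivity)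
    calc ρ.real (Set.Ioi x0) * φ x0 ^ k = ∫ x, (Set.Ioi x0).indicator (fun _ => φ x0 ^ k) x ∂ρ := by
          rw [integral_indicator_const _ measurableSet_Ioi, smul_eq_mul]
      _ ≤ _ := by
          refine integral_mono_ae ((integrable_const _).indicator measurableSet_Ioi) hint ?_
          filter_upwards [h.den_pos hdom, h.ae_top] with x hx hx'
          have hd : 0 < 1 - y0 * A0 := sub_pos.2 hdom.2
          have h0 : 0 < 1 - x * y0 := hd.trans_le hx.2
          by_cases hxs : x ∈ Set.Ioi x0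
          · rw [Set.indicator_of_mem hxs]
            have hxs' : x0 < x := hxs
            have h2 : x0 / (1 - x0 * y0) ≤ x / (1 - x * y0) :=
              div_le_div₀ hx.1 hxs'.le h0 (by nlinarith)
            have h4 : 0 < 1 - x0 * y0 := by nlinarith
            have h3 : 1 ≤ 1 / (1 - x * y0) := (one_le_div h0).2 (by nlinarith [mul_nonneg hx.1 hy0.le])
            simp only [φ, mul_pow]
            refine mul_le_mul_of_nonneg_right ?_ (by positivity)
            calc (x0 / (1 - x0 * y0)) ^ k ≤ (x / (1 - x * y0)) ^ k :=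
                  pow_le_pow_left₀ (div_nonneg hx0.2.le h4.le) h2 k
              _ ≤ 1 / (1 - x * y0) * (x / (1 - x * y0)) ^ k := le_mul_of_one_le_left (by have := hx.1; positivity) h3
          · rw [Set.indicator_of_notMem hxs]
            have := hx.1
            positivity
  obtain ⟨k, hk⟩ := ((tendsto_pow_atTop_atTop_of_one_lt hx0').eventually
    (eventually_gt_atTop (C / ρ.real (Set.Ioi x0)))).exists
  rw [div_lt_iff₀ hpos] at hk
  linarith [hlow k, mul_comm (ρ.real (Set.Ioi x0)) (φ x0 ^ k)]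

/-- a probability law carried by a bounded interval -/
structure Law (μ : Measure ℝ) (L s : ℝ) : Prop where
  prob : IsProbabilityMeasure μ
  mem : ∀ᵐ x ∂μ, x ∈ Set.Icc L s

lemma cauchy_series {μ : Measure ℝ} {L s : ℝ} (h : Law μ L s) {w : ℝ} (hw : s < w) :
    HasFPowerSeriesAt (cauchy μ)
      (FormalMultilinearSeries.ofScalars ℝ (gco μ (fun x => 1 / (w - x)) fun x => -(1 / (w - x)))) w := by
  haveI := h.prob
  have hb : ∀ᵐ x ∂μ, |1 / (w - x)| ≤ 1 / (w - s) ∧ |-(1 / (w - x))| ≤ 1 / (w - s) := by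
    filter_upwards [h.mem] with x hx
    have h0 : 0 < w - x := by linarith [hx.2]
    rw [abs_neg, abs_of_pos (one_div_pos.2 h0)]
    exact ⟨one_div_le_one_div_of_le (by linarith) (by linarith [hx.2]),
      one_div_le_one_div_of_le (by linarith) (by linarith [hx.2])⟩
  obtain ⟨R, hR⟩ := geom_hasFPS (ρ := μ) (c := fun x => 1 / (w - x)) (q := fun x => -(1 / (w - x)))
    (by fun_prop) (by fun_prop) (one_div_pos.2 (sub_pos.2 hw)) hb
  have := hR.comp_sub w
  rw [zero_add] at this
  refine (HasFPowerSeriesOnBall.hasFPowerSeriesAt this).congr (.of_forall fun v => ?_)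
  refine integral_congr_ae (h.mem.mono fun x hx => ?_)
  have h0 : w - x ≠ 0 := by linarith [hx.2]
  show 1 / (w - x) / (1 - -(1 / (w - x)) * (v - w)) = 1 / (v - x)
  rw [div_div]
  congr 1
  field_simp
  ring

lemma integrable_cauchy {μ : Measure ℝ} {L s : ℝ} (h : Law μ L s) {w : ℝ} (hw : s < w) :
    Integrable (fun x => 1 / (w - x)) μ := by
  haveI := h.prob
  refine Integrable.of_bound (Measurable.aestronglyMeasurable (by fun_prop)) (1 / (w - s)) (h.mem.mono fun x hx => ?_)
  rw [Real.norm_eq_abs, abs_of_pos (one_div_pos.2 (by linarith [hx.2]))]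
  exact one_div_le_one_div_of_le (by linarith) (by linarith [hx.2])

lemma cauchy_bounds {μ : Measure ℝ} {L s : ℝ} (h : Law μ L s) {w : ℝ} (hw : s < w) :
    1 / (w - L) ≤ cauchy μ w ∧ cauchy μ w ≤ 1 / (w - s) := by
  haveI := h.prob
  constructor
  · calc 1 / (w - L) = ∫ _x, 1 / (w - L) ∂μ := by simp
      _ ≤ _ := integral_mono_ae (integrable_const _) (integrable_cauchy h hw) (h.mem.mono fun x hx =>
          one_div_le_one_div_of_le (by linarith [hx.2]) (by linarith [hx.1]))
  · calc cauchy μ w ≤ ∫ _x, 1 / (w - s) ∂μ := integral_mono_ae (integrable_cauchy h hw) (integrable_const _)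
          (h.mem.mono fun x hx => one_div_le_one_div_of_le (by linarith) (by linarith [hx.2]))
      _ = _ := by simp

lemma law_bounds {μ : Measure ℝ} {L s : ℝ} (h : Law μ L s) : L ≤ s := by
  haveI := h.prob
  obtain ⟨x, hx⟩ := h.mem.exists
  exact hx.1.trans hx.2

lemma cauchy_pos {μ : Measure ℝ} {L s : ℝ} (h : Law μ L s) {w : ℝ} (hw : s < w) : 0 < cauchy μ w :=
  lt_of_lt_of_le (one_div_pos.2 (by linarith [law_bounds h])) (cauchy_bounds h hw).1

lemma cauchy_anti {μ : Measure ℝ} {L s : ℝ} (h : Law μ L s) {w w' : ℝ} (hw : s < w) (hww : w ≤ w') :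
    cauchy μ w' ≤ cauchy μ w :=
  integral_mono_ae (integrable_cauchy h (hw.trans_le hww)) (integrable_cauchy h hw)
    (h.mem.mono fun x hx => one_div_le_one_div_of_le (by linarith [hx.2]) (by linarith))

lemma cauchy_deriv {μ : Measure ℝ} {L s : ℝ} (h : Law μ L s) {w : ℝ} (hw : s < w) : deriv (cauchy μ) w ≠ 0 := by
  haveI := h.prob
  rw [(cauchy_series h hw).hasDerivAt.deriv, FormalMultilinearSeries.ofScalars_apply_eq]
  simp only [gco, pow_one, mul_neg, integral_neg, smul_eq_mul, mul_one, one_pow]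
  refine (neg_lt_zero.2 ?_).ne
  have hwL : 0 < w - L := by linarith [law_bounds h]
  calc (0:ℝ) < 1 / (w - L) * (1 / (w - L)) := by positivity
    _ = ∫ _x, 1 / (w - L) * (1 / (w - L)) ∂μ := by simp
    _ ≤ _ := by
        refine integral_mono_ae (integrable_const _) ?_ (h.mem.mono fun x hx => ?_)
        · refine Integrable.of_bound (Measurable.aestronglyMeasurable (by fun_prop)) (1 / (w - s) * (1 / (w - s)))
            (h.mem.mono fun x hx => ?_)
          have h0 : 0 < w - x := by linarith [hx.2]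
          rw [Real.norm_eq_abs, abs_of_nonneg (by positivity)]
          have h1 := one_div_le_one_div_of_le (sub_pos.2 hw) (show w - s ≤ w - x by linarith [hx.2])
          exact mul_le_mul h1 h1 (by positivity) (one_div_nonneg.2 (by linarith))
        · have h1 := one_div_le_one_div_of_le (show 0 < w - x by linarith [hx.2]) (show w - x ≤ w - L by linarith [hx.1])
          exact mul_le_mul h1 h1 (by positivity) (one_div_nonneg.2 (by linarith [hx.2]))

/-- the top of the support is at least the edge of the kernel -/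
theorem edge_le_top {ρ : Measure ℝ} {A : ℝ} (hρ : Carried ρ A) (γ : ℝ) {μ : Measure ℝ} {L s : ℝ} (hμ : Law μ L s)
    (heq : ∀ᶠ w in atTop, cauchy μ w * sSup ρ.support < 1 ∧ w = 1 / cauchy μ w + Rk γ ρ (cauchy μ w))
    (hbdd : BddBelow ((fun y => 1 / y + Rk γ ρ y) '' dom ρ)) :
    edgeR γ ρ ≤ s := by
  by_contra hlt
  push Not at hlt
  set G := cauchy μ
  set A0 := sSup ρ.support
  have hA0 : 0 ≤ A0 := hρ.top_nonneg
  set J := {w | s < w ∧ G w * A0 < 1}
  have hGc : ∀ w, s < w → ContinuousAt G w := fun w hw => (cauchy_series hμ hw).analyticAt.continuousAt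
  have hJconn : IsPreconnected J := by
    refine Set.OrdConnected.isPreconnected ⟨fun u hu v _ w hw => ?_⟩
    exact ⟨hu.1.trans_le hw.1, (mul_le_mul_of_nonneg_right (cauchy_anti hμ hu.1 hw.1) hA0).trans_lt hu.2⟩
  have hid : ∀ w ∈ J, w = 1 / G w + Rk γ ρ (G w) := by
    set φ := fun w => 1 / G w + Rk γ ρ (G w) - w
    have han : AnalyticOnNhd ℝ φ J := fun w hw => by
      have hG := (cauchy_series hμ hw.1).analyticAt
      have hR := (analytic_Rk hρ γ (y0 := G w) ⟨cauchy_pos hμ hw.1, hw.2⟩).comp hG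
      exact ((analyticAt_const.div hG (cauchy_pos hμ hw.1).ne').add hR).sub analyticAt_id
    obtain ⟨W, hW⟩ := eventually_atTop.1 heq
    set W' := max W s + 1
    have hW'J : W' ∈ J := ⟨by have := le_max_right W s; linarith, (hW W' (by have := le_max_left W s; linarith)).1⟩
    have hz : φ =ᶠ[𝓝 W'] 0 := by
      filter_upwards [eventually_gt_nhds (show max W s < W' by linarith)] with w hw
      have := (hW w ((le_max_left W s).trans hw.le)).2
      simp only [Pi.zero_apply, φ, G]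
      linarith
    intro w hw
    have := han.eqOn_zero_of_preconnected_of_eventuallyEq_zero hJconn hW'J hz hw
    simp only [Pi.zero_apply, φ] at this
    linarith
  by_cases hall : ∀ w, s < w → G w * A0 < 1
  · obtain ⟨w, hw1, hw2⟩ := exists_between hlt
    have h1 : edgeR γ ρ ≤ 1 / G w + Rk γ ρ (G w) :=
      csInf_le hbdd ⟨G w, ⟨cauchy_pos hμ hw1, hall w hw1⟩, rfl⟩
    rw [← hid w ⟨hw1, hall w hw1⟩] at h1
    linarith
  push Not at hall
  obtain ⟨w1, hw1, hG1⟩ := hall
  have hA0' : 0 < A0 := by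
    refine lt_of_le_of_ne hA0 fun h => ?_
    rw [← h, mul_zero] at hG1
    linarith
  obtain ⟨W, hW⟩ := eventually_atTop.1 heq
  set W2 := max W w1 + 1
  have hW2 : G W2 * A0 < 1 := (hW W2 (by have := le_max_left W w1; linarith)).1
  have hle : w1 ≤ W2 := by have := le_max_right W w1; linarith
  obtain ⟨w0, hw0, hG0⟩ : ∃ w0 ∈ Set.Icc w1 W2, G w0 = 1 / A0 := by
    refine intermediate_value_Icc' hle (fun v hv => (hGc v (hw1.trans_le hv.1)).continuousWithinAt) ⟨?_, ?_⟩
    · rw [le_div_iff₀ hA0']; exact hW2.le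
    · rw [div_le_iff₀ hA0']; exact hG1
  have hs0 : s < w0 := hw1.trans_le hw0.1
  have hGan := (cauchy_series hμ hs0).analyticAt
  have hd := cauchy_deriv hμ hs0
  set ℓ := hGan.hasStrictDerivAt.localInverse G (deriv G w0) w0 hd
  have hℓ : AnalyticAt ℝ ℓ (G w0) := hGan.analyticAt_localInverse hd
  rw [hG0] at hℓ
  have hℓ0 : ℓ (G w0) = w0 := HasStrictFDerivAt.localInverse_apply_image ..
  refine no_continuation hρ γ hA0' (f := fun y => ℓ y - 1 / y)
    (hℓ.sub (analyticAt_const.div analyticAt_id (by positivity : (0:ℝ) < 1 / A0).ne')) ?_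
  have hright : ∀ᶠ y in 𝓝 (1 / A0), G (ℓ y) = y := by
    rw [← hG0]
    exact HasStrictDerivAt.eventually_right_inverse hGan.hasStrictDerivAt hd
  have hnear : ∀ᶠ y in 𝓝 (1 / A0), s < ℓ y := by
    have h1 : ℓ (1 / A0) = w0 := by rw [← hG0]; exact hℓ0
    exact hℓ.continuousAt.eventually_const_lt (by rw [h1]; exact hs0)
  filter_upwards [hright.filter_mono nhdsWithin_le_nhds, hnear.filter_mono nhdsWithin_le_nhds,
    self_mem_nhdsWithin] with y hy hy2 hy3
  have hyA : y * A0 < 1 := (lt_div_iff₀ hA0').1 hy3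
  have := hid (ℓ y) ⟨hy2, by rw [hy]; exact hyA⟩
  rw [hy] at this
  linarith

/-- the equation near infinity determines the transform near infinity -/
theorem cauchy_unique {ρ : Measure ℝ} {A : ℝ} (hρ : Carried ρ A) (γ : ℝ) {μ μ' : Measure ℝ} {L s : ℝ}
    (h : Law μ L s) (h' : Law μ' L s)
    (heq : ∀ᶠ w in atTop, w = 1 / cauchy μ w + Rk γ ρ (cauchy μ w))
    (heq' : ∀ᶠ w in atTop, w = 1 / cauchy μ' w + Rk γ ρ (cauchy μ' w)) :
    ∀ᶠ w in atTop, cauchy μ w = cauchy μ' w := by
  haveI := hρ.finite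
  set A0 := sSup ρ.support
  have hA0 : 0 ≤ A0 := hρ.top_nonneg
  set m := ρ.real Set.univ
  have hm : 0 ≤ m := measureReal_nonneg
  set η := 1 / (2 * (A0 + 1) + 8 * m + 1)
  have hη : 0 < η := by positivity
  have hηd : (2 * (A0 + 1) + 8 * m + 1) * η = 1 := by simp only [η]; field_simp
  filter_upwards [heq, heq', eventually_gt_atTop (s + 1 / η)] with w hw hw' hwη
  have hws : s < w := by have : 0 < 1 / η := by positivity
                         linarith
  have hsm : ∀ {ν : Measure ℝ}, Law ν L s → 0 < cauchy ν w ∧ cauchy ν w ≤ η := fun {ν} hν => by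
    refine ⟨cauchy_pos hν hws, (cauchy_bounds hν hws).2.trans ?_⟩
    rw [div_le_iff₀ (sub_pos.2 hws)]
    have h2 : 1 / η < w - s := by linarith
    rw [div_lt_iff₀ hη] at h2
    linarith
  obtain ⟨hy, hyη⟩ := hsm h
  obtain ⟨hy', hy'η⟩ := hsm h'
  set y := cauchy μ w
  set y' := cauchy μ' w
  have hη1 : η * (2 * (A0 + 1)) ≤ 1 := by nlinarith
  have hdom : ∀ z, 0 < z → z ≤ η → z ∈ dom ρ := fun z hz hzη => ⟨hz, by nlinarith⟩
  have hR : |Rk γ ρ y - Rk γ ρ y'| ≤ 4 * m * |y - y'| := by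
    have hi : ∀ z, z ∈ dom ρ → Integrable (fun x => z / (1 - x * z)) ρ := fun z hz =>
      Integrable.of_bound (Measurable.aestronglyMeasurable (by fun_prop)) (z / (1 - z * A0))
        ((hρ.den_pos hz).mono fun x hx => by
          have hd : 0 < 1 - z * A0 := sub_pos.2 hz.2
          rw [Real.norm_eq_abs, abs_of_nonneg (div_nonneg hz.1.le (hd.le.trans hx.2))]
          exact div_le_div_of_nonneg_left hz.1.le hd hx.2)
    rw [Rk, Rk, add_sub_add_left_eq_sub, ← integral_sub (hi y (hdom y hy hyη)) (hi y' (hdom y' hy' hy'η)),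
      ← Real.norm_eq_abs]
    refine (norm_integral_le_of_norm_le_const (C := 4 * |y - y'|) ?_).trans_eq (by simp only [m]; ring)
    filter_upwards [hρ.ae_top] with x hx
    have h1 : 1 / 2 ≤ 1 - x * y := by nlinarith [mul_le_mul hx.2 hyη hy.le hA0]
    have h2 : 1 / 2 ≤ 1 - x * y' := by nlinarith [mul_le_mul hx.2 hy'η hy'.le hA0]
    rw [Real.norm_eq_abs, show y / (1 - x * y) - y' / (1 - x * y') = (y - y') / ((1 - x * y) * (1 - x * y')) by
      rw [div_sub_div _ _ (show (1 - x * y) ≠ 0 by linarith) (show (1 - x * y') ≠ 0 by linarith)]; ring,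
      abs_div, abs_of_pos (show 0 < (1 - x * y) * (1 - x * y') by nlinarith),
      div_le_iff₀ (by nlinarith)]
    nlinarith [abs_nonneg (y - y'), mul_le_mul h1 h2 (by norm_num) (by linarith)]
  have e : Rk γ ρ y - Rk γ ρ y' = (y - y') / (y * y') := by
    rw [show (y - y') / (y * y') = 1 / y' - 1 / y by field_simp]
    linarith
  rw [e, abs_div, abs_of_pos (mul_pos hy hy'), div_le_iff₀ (mul_pos hy hy')] at hR
  have h1 : y * y' ≤ η * η := mul_le_mul hyη hy'η hy'.le hη.le
  have h2 : 4 * m * (η * η) < 1 := by nlinarith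
  by_contra hne
  have h3 : 0 < |y - y'| := abs_pos.2 (sub_ne_zero.2 hne)
  nlinarith [mul_le_mul_of_nonneg_left h1 (mul_nonneg (mul_nonneg (by norm_num : (0:ℝ) ≤ 4) hm) (abs_nonneg (y - y')))]

/-- the transform near infinity determines the integrals of continuous functions -/
theorem integral_unique {μ μ' : Measure ℝ} {L s : ℝ} (h : Law μ L s) (h' : Law μ' L s)
    (heq : ∀ᶠ w in atTop, cauchy μ w = cauchy μ' w) (g : BoundedContinuousFunction ℝ ℝ) :
    ∫ x, g x ∂μ = ∫ x, g x ∂μ' := by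
  haveI := h.prob
  haveI := h'.prob
  set B := |L| + |s| + 1
  have hB : 0 < B := by positivity
  have habs : ∀ {ν : Measure ℝ}, Law ν L s → ∀ᵐ x ∂ν, |(1:ℝ)| ≤ 1 ∧ |x| ≤ B := fun {ν} hν =>
    hν.mem.mono fun x hx => ⟨by simp, abs_le.2 ⟨by linarith [hx.1, neg_abs_le L, abs_nonneg s],
      by linarith [hx.2, le_abs_self s, abs_nonneg L]⟩⟩
  have s1 := geom_hasFPS (ρ := μ) (c := fun _ => (1:ℝ)) (q := fun x => x) measurable_const measurable_id hB (habs h)
  have s2 := geom_hasFPS (ρ := μ') (c := fun _ => (1:ℝ)) (q := fun x => x) measurable_const measurable_id hB (habs h')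
  have hfr : ∀ᶠ v in 𝓝[>] (0:ℝ), ∫ x, (1:ℝ) / (1 - x * v) ∂μ = ∫ x, (1:ℝ) / (1 - x * v) ∂μ' := by
    filter_upwards [tendsto_inv_nhdsGT_zero.eventually heq, self_mem_nhdsWithin] with v hv hv0
    have hv0' : 0 < v := hv0
    have e : ∀ x : ℝ, 1 / (1 - x * v) = v⁻¹ * (1 / (v⁻¹ - x)) := fun x => by
      rw [show v⁻¹ - x = (1 - x * v) / v by field_simp]
      field_simp
    simp only [e, integral_const_mul]
    rw [show ∫ x, 1 / (v⁻¹ - x) ∂μ = ∫ x, 1 / (v⁻¹ - x) ∂μ' from hv]
  have hev := (s1.analyticAt.frequently_eq_iff_eventually_eq s2.analyticAt).1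
    (Filter.Eventually.frequently hfr |>.filter_mono (nhdsWithin_mono _ fun v (hv : 0 < v) => hv.ne'))
  have hco : ∀ k : ℕ, ∫ x, x ^ k ∂μ = ∫ x, x ^ k ∂μ' := fun k => by
    have := congrFun ((FormalMultilinearSeries.ofScalars_series_injective ℝ ℝ)
      ((s1.congr hev).eq_formalMultilinearSeries s2)) k
    simpa [gco] using this
  refine eq_of_forall_dist_le fun ε hε => ?_
  obtain ⟨p, hp⟩ := exists_polynomial_near_of_continuousOn L s g g.continuous.continuousOn (ε / 2) (by linarith)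
  have key : ∀ {ν : Measure ℝ}, Law ν L s → |∫ x, g x ∂ν - ∫ x, p.eval x ∂ν| ≤ ε / 2 ∧
      ∫ x, p.eval x ∂ν = ∑ k ∈ Finset.range (p.natDegree + 1), p.coeff k * ∫ x, x ^ k ∂ν := fun {ν} hν => by
    haveI := hν.prob
    have hpow : ∀ k : ℕ, Integrable (fun x : ℝ => x ^ k) ν := fun k =>
      Integrable.of_bound (continuous_pow k).aestronglyMeasurable (B ^ k) ((habs hν).mono fun x hx => by
        rw [Real.norm_eq_abs, abs_pow]; exact pow_le_pow_left₀ (abs_nonneg x) hx.2 k)
    have hpi : Integrable (fun x => p.eval x) ν := by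
      simp only [Polynomial.eval_eq_sum_range]
      exact integrable_finsetSum _ fun k _ => (hpow k).const_mul _
    refine ⟨?_, ?_⟩
    · rw [← integral_sub (g.integrable ν) hpi, ← Real.norm_eq_abs]
      refine (norm_integral_le_of_norm_le_const (C := ε / 2) (hν.mem.mono fun x hx => ?_)).trans_eq (by simp)
      rw [Real.norm_eq_abs, abs_sub_comm]
      exact (hp x hx).le
    · simp only [Polynomial.eval_eq_sum_range]
      rw [integral_finsetSum _ fun k _ => (hpow k).const_mul _]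
      simp only [integral_const_mul]
  obtain ⟨a1, b1⟩ := key h
  obtain ⟨a2, b2⟩ := key h'
  simp only [hco] at b1
  rw [Real.dist_eq, abs_le]
  have c1 := abs_le.1 a1
  have c2 := abs_le.1 a2
  constructor <;> linarith [b1, b2]

end Vale.Agent.P166.Pattern.Multi
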