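import Vale.Agent.P166.Pattern.Multi.Edge
import Vale.Agent.P166.Pattern.Law

/-!
A deterministic sequence of spectra and the free compound Poisson law it converges to.
-/

open MeasureTheory ProbabilityTheory Filter Matrix
open scoped Topology

noncomputable section

namespace Vale.Agent.P166.Pattern.Multi

variable {r : ℕ}

/-- the values `1/y + ∑ α a/(1 - a y)`, whose infimum is the upper edge -/
def edgeSet (a α : Fin r → ℝ) : Set ℝ :=
  {Z | ∃ y : ℝ, 0 < y ∧ (∀ j, y * a j < 1) ∧ Z = 1 / y + ∑ j, α j * (a j / (1 - y * a j))}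

/-- the upper edge -/
def edge (a α : Fin r → ℝ) : ℝ := sInf (edgeSet a α)

lemma edgeSet_nonempty {a α : Fin r → ℝ} (ha : ∀ j, a j ∈ Set.Icc (0:ℝ) 1) : (edgeSet a α).Nonempty :=
  ⟨_, 1 / 2, by norm_num, fun j => by have := (ha j).2; linarith, rfl⟩

lemma edgeSet_bdd {a α : Fin r → ℝ} (ha : ∀ j, a j ∈ Set.Icc (0:ℝ) 1) (hα : ∀ j, 0 < α j) :
    BddBelow (edgeSet a α) := by
  refine ⟨0, ?_⟩
  rintro Z ⟨y, hy, hy1, rfl⟩
  have h1 : 0 ≤ ∑ j, α j * (a j / (1 - y * a j)) := Finset.sum_nonneg fun j _ =>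
    mul_nonneg (hα j).le (div_nonneg (ha j).1 (sub_nonneg.2 (hy1 j).le))
  positivity

lemma edge_nonneg {a α : Fin r → ℝ} (ha : ∀ j, a j ∈ Set.Icc (0:ℝ) 1) (hα : ∀ j, 0 < α j) : 0 ≤ edge a α := by
  refine le_csInf (edgeSet_nonempty ha) ?_
  rintro Z ⟨y, hy, hy1, rfl⟩
  have h1 : 0 ≤ ∑ j, α j * (a j / (1 - y * a j)) := Finset.sum_nonneg fun j _ =>
    mul_nonneg (hα j).le (div_nonneg (ha j).1 (sub_nonneg.2 (hy1 j).le))
  positivity

/-- a deterministic sequence of spectra with the right resolvents and upper edge -/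
structure Spec (a α : Fin r → ℝ) (lam : ∀ N : ℕ, Fin N → ℝ) : Prop where
  nonneg : ∀ N k, 0 ≤ lam N k
  res : ∀ q : ℚ, ∀ x : ℝ, 0 ≤ x → Gf a α |(q:ℝ)| x = 0 →
    Tendsto (fun N : ℕ => (∑ i, 1 / (1 + |(q:ℝ)| * lam N i)) / (N:ℝ)) atTop (𝓝 x)
  top : ∀ δ : ℝ, 0 < δ → ∀ᶠ N : ℕ in atTop, ∀ i, lam N i ≤ edge a α + δ

theorem exists_spec {a α : Fin r → ℝ} (hr : 0 < r) (ha : ∀ j, a j ∈ Set.Icc (0:ℝ) 1) (hα : ∀ j, 0 < α j)
    (Ψ : ∀ N : ℕ, (Fin (∑ j, Ks α N j) × Fin N → ℝ) → ℝ) (hm : ∀ N, Measurable (Ψ N))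
    (h01 : ∀ N g, 0 ≤ Ψ N g ∧ Ψ N g ≤ 1)
    (hlim : Tendsto (fun N : ℕ => ∫ g, Ψ N g ∂gauss (Fin (∑ j, Ks α N j) × Fin N)) atTop (𝓝 0)) :
    ∃ (g : ∀ N : ℕ, Fin (∑ j, Ks α N j) × Fin N → ℝ) (lam : ∀ N : ℕ, Fin N → ℝ), Spec a α lam ∧
      Tendsto (fun N => Ψ N (g N)) atTop (𝓝 0) ∧
      ∀ N, ∃ Q : Matrix (Fin N) (Fin N) ℝ, Q ∈ Matrix.orthogonalGroup (Fin N) ℝ ∧
        WC (cs a α N) (g N) = Qᵀ * Matrix.diagonal (lam N) * Q := by
  classical
  have hc01 : ∀ N k, cs a α N k ∈ Set.Icc (0:ℝ) 1 := fun N k => ha _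
  have hroot : ∀ q : ℚ, ∃ x ∈ Set.Icc (0:ℝ) 1, Gf a α |(q:ℝ)| x = 0 := fun q =>
    exists_root (fun j => (ha j).1) (fun j => (hα j).le) (abs_nonneg _)
  choose X hX hX0 using hroot
  have hy : ∀ i : ℕ, ∃ y : ℝ, 0 < y ∧ (∀ j, y * a j < 1) ∧
      1 / y + ∑ j, α j * (a j / (1 - y * a j)) < edge a α + 1 / ((i:ℝ) + 1) := fun i => by
    obtain ⟨Z, ⟨y, h1, h2, rfl⟩, hZ⟩ := exists_lt_of_csInf_lt (edgeSet_nonempty (α := α) ha)
      (show sInf (edgeSet a α) < edge a α + 1 / ((i:ℝ) + 1) by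
        have : (0:ℝ) < 1 / ((i:ℝ) + 1) := by positivity
        simp only [edge]; linarith)
    exact ⟨y, h1, h2, hZ⟩
  choose Y hY0 hY1 hYlt using hy
  set P : ∀ N : ℕ, Measure (Fin (∑ j, Ks α N j) × Fin N → ℝ) := fun N => gauss _
  set E : ℕ → ∀ N : ℕ, Set (Fin (∑ j, Ks α N j) × Fin N → ℝ) := fun i N => {g | ∃ v : Fin N → ℝ,
    ∑ j, v j ^ 2 = 1 ∧ (√(bd N (cs a α N) (Y i)) + 1 + 1 / ((i:ℝ) + 1) * √(N:ℝ)) ^ 2 <
      ∑ m, cs a α N m * (∑ j, g (m, j) * v j) ^ 2}
  set mg : ℚ → ∀ N : ℕ, (Fin (∑ j, Ks α N j) × Fin N → ℝ) → ℝ := fun q N g =>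
    mres |(q:ℝ)| (cs a α N) fun m i => g (m, i)
  set G : Option (ℚ ⊕ ℕ) → ∀ N : ℕ, (Fin (∑ j, Ks α N j) × Fin N → ℝ) → ℝ := fun o N g => match o with
    | none => Ψ N g
    | some (Sum.inl q) => |mg q N g - X q|
    | some (Sum.inr i) => (E i N).indicator (fun _ => (1:ℝ)) g
  obtain ⟨e, he⟩ := exists_surjective_nat (Option (ℚ ⊕ ℕ))
  have hG0 : ∀ o N g, 0 ≤ G o N g := by
    rintro (_ | q | i) N g
    · exact (h01 N g).1
    · exact abs_nonneg _
    · exact Set.indicator_nonneg (fun _ _ => zero_le_one) g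
  have hMN : ∀ᶠ N : ℕ in atTop, 0 < ∑ j, Ks α N j := by
    filter_upwards [eventually_ge_atTop ⌈1 / α ⟨0, hr⟩⌉₊] with N hN
    refine lt_of_lt_of_le (Nat.floor_pos.2 ?_)
      (Finset.single_le_sum (f := Ks α N) (fun _ _ => Nat.zero_le _) (Finset.mem_univ ⟨0, hr⟩))
    have h1 : 1 / α ⟨0, hr⟩ ≤ N := (Nat.le_ceil _).trans (by exact_mod_cast hN)
    rwa [div_le_iff₀ (hα _), mul_comm] at h1
  have hG : ∀ o, ∀ ε : ℝ, 0 < ε → Tendsto (fun N => (P N).real {x | ε ≤ G o N x}) atTop (𝓝 0) := by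
    intro o ε hε
    rcases o with _ | q | i
    · refine squeeze_zero (fun N => measureReal_nonneg) (fun N => ?_)
        (by simpa using hlim.div_const ε)
      rw [le_div_iff₀ hε, mul_comm]
      refine mul_meas_ge_le_integral_of_nonneg (.of_forall fun g => (h01 N g).1) ?_ ε
      exact Integrable.of_bound (hm N).aestronglyMeasurable 1
        (.of_forall fun g => by rw [Real.norm_eq_abs, abs_of_nonneg (h01 N g).1]; exact (h01 N g).2)
    · have hmgm : ∀ N, Measurable (mg q N) := fun N =>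
        (good_mres (abs_nonneg (q:ℝ)) fun k => (hc01 N k).1).1.comp (by fun_prop)
      have hb : ∀ N g, (mg q N g - X q) ^ 2 ≤ 1 := fun N g => by
        obtain ⟨h1, h2⟩ := mres_mem (abs_nonneg (q:ℝ)) (fun k => (hc01 N k).1) fun m i => g (m, i)
        have h3 := hX q
        rw [sq_le_one_iff_abs_le_one, abs_le]
        simp only [mg]
        constructor <;> linarith [h3.1, h3.2]
      have hlim2 : Tendsto (fun N => ∫ g, (mg q N g - X q) ^ 2 ∂P N) atTop (𝓝 0) := by
        refine (tendsto_mres ha hα (abs_nonneg (q:ℝ)) (hX q).1 (hX0 q)).congr fun N => ?_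
        have h := mp_uncurry (Fin N) (∑ j, Ks α N j)
        simp only [P]
        rw [← h.map_eq, integral_map h.measurable.aemeasurable
          (((hmgm N).sub_const _).pow_const 2).aestronglyMeasurable]
      refine squeeze_zero (fun N => measureReal_nonneg) (fun N => ?_)
        (by simpa using hlim2.div_const (ε ^ 2))
      rw [le_div_iff₀ (by positivity), mul_comm]
      have hi : Integrable (fun g => (mg q N g - X q) ^ 2) (P N) :=
        Integrable.of_bound (((hmgm N).sub_const _).pow_const 2).aestronglyMeasurable 1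
          (.of_forall fun g => by rw [Real.norm_eq_abs, abs_of_nonneg (sq_nonneg _)]; exact hb N g)
      refine le_trans ?_ (mul_meas_ge_le_integral_of_nonneg (.of_forall fun g => sq_nonneg _) hi (ε ^ 2))
      refine mul_le_mul_of_nonneg_left (measureReal_mono fun g (hg : ε ≤ |mg q N g - X q|) => ?_) (sq_nonneg _)
      show ε ^ 2 ≤ (mg q N g - X q) ^ 2
      rw [← sq_abs (mg q N g - X q)]
      gcongr
    · have h1 : Tendsto (fun N : ℕ => ((i:ℝ) + 1) ^ 2 / (N:ℝ)) atTop (𝓝 0) :=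
        tendsto_const_nhds.div_atTop tendsto_natCast_atTop_atTop
      refine squeeze_zero' (.of_forall fun N => measureReal_nonneg) ?_ h1
      filter_upwards [hMN, eventually_gt_atTop 0] with N hM hN
      have hN' : (0:ℝ) < N := by exact_mod_cast hN
      refine le_trans (measureReal_mono fun g (hg : ε ≤ (E i N).indicator (fun _ => (1:ℝ)) g) => ?_)
        ((tail_norm hM hN (hc01 N) (hY0 i) (fun m => hY1 i _) (t := 1 / ((i:ℝ) + 1) * √(N:ℝ))
          (by positivity)).trans_eq ?_)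
      · by_contra hc
        rw [Set.indicator_of_notMem hc] at hg
        linarith
      · rw [mul_pow, Real.sq_sqrt hN'.le]
        field_simp
  obtain ⟨g, hg⟩ := Pattern.exists_selection P (fun j => G (e j)) (fun j => hG0 _) fun j => hG _
  have hgo : ∀ o, Tendsto (fun N => G o N (g N)) atTop (𝓝 0) := fun o => by
    obtain ⟨j, rfl⟩ := he o
    exact hg j
  choose lam Q hQ hW h0 htop using fun N => exists_eig (fun k => (hc01 N k).1) (g N)
  refine ⟨g, lam, ⟨fun N => h0 N, fun q x hx hx0 => ?_, fun δ hδ => ?_⟩, hgo none, fun N => ⟨Q N, hQ N, hW N⟩⟩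
  · have hxX : x = X q := by
      have := Gf_dist (a := a) (α := α) (fun j => (ha j).1) (fun j => (hα j).le) (abs_nonneg (q:ℝ)) hx (hX q).1
      rw [hx0, hX0 q, sub_zero, abs_zero] at this
      exact sub_eq_zero.1 (abs_eq_zero.1 (le_antisymm this (abs_nonneg _)))
    subst hxX
    have h1 : Tendsto (fun N => mg q N (g N) - X q) atTop (𝓝 0) :=
      (tendsto_zero_iff_abs_tendsto_zero _).2 (hgo (some (Sum.inl q)))
    refine (show Tendsto (fun N => mg q N (g N)) atTop (𝓝 (X q)) by simpa using h1.add_const (X q)).congr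
      fun N => mres_eig (abs_nonneg _) (hQ N) (h0 N) (hW N)
  · set E0 := edge a α
    have hE0 : 0 ≤ E0 := edge_nonneg ha hα
    obtain ⟨η, hη, hη'⟩ : ∃ η : ℝ, 0 < η ∧ (√(E0 + η) + η) ^ 2 < E0 + δ := by
      have hc : Tendsto (fun η : ℝ => (√(E0 + η) + η) ^ 2) (𝓝[>] 0) (𝓝 E0) := by
        have : Continuous fun η : ℝ => (√(E0 + η) + η) ^ 2 := by fun_prop
        have h := (this.tendsto 0).mono_left (nhdsWithin_le_nhds (s := Set.Ioi (0:ℝ)))
        simpa [Real.sq_sqrt hE0] using h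
      obtain ⟨η, a1, b1⟩ := ((hc.eventually (eventually_lt_nhds
        (show E0 < E0 + δ by linarith))).and self_mem_nhdsWithin).exists
      exact ⟨η, b1, a1⟩
    obtain ⟨i, hi⟩ := exists_nat_one_div_lt (half_pos hη)
    have hsn : ∀ᶠ N : ℕ in atTop, 1 / √(N:ℝ) < η / 2 :=
      ((tendsto_const_nhds (x := (1:ℝ))).div_atTop
        (Real.tendsto_sqrt_atTop.comp tendsto_natCast_atTop_atTop)).eventually (eventually_lt_nhds (half_pos hη))
    filter_upwards [(hgo (some (Sum.inr i))).eventually (eventually_lt_nhds one_pos), hsn,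
      eventually_gt_atTop 0] with N hN hs hN0
    have hN' : (0:ℝ) < N := by exact_mod_cast hN0
    have hnot : g N ∉ E i N := fun hmem => by
      simp only [G, Set.indicator_of_mem hmem] at hN
      exact lt_irrefl _ hN
    intro j
    refine (htop N _ (fun v hv => le_of_not_gt fun hlt => hnot ⟨v, hv, hlt⟩) j).trans ?_
    refine le_trans ?_ hη'.le
    set s := √(N:ℝ)
    have hs0 : 0 < s := Real.sqrt_pos.2 hN'
    have hbd : bd N (cs a α N) (Y i) ≤ (E0 + η) * N := by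
      have hsum : ∑ m, cs a α N m / (1 - Y i * cs a α N m) =
          ∑ k, (Ks α N k : ℝ) * (a k / (1 - Y i * a k)) := by
        rw [← Finset.sum_fiberwise Finset.univ (can (Ks α N))]
        refine Finset.sum_congr rfl fun k _ => ?_
        rw [Finset.sum_congr rfl (g := fun _ => a k / (1 - Y i * a k)) fun m hm => by
          simp only [cs, (Finset.mem_filter.1 hm).2], Finset.sum_const, nsmul_eq_mul]
        congr 2
        exact cnt_can _ k
      have h2 : ∑ k, (Ks α N k : ℝ) * (a k / (1 - Y i * a k)) ≤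
          (∑ k, α k * (a k / (1 - Y i * a k))) * N := by
        rw [Finset.sum_mul]
        refine Finset.sum_le_sum fun k _ => ?_
        rw [mul_right_comm]
        exact mul_le_mul_of_nonneg_right (Nat.floor_le (by have := hα k; positivity))
          (div_nonneg (ha k).1 (sub_nonneg.2 (hY1 i k).le))
      rw [bd, hsum, div_eq_mul_one_div]
      nlinarith [hYlt i]
    have hroot : √(bd N (cs a α N) (Y i)) ≤ √(E0 + η) * s := by
      rw [← Real.sqrt_mul (by linarith)]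
      exact Real.sqrt_le_sqrt hbd
    have hss : s * s = N := Real.mul_self_sqrt hN'.le
    have h1s : 1 ≤ η / 2 * s := by rw [div_lt_iff₀ hs0] at hs; linarith
    rw [div_le_iff₀ hN']
    refine le_trans (pow_le_pow_left₀ (by positivity) (show _ ≤ (√(E0 + η) + η) * s from ?_) 2)
      (le_of_eq (by rw [mul_pow, sq s, hss]))
    linarith [mul_le_mul_of_nonneg_right hi.le hs0.le]

/-- the law attached to `(a, α)`: what the self-consistent equation says about a measure -/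
def SolvesEq (a α : Fin r → ℝ) (μ : Measure ℝ) : Prop :=
  ∀ z : ℝ, 0 ≤ z → Gf a α z (∫ x, 1 / (1 + z * x) ∂μ) = 0

lemma integrable_ratio {μ : Measure ℝ} [IsProbabilityMeasure μ] {L : ℝ} (hL : ∀ᵐ x ∂μ, x ∈ Set.Icc 0 L)
    (k : ℕ) {z : ℝ} (hz : 0 ≤ z) : Integrable (fun x => x ^ k / (1 + z * x)) μ := by
  refine Integrable.of_bound (Measurable.aestronglyMeasurable (by fun_prop)) (L ^ k) (hL.mono fun x hx => ?_)
  have h1 : 1 ≤ 1 + z * x := by nlinarith [mul_nonneg hz hx.1]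
  rw [Real.norm_eq_abs, abs_of_nonneg (div_nonneg (pow_nonneg hx.1 k) (by linarith))]
  exact (div_le_self (pow_nonneg hx.1 k) h1).trans (pow_le_pow_left₀ hx.1 hx.2 k)

/-- the equation determines all moments -/
theorem moments_unique {a α : Fin r → ℝ} (ha : ∀ j, 0 ≤ a j) (hα : ∀ j, 0 ≤ α j) {μ μ' : Measure ℝ}
    [IsProbabilityMeasure μ] [IsProbabilityMeasure μ'] {L : ℝ} (hL : ∀ᵐ x ∂μ, x ∈ Set.Icc 0 L)
    (hL' : ∀ᵐ x ∂μ', x ∈ Set.Icc 0 L) (h : SolvesEq a α μ) (h' : SolvesEq a α μ') (k : ℕ) :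
    ∫ x, x ^ k ∂μ = ∫ x, x ^ k ∂μ' := by
  have nn : ∀ (ρ : Measure ℝ), (∀ᵐ x ∂ρ, x ∈ Set.Icc 0 L) → ∀ z : ℝ, 0 ≤ z → 0 ≤ ∫ x, 1 / (1 + z * x) ∂ρ :=
    fun ρ hρ z hz => integral_nonneg_of_ae (hρ.mono fun x hx => by
      have := mul_nonneg hz hx.1
      positivity)
  have base : ∀ z : ℝ, 0 < z → ∫ x, x ^ 0 / (1 + z * x) ∂μ = ∫ x, x ^ 0 / (1 + z * x) ∂μ' := fun z hz => by
    simp only [pow_zero]
    have := Gf_dist (a := a) (α := α) ha hα hz.le (nn μ hL z hz.le) (nn μ' hL' z hz.le)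
    rw [h z hz.le, h' z hz.le, sub_zero, abs_zero] at this
    exact sub_eq_zero.1 (abs_eq_zero.1 (le_antisymm this (abs_nonneg _)))
  have rec_eq : ∀ (ρ : Measure ℝ) [IsProbabilityMeasure ρ], (∀ᵐ x ∂ρ, x ∈ Set.Icc 0 L) → ∀ (k : ℕ) (z : ℝ), 0 < z →
      ∫ x, x ^ k / (1 + z * x) ∂ρ = ∫ x, x ^ k ∂ρ - z * ∫ x, x ^ (k + 1) / (1 + z * x) ∂ρ := by
    intro ρ _ hρ k z hz
    have i1 : Integrable (fun x : ℝ => x ^ k) ρ := by simpa using integrable_ratio hρ k (le_refl (0:ℝ))
    have i2 := (integrable_ratio hρ (k + 1) hz.le).const_mul z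
    rw [← integral_const_mul, ← integral_sub i1 i2]
    refine integral_congr_ae (hρ.mono fun x hx => ?_)
    have h1 : 1 + z * x ≠ 0 := by have := mul_nonneg hz.le hx.1; positivity
    field_simp
    ring
  have bnd : ∀ (ρ : Measure ℝ) [IsProbabilityMeasure ρ], (∀ᵐ x ∂ρ, x ∈ Set.Icc 0 L) → ∀ (k : ℕ) (z : ℝ), 0 < z →
      |∫ x, x ^ k / (1 + z * x) ∂ρ| ≤ L ^ k := by
    intro ρ _ hρ k z hz
    rw [← Real.norm_eq_abs]
    refine (norm_integral_le_of_norm_le_const (C := L ^ k) (hρ.mono fun x hx => ?_)).trans_eq (by simp)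
    have h1 : 1 ≤ 1 + z * x := by nlinarith [mul_nonneg hz.le hx.1]
    rw [Real.norm_eq_abs, abs_of_nonneg (div_nonneg (pow_nonneg hx.1 k) (by linarith))]
    exact (div_le_self (pow_nonneg hx.1 k) h1).trans (pow_le_pow_left₀ hx.1 hx.2 k)
  suffices key : ∀ k : ℕ, (∀ z : ℝ, 0 < z → ∫ x, x ^ k / (1 + z * x) ∂μ = ∫ x, x ^ k / (1 + z * x) ∂μ') ∧
      ∫ x, x ^ k ∂μ = ∫ x, x ^ k ∂μ' from (key k).2
  have mom_eq : ∀ k : ℕ, (∀ z : ℝ, 0 < z → ∫ x, x ^ k / (1 + z * x) ∂μ = ∫ x, x ^ k / (1 + z * x) ∂μ') →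
      ∫ x, x ^ k ∂μ = ∫ x, x ^ k ∂μ' := by
    intro k hk
    refine sub_eq_zero.1 (abs_eq_zero.1 (le_antisymm (le_of_forall_pos_le_add fun ε hε => ?_) (abs_nonneg _)))
    set z := ε / (2 * |L| ^ (k + 1) + 1)
    have hz : 0 < z := by positivity
    have e1 := rec_eq μ hL k z hz
    have e2 := rec_eq μ' hL' k z hz
    have b1 := bnd μ hL (k + 1) z hz
    have b2 := bnd μ' hL' (k + 1) z hz
    have hLk : L ^ (k + 1) ≤ |L| ^ (k + 1) := by rw [← abs_pow]; exact le_abs_self _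
    have hkz := hk z hz
    rw [show ∫ x, x ^ k ∂μ - ∫ x, x ^ k ∂μ' =
      z * (∫ x, x ^ (k + 1) / (1 + z * x) ∂μ - ∫ x, x ^ (k + 1) / (1 + z * x) ∂μ') by linarith, abs_mul,
      abs_of_pos hz, zero_add]
    have hze : z * (2 * |L| ^ (k + 1) + 1) = ε := div_mul_cancel₀ _ (by positivity)
    nlinarith [abs_sub (∫ x, x ^ (k + 1) / (1 + z * x) ∂μ) (∫ x, x ^ (k + 1) / (1 + z * x) ∂μ')]
  intro k
  induction k with
  | zero => exact ⟨base, by simp⟩
  | succ k ih =>
    have : ∀ z : ℝ, 0 < z → ∫ x, x ^ (k + 1) / (1 + z * x) ∂μ = ∫ x, x ^ (k + 1) / (1 + z * x) ∂μ' := fun z hz => by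
      have e1 := rec_eq μ hL k z hz
      have e2 := rec_eq μ' hL' k z hz
      rw [ih.1 z hz, ih.2] at e1
      exact mul_left_cancel₀ hz.ne' (by linarith)
    exact ⟨this, mom_eq _ this⟩

/-- cluster laws of a spectrum sequence solve the equation and carry its moments -/
theorem exists_cluster {a α : Fin r → ℝ} (ha : ∀ j, a j ∈ Set.Icc (0:ℝ) 1) (hα : ∀ j, 0 < α j)
    {lam : ∀ N : ℕ, Fin N → ℝ} (h : Spec a α lam) (U : Ultrafilter ℕ) (hU : (U : Filter ℕ) ≤ atTop) :
    ∃ μ : Measure ℝ, IsProbabilityMeasure μ ∧ (∀ᵐ x ∂μ, x ∈ Set.Icc 0 (edge a α + 1)) ∧ SolvesEq a α μ ∧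
      ∀ k : ℕ, Tendsto (fun N : ℕ => (∑ i, lam N i ^ k) / (N:ℝ)) (U : Filter ℕ) (𝓝 (∫ x, x ^ k ∂μ)) := by
  classical
  set L := edge a α + 1
  have hL : (0:ℝ) ≤ L := by have := edge_nonneg ha hα; positivity
  set K := Set.Icc (0:ℝ) L
  set f : ∀ N : ℕ, Fin N → K := fun N i => Set.projIcc 0 L hL (lam N i)
  set η : ℕ → ProbabilityMeasure K := fun N =>
    if hN : 0 < N then
      haveI : Nonempty (Fin N) := ⟨⟨0, hN⟩⟩
      ⟨(PMF.uniformOfFintype (Fin N)).toMeasure.map (f N),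
        Measure.isProbabilityMeasure_map (measurable_of_countable _).aemeasurable⟩
    else ⟨Measure.dirac ⟨0, le_rfl, hL⟩, inferInstance⟩
  obtain ⟨x, -, hx⟩ := isCompact_univ.ultrafilter_le_nhds (U.map η) (by simp)
  have hconv : Tendsto η (U : Filter ℕ) (𝓝 x) := hx
  set μ : Measure ℝ := (x : Measure K).map Subtype.val
  have hμ : IsProbabilityMeasure μ := Measure.isProbabilityMeasure_map (by fun_prop)
  have hKae : ∀ᵐ y ∂μ, y ∈ Set.Icc 0 L := (ae_map_iff (by fun_prop) measurableSet_Icc).2 (.of_forall fun y => y.2)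
  have hlim : ∀ φ : ℝ → ℝ, ContinuousOn φ (Set.Icc 0 L) → Measurable φ →
      Tendsto (fun N : ℕ => (∑ i, φ (lam N i)) / (N:ℝ)) (U : Filter ℕ) (𝓝 (∫ y, φ y ∂μ)) := by
    intro φ hφ hφm
    set F : BoundedContinuousFunction K ℝ :=
      BoundedContinuousFunction.mkOfCompact ⟨fun y => φ y, hφ.restrict⟩
    rw [integral_map (by fun_prop) hφm.aestronglyMeasurable]
    show Tendsto _ _ (𝓝 (∫ y, F y ∂(x : Measure K)))
    refine ((ProbabilityMeasure.continuous_integral_boundedContinuousFunction F).continuousAt.tendsto.comp hconv).congr' ?_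
    refine Filter.Eventually.filter_mono hU ?_
    filter_upwards [h.top 1 one_pos, eventually_gt_atTop 0] with N hN hN0
    have : Nonempty (Fin N) := ⟨⟨0, hN0⟩⟩
    show ∫ y, F y ∂((η N : ProbabilityMeasure K) : Measure K) = _
    have he : ((η N : ProbabilityMeasure K) : Measure K) = (PMF.uniformOfFintype (Fin N)).toMeasure.map (f N) := by
      simp [η, hN0]
    rw [he, integral_map (measurable_of_countable _).aemeasurable F.continuous.aestronglyMeasurable,
      PMF.integral_eq_sum, Finset.sum_div]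
    refine Finset.sum_congr rfl fun i _ => ?_
    simp [F, f, Set.projIcc_of_mem hL (show lam N i ∈ Set.Icc 0 L from ⟨h.nonneg N i, hN i⟩), div_eq_inv_mul]
    exact Or.inl rfl
  refine ⟨μ, hμ, hKae, ?_, fun k => hlim _ (continuous_pow k).continuousOn (continuous_pow k).measurable⟩
  have hcF : ∀ z : ℝ, 0 ≤ z → ContinuousOn (fun y : ℝ => 1 / (1 + z * y)) (Set.Icc 0 L) := fun z hz =>
    continuousOn_const.div (by fun_prop) fun y hy => by have := mul_nonneg hz hy.1; positivity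
  have hF : Continuous fun z : ℝ => ∫ y, 1 / (1 + |z| * y) ∂μ := by
    refine continuous_of_dominated (bound := fun _ => (1:ℝ)) (fun z => ?_) (fun z => ?_) (integrable_const _) ?_
    · exact (Measurable.aestronglyMeasurable (by fun_prop))
    · refine hKae.mono fun y hy => ?_
      have := mul_nonneg (abs_nonneg z) hy.1
      rw [Real.norm_eq_abs, abs_of_nonneg (by positivity), div_le_one (by positivity)]
      linarith
    · refine hKae.mono fun y hy => ?_
      exact continuous_const.div (by fun_prop) fun z => by have := mul_nonneg (abs_nonneg z) hy.1; positivity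
  have hF0 : ∀ z : ℝ, 0 ≤ ∫ y, 1 / (1 + |z| * y) ∂μ := fun z => integral_nonneg_of_ae (hKae.mono fun y hy => by
    have := mul_nonneg (abs_nonneg z) hy.1
    positivity)
  have hcont : Continuous fun z : ℝ => Gf a α |z| (∫ y, 1 / (1 + |z| * y) ∂μ) := by
    unfold Gf
    refine (continuous_const.sub hF).sub (continuous_finsetSum _ fun j _ => continuous_const.mul ?_)
    refine Continuous.div (by fun_prop) (by fun_prop) fun z => ?_
    have := mul_nonneg (mul_nonneg (abs_nonneg z) (ha j).1) (hF0 z)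
    positivity
  have hzero : ∀ q : ℚ, Gf a α |(q:ℝ)| (∫ y, 1 / (1 + |(q:ℝ)| * y) ∂μ) = 0 := fun q => by
    obtain ⟨X, hX, hX0⟩ := exists_root (a := a) (α := α) (fun j => (ha j).1) (fun j => (hα j).le) (abs_nonneg (q:ℝ))
    rw [tendsto_nhds_unique (hlim _ (hcF _ (abs_nonneg (q:ℝ))) (by fun_prop)) ((h.res q X hX.1 hX0).mono_left hU)]
    exact hX0
  intro z hz
  have := congrFun (Continuous.ext_on (Rat.denseRange_cast (𝕜 := ℝ)) hcont continuous_const
    (by rintro _ ⟨q, rfl⟩; exact hzero q)) z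
  simpa [abs_of_nonneg hz] using this

/-- no solution of the equation lives strictly below the edge -/
theorem growth {a α : Fin r → ℝ} (hr : 0 < r) (ha : ∀ j, 0 < a j ∧ a j ≤ 1) (hα : ∀ j, 0 < α j) {μ : Measure ℝ}
    [IsProbabilityMeasure μ] {s : ℝ} (hs : 0 < s) (hsupp : ∀ᵐ x ∂μ, x ∈ Set.Icc 0 s) (heq : SolvesEq a α μ)
    (hlt : s < edge a α) : False := by
  classical
  set m : ℕ → ℝ := fun k => ∫ x, x ^ k ∂μ
  have hint : ∀ k : ℕ, Integrable (fun x : ℝ => x ^ k) μ := fun k => by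
    simpa using integrable_ratio hsupp k (le_refl (0:ℝ))
  have hm : ∀ k, |m k| ≤ s ^ k := fun k => by
    show |∫ x, x ^ k ∂μ| ≤ s ^ k
    rw [← Real.norm_eq_abs]
    refine (norm_integral_le_of_norm_le_const (C := s ^ k) (hsupp.mono fun x hx => ?_)).trans_eq (by simp)
    rw [Real.norm_eq_abs, abs_of_nonneg (pow_nonneg hx.1 k)]
    exact pow_le_pow_left₀ hx.1 hx.2 k
  set p := FormalMultilinearSeries.ofScalars ℝ m
  set R : NNReal := ⟨1 / s, by positivity⟩
  have hrad : (R : ENNReal) ≤ p.radius := by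
    refine p.le_radius_of_bound 1 fun n => ?_
    rw [FormalMultilinearSeries.ofScalars_norm, Real.norm_eq_abs]
    show |m n| * (1 / s) ^ n ≤ 1
    rw [div_pow, one_pow, mul_one_div, div_le_one (by positivity)]
    exact hm n
  have hR : (0 : ENNReal) < R := by
    refine ENNReal.coe_pos.2 ?_
    show (0:ℝ) < 1 / s
    positivity
  set F := p.sum
  have han : AnalyticOnNhd ℝ F (Set.Ioo (-(1 / s)) (1 / s)) := by
    refine (((p.hasFPowerSeriesOnBall (hR.trans_le hrad)).mono hR hrad).analyticOnNhd).mono fun u hu => ?_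
    have : dist u 0 < (R:ℝ) := by
      rw [Real.dist_eq, sub_zero]
      show |u| < 1 / s
      exact abs_lt.2 hu
    exact Metric.mem_eball.2 (by rw [edist_dist, ← ENNReal.ofReal_coe_nnreal]; exact (ENNReal.ofReal_lt_ofReal_iff_of_nonneg dist_nonneg).2 this)
  have hsum : ∀ u, F u = ∑' k : ℕ, m k * u ^ k := fun u => by
    simp [F, p, FormalMultilinearSeries.sum, mul_comm]
  have hneg : ∀ u ∈ Set.Ioo (-(1 / s)) 0, F u = ∫ x, 1 / (1 + -u * x) ∂μ := by
    intro u hu
    have hus : -u * s < 1 := by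
      have := mul_lt_mul_of_pos_right hu.1 hs
      rw [neg_mul, div_mul_cancel₀ _ hs.ne'] at this
      linarith
    have hu0 : 0 ≤ -u * s := mul_nonneg (by linarith [hu.2]) hs.le
    have hsum' : Summable fun k : ℕ => m k * u ^ k := by
      refine Summable.of_norm_bounded (summable_geometric_of_lt_one hu0 hus) fun k => ?_
      rw [Real.norm_eq_abs, abs_mul, abs_pow, abs_of_neg hu.2, mul_pow, mul_comm]
      exact mul_le_mul_of_nonneg_left (hm k) (pow_nonneg (by linarith [hu.2]) k)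
    rw [hsum]
    refine tendsto_nhds_unique hsum'.hasSum.tendsto_sum_nat ?_
    rw [tendsto_iff_dist_tendsto_zero]
    refine squeeze_zero (fun n => dist_nonneg) (fun n => ?_) (tendsto_pow_atTop_nhds_zero_of_lt_one hu0 hus)
    have hI : Integrable (fun x => 1 / (1 + -u * x)) μ := by
      simpa using integrable_ratio hsupp 0 (show (0:ℝ) ≤ -u by linarith [hu.2])
    have e : ∑ k ∈ Finset.range n, m k * u ^ k = ∫ x, ∑ k ∈ Finset.range n, (u * x) ^ k ∂μ := by
      rw [integral_finsetSum]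
      · exact Finset.sum_congr rfl fun k _ => by simp only [m, ← integral_mul_const]; congr 1; funext x; ring
      · intro k _; simp only [mul_pow]; exact (hint k).const_mul _
    rw [e, Real.dist_eq, ← integral_sub (integrable_finsetSum _ fun k _ => by
      simp only [mul_pow]; exact (hint k).const_mul _) hI, ← Real.norm_eq_abs]
    refine (norm_integral_le_of_norm_le_const (C := (-u * s) ^ n) (hsupp.mono fun x hx => ?_)).trans_eq (by simp)
    have hden : 1 ≤ 1 + -u * x := by nlinarith [mul_nonneg (show 0 ≤ -u by linarith [hu.2]) hx.1]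
    have e2 : ∑ k ∈ Finset.range n, (u * x) ^ k - 1 / (1 + -u * x) = -((u * x) ^ n / (1 + -u * x)) := by
      have hg := geom_sum_mul (u * x) n
      rw [eq_neg_iff_add_eq_zero, sub_add, sub_eq_zero, ← sub_div, eq_div_iff (by linarith)]
      linear_combination -hg
    rw [e2, norm_neg, Real.norm_eq_abs, abs_div, abs_of_pos (show 0 < 1 + -u * x by linarith), abs_pow]
    refine (div_le_self (by positivity) hden).trans (pow_le_pow_left₀ (abs_nonneg _) ?_ n)
    rw [abs_mul, abs_of_neg hu.2, abs_of_nonneg hx.1]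
    exact mul_le_mul_of_nonneg_left hx.2 (by linarith [hu.2])
  set H : ℝ → ℝ := fun u => (F u - 1) * ∏ j, (1 - u * a j * F u) -
    ∑ j, α j * (u * a j * F u) * ∏ i ∈ Finset.univ.erase j, (1 - u * a i * F u)
  have hid : AnalyticOnNhd ℝ (fun u : ℝ => u) (Set.Ioo (-(1 / s)) (1 / s)) := analyticOnNhd_id
  have hfac : ∀ j, AnalyticOnNhd ℝ (fun u => u * a j * F u) (Set.Ioo (-(1 / s)) (1 / s)) := fun j =>
    (hid.mul analyticOnNhd_const).mul han
  have hone : ∀ j, AnalyticOnNhd ℝ (fun u => 1 - u * a j * F u) (Set.Ioo (-(1 / s)) (1 / s)) := fun j =>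
    analyticOnNhd_const.sub (hfac j)
  have hH : AnalyticOnNhd ℝ H (Set.Ioo (-(1 / s)) (1 / s)) :=
    ((han.sub analyticOnNhd_const).mul (Finset.analyticOnNhd_fun_prod _ fun j _ => hone j)).sub
      (Finset.analyticOnNhd_fun_sum _ fun j _ =>
        (analyticOnNhd_const.mul (hfac j)).mul (Finset.analyticOnNhd_fun_prod _ fun i _ => hone i))
  have key : ∀ u, (∀ j, 1 - u * a j * F u ≠ 0) →
      H u = (∏ j, (1 - u * a j * F u)) * (F u - 1 - ∑ j, α j * (u * a j * F u / (1 - u * a j * F u))) := by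
    intro u hu
    simp only [H, mul_sub, Finset.mul_sum]
    congr 1
    · ring
    · refine Finset.sum_congr rfl fun j hj => ?_
      rw [← Finset.mul_prod_erase _ _ hj]
      field_simp [hu j]
  have hs' : 0 < 1 / s := by positivity
  have hzero : Set.EqOn H 0 (Set.Ioo (-(1 / s)) (1 / s)) := by
    refine hH.eqOn_zero_of_preconnected_of_eventuallyEq_zero isPreconnected_Ioo (z₀ := -(1 / s) / 2)
      ⟨by linarith, by linarith⟩ ?_
    filter_upwards [Ioo_mem_nhds (show -(1 / s) < -(1 / s) / 2 by linarith) (show -(1 / s) / 2 < 0 by linarith)]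
      with u hu
    have hF := hneg u hu
    have hF0 : 0 ≤ F u := hF ▸ integral_nonneg_of_ae (hsupp.mono fun x hx => by
      have := mul_nonneg (show 0 ≤ -u by linarith [hu.2]) hx.1
      positivity)
    have hne : ∀ j, 1 - u * a j * F u ≠ 0 := fun j => by
      have := mul_nonneg (mul_nonneg (show 0 ≤ -u by linarith [hu.2]) (ha j).1.le) hF0
      intro h0
      linarith
    have h := heq (-u) (by linarith [hu.2])
    rw [← hF, Gf] at h
    rw [key u hne]
    refine mul_eq_zero_of_right _ ?_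
    have e : ∀ j, α j * (u * a j * F u / (1 - u * a j * F u)) = -(α j * (-u * a j * F u / (1 + -u * a j * F u))) :=
      fun j => by
        rw [show 1 + -u * a j * F u = 1 - u * a j * F u by ring]
        ring
    simp only [e, Finset.sum_neg_distrib]
    linarith
  obtain ⟨j0, -, hj0⟩ := Finset.exists_max_image Finset.univ a ⟨⟨0, hr⟩, Finset.mem_univ _⟩
  set φ := fun u => u * a j0 * F u
  have hFc : ∀ u ∈ Set.Ioo (-(1 / s)) (1 / s), ContinuousAt F u := fun u hu => (han u hu).continuousAt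
  -- the equation where all denominators are positive
  have heqn : ∀ u ∈ Set.Ico (0:ℝ) (1 / s), 0 ≤ φ u → φ u < 1 →
      (∀ j, 0 < 1 - u * a j * F u) ∧ F u - 1 = ∑ j, α j * (u * a j * F u / (1 - u * a j * F u)) := by
    intro u hu h0 h1
    have hd : ∀ j, u * a j * F u ≤ φ u := fun j => by
      rcases eq_or_lt_of_le hu.1 with h | h
      · simp [φ, ← h]
      · have hF0 : 0 ≤ F u := nonneg_of_mul_nonneg_right h0 (mul_pos h (ha j0).1)
        exact mul_le_mul_of_nonneg_right (mul_le_mul_of_nonneg_left (hj0 j (Finset.mem_univ j)) hu.1) hF0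
    have hpos : ∀ j, 0 < 1 - u * a j * F u := fun j => by linarith [hd j]
    refine ⟨hpos, ?_⟩
    have := hzero ⟨(by linarith [hu.1] : -(1 / s) < u), hu.2⟩
    rw [Pi.zero_apply, key u fun j => (hpos j).ne', mul_eq_zero] at this
    rcases this with h | h
    · exact absurd h (Finset.prod_pos fun j _ => hpos j).ne'
    · linarith
  have hFnn : ∀ u ∈ Set.Ico (0:ℝ) (1 / s), 1 ≤ F u ∧ φ u < 1 := by
    intro u1 hu1
    have hF1 : ∀ u ∈ Set.Ico (0:ℝ) (1 / s), 0 ≤ φ u → φ u < 1 → 1 ≤ F u := fun u hu h0 h1 => by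
      obtain ⟨hp, he⟩ := heqn u hu h0 h1
      have hF0 : 0 ≤ F u := by
        rcases eq_or_lt_of_le hu.1 with h | h
        · rw [← h] at he; simp at he; rw [← h]; linarith
        · exact nonneg_of_mul_nonneg_right h0 (mul_pos h (ha j0).1)
      have : 0 ≤ ∑ j, α j * (u * a j * F u / (1 - u * a j * F u)) := Finset.sum_nonneg fun j _ =>
        mul_nonneg (hα j).le (div_nonneg (mul_nonneg (mul_nonneg hu.1 (ha j).1.le) hF0) (hp j).le)
      linarith
    by_contra hbad
    -- first time the bound fails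
    set T := {u | u ∈ Set.Icc (0:ℝ) u1 ∧ (1 ≤ φ u ∨ F u ≤ 1 / 2)}
    have hmaps : ∀ u ∈ Set.Icc (0:ℝ) u1, u ∈ Set.Ioo (-(1 / s)) (1 / s) := fun u hu =>
      ⟨by linarith [hu.1], hu.2.trans_lt hu1.2⟩
    have hFco : ContinuousOn F (Set.Icc (0:ℝ) u1) := fun u hu => (hFc u (hmaps u hu)).continuousWithinAt
    have hφco : ContinuousOn φ (Set.Icc (0:ℝ) u1) := (continuousOn_id.mul continuousOn_const).mul hFco
    have hF00 : F 0 = 1 := by
      rw [hsum, tsum_eq_single 0 fun k hk => by simp [hk]]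
      simp [m]
    have hTc : IsClosed T := by
      have e : T = (Set.Icc (0:ℝ) u1 ∩ φ ⁻¹' Set.Ici 1) ∪ (Set.Icc (0:ℝ) u1 ∩ F ⁻¹' Set.Iic (1 / 2)) := by
        ext u; simp [T, and_or_left]
      rw [e]
      exact (hφco.preimage_isClosed_of_isClosed isClosed_Icc isClosed_Ici).union
        (hFco.preimage_isClosed_of_isClosed isClosed_Icc isClosed_Iic)
    have hTne : T.Nonempty := by
      refine ⟨u1, ⟨hu1.1, le_rfl⟩, ?_⟩
      by_contra hc
      push Not at hc
      have h0 : 0 ≤ φ u1 := mul_nonneg (mul_nonneg hu1.1 (ha j0).1.le) (by linarith [hc.2])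
      exact hbad ⟨hF1 u1 hu1 h0 hc.1, hc.1⟩
    set u0 := sInf T
    have hu0 : u0 ∈ T := hTc.csInf_mem hTne ⟨0, fun u hu => hu.1.1⟩
    have hu0pos : 0 < u0 := by
      refine lt_of_le_of_ne hu0.1.1 fun h => ?_
      rcases hu0.2 with h1 | h1
      · simp only [φ] at h1; rw [← h, zero_mul, zero_mul] at h1; linarith
      · rw [← h, hF00] at h1; linarith
    have hbefore : ∀ u ∈ Set.Ico (0:ℝ) u0, φ u < 1 ∧ 1 / 2 < F u := fun u hu => by
      have hnot : u ∉ T := fun hT => not_lt.2 (csInf_le ⟨0, fun v hv => hv.1.1⟩ hT) hu.2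
      have hmem : u ∈ Set.Icc (0:ℝ) u1 := ⟨hu.1, hu.2.le.trans hu0.1.2⟩
      simp only [T, Set.mem_ofPred_eq, not_and, not_or, not_le] at hnot
      exact hnot hmem
    have hIn : u0 ∈ Set.Ioo (-(1 / s)) (1 / s) := hmaps u0 hu0.1
    have hφc : ContinuousAt φ u0 := (continuousAt_id.mul continuousAt_const).mul (hFc u0 hIn)
    have hev : ∀ᶠ u in 𝓝[<] u0, 1 ≤ F u ∧ α j0 * φ u ≤ (F u - 1) * (1 - φ u) := by
      filter_upwards [Ioo_mem_nhdsLT hu0pos] with u hu
      obtain ⟨b1, b2⟩ := hbefore u ⟨hu.1.le, hu.2⟩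
      have huI : u ∈ Set.Ico (0:ℝ) (1 / s) := ⟨hu.1.le, hu.2.trans hIn.2⟩
      have h0 : 0 ≤ φ u := mul_nonneg (mul_nonneg hu.1.le (ha j0).1.le) (by linarith)
      obtain ⟨hp, he⟩ := heqn u huI h0 b1
      refine ⟨hF1 u huI h0 b1, ?_⟩
      have hle : α j0 * (φ u / (1 - φ u)) ≤ F u - 1 := by
        rw [he]
        exact Finset.single_le_sum (f := fun j => α j * (u * a j * F u / (1 - u * a j * F u))) (fun j _ =>
          mul_nonneg (hα j).le (div_nonneg (mul_nonneg (mul_nonneg hu.1.le (ha j).1.le) (by linarith)) (hp j).le))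
          (Finset.mem_univ j0)
      rw [← mul_div_assoc, div_le_iff₀ (by linarith)] at hle
      exact hle
    have hF1' : 1 ≤ F u0 :=
      ge_of_tendsto ((hFc u0 hIn).tendsto.mono_left nhdsWithin_le_nhds) (hev.mono fun u hu => hu.1)
    have hlim' : 0 ≤ (F u0 - 1) * (1 - φ u0) - α j0 * φ u0 :=
      ge_of_tendsto (((((hFc u0 hIn).sub continuousAt_const).mul (continuousAt_const.sub hφc)).sub
        (continuousAt_const.mul hφc)).tendsto.mono_left nhdsWithin_le_nhds)
        (hev.mono fun u hu => by simp only [Pi.sub_apply, Pi.mul_apply]; linarith [hu.2])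
    rcases hu0.2 with h1 | h1
    · nlinarith [mul_nonneg (sub_nonneg.2 hF1') (sub_nonneg.2 h1), mul_le_mul_of_nonneg_left h1 (hα j0).le, hα j0]
    · linarith
  obtain ⟨t, ht1, ht2⟩ := exists_between hlt
  have ht : 0 < t := hs.trans ht1
  set u := 1 / t
  have hu : u ∈ Set.Ico (0:ℝ) (1 / s) := ⟨by positivity, one_div_lt_one_div_of_lt hs ht1⟩
  obtain ⟨hF1, hφ1⟩ := hFnn u hu
  have hupos : 0 < u := by positivity
  have hφ0 : 0 ≤ φ u := mul_nonneg (mul_nonneg hupos.le (ha j0).1.le) (by linarith)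
  obtain ⟨hp, he⟩ := heqn u hu hφ0 hφ1
  set y := u * F u
  have hy : 0 < y := mul_pos hupos (by linarith)
  have hmem : t ∈ edgeSet a α := by
    refine ⟨y, hy, fun j => by
      have := hp j
      simp only [y]; nlinarith, ?_⟩
    have e : ∀ j, α j * (a j / (1 - y * a j)) = α j * (u * a j * F u / (1 - u * a j * F u)) / y := fun j => by
      have hd := (hp j).ne'
      rw [show 1 - y * a j = 1 - u * a j * F u by simp only [y]; ring]
      simp only [y]
      field_simp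
    simp only [e, ← Finset.sum_div, ← he, ← add_div]
    rw [show 1 + (F u - 1) = F u by ring]
    have hne : F u ≠ 0 := by linarith
    simp only [y, u] at hne ⊢
    field_simp
  exact not_lt.2 (csInf_le (edgeSet_bdd (fun j => ⟨(ha j).1.le, (ha j).2⟩) hα) hmem) ht2

/-- the law attached to `(a, α)` and its basic properties -/
theorem exists_law {a α : Fin r → ℝ} (hr : 0 < r) (ha : ∀ j, 0 < a j ∧ a j ≤ 1) (hα : ∀ j, 0 < α j)
    {lam : ∀ N : ℕ, Fin N → ℝ} (h : Spec a α lam) :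
    ∃ μ : Measure ℝ, IsProbabilityMeasure μ ∧ IsCompact μ.support ∧ μ.support ⊆ Set.Icc 0 (edge a α) ∧
      sSup μ.support = edge a α ∧ SolvesEq a α μ := by
  have ha' : ∀ j, a j ∈ Set.Icc (0:ℝ) 1 := fun j => ⟨(ha j).1.le, (ha j).2⟩
  obtain ⟨μ, hμ, hKae, heq, hmom⟩ := exists_cluster ha' hα h (Ultrafilter.of atTop) (Ultrafilter.of_le _)
  set E0 := edge a α
  have hE0 : 0 ≤ E0 := edge_nonneg ha' hα
  have hint : ∀ k : ℕ, Integrable (fun y : ℝ => y ^ k) μ := fun k => by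
    simpa using integrable_ratio hKae k (le_refl (0:ℝ))
  have hmle : ∀ δ, 0 < δ → ∀ k : ℕ, ∫ y, y ^ k ∂μ ≤ (E0 + δ) ^ k := fun δ hδ k => by
    refine le_of_tendsto (hmom k) (Filter.Eventually.filter_mono (Ultrafilter.of_le _) ?_)
    filter_upwards [h.top δ hδ, eventually_gt_atTop 0] with N hN hN0
    rw [div_le_iff₀ (by exact_mod_cast hN0)]
    refine (Finset.sum_le_card_nsmul _ _ _ fun i _ => pow_le_pow_left₀ (h.nonneg N i) (hN i) k).trans_eq ?_
    simp [mul_comm, E0]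
  have htail : ∀ t, E0 < t → μ (Set.Ioi t) = 0 := by
    intro t ht
    obtain ⟨b, hb1, hb2⟩ := exists_between ht
    have hb : 0 < b := hE0.trans_lt hb1
    have hle : ∀ k : ℕ, μ.real (Set.Ioi t) ≤ (b / t) ^ k := fun k => by
      rw [div_pow, le_div_iff₀ (pow_pos (hb.trans hb2) k), mul_comm]
      refine le_trans (le_trans ?_ (mul_meas_ge_le_integral_of_nonneg
        (hKae.mono fun y hy => pow_nonneg hy.1 k) (hint k) (t ^ k)))
        (by simpa using hmle (b - E0) (sub_pos.2 hb1) k)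
      exact mul_le_mul_of_nonneg_left
        (measureReal_mono fun y (hy : t < y) => pow_le_pow_left₀ (hb.trans hb2).le hy.le k)
        (pow_nonneg (hb.trans hb2).le k)
    have h0 : μ.real (Set.Ioi t) ≤ 0 := ge_of_tendsto
      (tendsto_pow_atTop_nhds_zero_of_lt_one (div_nonneg hb.le (hb.trans hb2).le) ((div_lt_one (hb.trans hb2)).2 hb2)) (.of_forall hle)
    exact (measureReal_eq_zero_iff).1 (le_antisymm h0 measureReal_nonneg)
  have hsupp : μ.support ⊆ Set.Icc 0 E0 := by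
    refine Measure.support_subset_of_isClosed isClosed_Icc ?_
    have h2 : ∀ᵐ y ∂μ, ∀ n : ℕ, y ≤ E0 + 1 / ((n:ℝ) + 1) := ae_all_iff.2 fun n => by
      rw [ae_iff]
      have h1 : (0:ℝ) < 1 / ((n:ℝ) + 1) := by positivity
      rw [show {y : ℝ | ¬y ≤ E0 + 1 / ((n:ℝ) + 1)} = Set.Ioi (E0 + 1 / ((n:ℝ) + 1)) by ext y; simp]
      exact htail _ (by linarith)
    filter_upwards [hKae, h2] with y hy hy2
    refine ⟨hy.1, le_of_forall_pos_le_add fun d hd => ?_⟩
    obtain ⟨n, hn⟩ := exists_nat_one_div_lt hd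
    linarith [hy2 n]
  have hne : μ.support.Nonempty := Measure.nonempty_support (IsProbabilityMeasure.ne_zero μ)
  refine ⟨μ, hμ, isCompact_Icc.of_isClosed_subset Measure.isClosed_support hsupp, hsupp, ?_, heq⟩
  refine le_antisymm (csSup_le hne fun y hy => (hsupp hy).2) ?_
  by_contra hlt
  push Not at hlt
  have hs0 : 0 ≤ sSup μ.support := by
    obtain ⟨y, hy⟩ := hne
    exact (hsupp hy).1.trans (le_csSup (bddAbove_Icc.mono hsupp) hy)
  obtain ⟨s, hs1, hs2⟩ := exists_between hlt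
  refine growth hr ha hα (hs0.trans_lt hs1) ?_ heq hs2
  filter_upwards [Measure.support_mem_ae (μ := μ)] with y hy
  exact ⟨(hsupp hy).1, (le_csSup (bddAbove_Icc.mono hsupp) hy).trans hs1.le⟩

end Vale.Agent.P166.Pattern.Multi
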