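import Vale.Agent.P166.Pattern.Multi.Mix

/-!
Convergence of the normalised mean log partition function with patterns of several strengths.
-/

open MeasureTheory ProbabilityTheory Filter
open scoped Topology

noncomputable section

namespace Vale.Agent.P166.Pattern.Multi

variable {r : ℕ}

/-- numbers of patterns of each strength at size `N` -/
def Ks (α : Fin r → ℝ) (N : ℕ) : Fin r → ℕ := fun j => ⌊α j * (N:ℝ)⌋₊

/-- error term of the block bound -/
def err (α : Fin r → ℝ) (m : ℕ) : ℝ := cb (1 / 10) * ∑ j, (√(α j * m) + 2)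

theorem blocks_bound {b : ℝ} (hb0 : 0 ≤ b) (hb : b ≤ 1 / 10) {a : Fin r → ℝ}
    (ha : ∀ j, a j ∈ Set.Icc (0:ℝ) 1) {α : Fin r → ℝ} (hα : ∀ j, 0 < α j) {m q e : ℕ} (hm : 0 < m)
    (he : 0 < e) :
    (q : ℝ) * (fC b a m (Ks α m) - err α m) ≤ fC b a (q * m + e) (Ks α (q * m + e)) := by
  classical
  set n : Option (Fin q) → ℕ := fun c => c.elim e fun _ => m
  have hn : ∀ c, 0 < n c := fun c => by cases c <;> assumption
  have hsum : ∑ c, n c = q * m + e := by simp [n, Fintype.sum_option, add_comm]
  set t := can (Ks α (q * m + e))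
  have h := superadd hb0 hb ha n hn t
  rw [hsum] at h
  refine le_trans ?_ h
  set N : ℝ := ((q * m + e : ℕ) : ℝ) with hNdef
  have hN0 : (0:ℝ) < N := by rw [hNdef]; exact_mod_cast Nat.add_pos_right _ he
  set lam : Option (Fin q) → ℝ := fun c => (n c : ℝ) / N
  have hl : ∑ c, lam c = 1 := by
    rw [← Finset.sum_div, ← Nat.cast_sum, hsum, ← hNdef, div_self hN0.ne']
  have hlp : ∀ c, 0 ≤ lam c := fun c => by positivity
  have hl0 : ∀ s : Fin (∑ j, Ks α (q * m + e) j) → Option (Fin q), 0 ≤ ∏ k, lam (s k) := fun s =>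
    Finset.prod_nonneg fun k _ => hlp _
  have hc := cb_nonneg (b := 1 / 10) (by norm_num) (by norm_num)
  calc (q:ℝ) * (fC b a m (Ks α m) - err α m)
      = ∑ _c : Fin q, (fC b a m (Ks α m) - err α m) := by
        rw [Finset.sum_const, Finset.card_univ, Fintype.card_fin, nsmul_eq_mul]
    _ ≤ ∑ c : Fin q, ∑ s : Fin (∑ j, Ks α (q * m + e) j) → Option (Fin q),
          (∏ k, lam (s k)) * fC b a m (cnt2 t s (some c)) := by
        refine Finset.sum_le_sum fun c _ => ?_
        set S : Fin r → ℝ := fun j => √(α j * m)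
        have hS : ∀ j, 0 < S j := fun j => Real.sqrt_pos.2 (by have := hα j; positivity)
        set T : Fin r → Finset (Fin (∑ j, Ks α (q * m + e) j)) := fun j => Finset.univ.filter fun k => t k = j
        have hT : ∀ j, ((T j).card : ℝ) = Ks α (q * m + e) j := fun j => by
          exact_mod_cast cnt_can (Ks α (q * m + e)) j
        set mu : Fin r → ℝ := fun j => lam (some c) * (T j).card
        have hla : lam (some c) = (m:ℝ) / N := rfl
        have hmN : (m:ℝ) ≤ N := by
          rw [hNdef]; push_cast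
          have : (1:ℝ) ≤ e := by exact_mod_cast he
          rcases Nat.eq_zero_or_pos q with h0 | h0
          · subst h0; exact absurd c.2 (Nat.not_lt_zero _)
          · have : (1:ℝ) ≤ q := by exact_mod_cast h0
            nlinarith
        have hmu : ∀ j, |mu j - Ks α m j| ≤ 2 ∧ mu j ≤ α j * m := fun j => by
          have h1 : (Ks α (q * m + e) j : ℝ) ≤ α j * N := Nat.floor_le (by have := hα j; positivity)
          have h2 : α j * N < Ks α (q * m + e) j + 1 := Nat.lt_floor_add_one _
          have h3 : (Ks α m j : ℝ) ≤ α j * m := Nat.floor_le (by have := hα j; positivity)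
          have h4 : α j * m < Ks α m j + 1 := Nat.lt_floor_add_one _
          have h5 : mu j ≤ α j * m := by
            simp only [mu, hla, hT]; rw [div_mul_eq_mul_div, div_le_iff₀ hN0]
            nlinarith [mul_le_mul_of_nonneg_left h1 (Nat.cast_nonneg (α := ℝ) m)]
          have h6 : α j * m - 1 ≤ mu j := by
            simp only [mu, hla, hT]
            rw [div_mul_eq_mul_div, le_div_iff₀ hN0]
            nlinarith [mul_le_mul_of_nonneg_left h2.le (Nat.cast_nonneg (α := ℝ) m)]
          exact ⟨abs_le.2 ⟨by linarith, by linarith⟩, h5⟩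
        have hcnt : ∀ s j, cnt2 t s (some c) j = ((T j).filter fun k => s k = some c).card := fun s j => by
          simp only [cnt2, T, Finset.filter_filter, and_comm]
        set D : (Fin (∑ j, Ks α (q * m + e) j) → Option (Fin q)) → ℝ := fun s =>
          ∑ j, ((((((T j).filter fun k => s k = some c).card : ℕ) : ℝ) - mu j) ^ 2 / (2 * S j) + S j / 2 + 2)
        have hpt : ∀ s, fC b a m (Ks α m) - cb (1 / 10) * D s ≤ fC b a m (cnt2 t s (some c)) := by
          intro s
          refine le_trans ?_ (fC_lip hb0 hb ha hm (Ks α m) _)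
          refine sub_le_sub_left (mul_le_mul_of_nonneg_left (Finset.sum_le_sum fun j _ => ?_) hc) _
          rw [hcnt]
          set K : ℝ := ((((T j).filter fun k => s k = some c).card : ℕ) : ℝ)
          have h3 : |K - mu j| ≤ (K - mu j) ^ 2 / (2 * S j) + S j / 2 := by
            have := hS j
            rw [div_add_div _ _ (by positivity) two_ne_zero, le_div_iff₀ (by positivity)]
            nlinarith [sq_nonneg (|K - mu j| - S j), sq_abs (K - mu j)]
          have := abs_sub_le K (mu j) (Ks α m j)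
          linarith [(hmu j).1]
        refine le_trans ?_ (Finset.sum_le_sum fun s _ => mul_le_mul_of_nonneg_left (hpt s) (hl0 s))
        have m0 : ∑ s : Fin (∑ j, Ks α (q * m + e) j) → Option (Fin q), ∏ k, lam (s k) = 1 :=
          (moments2 lam hlp hl (some c) (Finset.univ : Finset (Fin (∑ j, Ks α (q * m + e) j)))).1
        simp only [mul_sub, Finset.sum_sub_distrib, ← Finset.sum_mul, m0, one_mul]
        refine sub_le_sub_left ?_ _
        have key : ∀ j, ∑ s : Fin (∑ j, Ks α (q * m + e) j) → Option (Fin q), (∏ k, lam (s k)) *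
            ((((((T j).filter fun k => s k = some c).card : ℕ) : ℝ) - mu j) ^ 2 / (2 * S j) + S j / 2 + 2) ≤
            √(α j * m) + 2 := by
          intro j
          obtain ⟨-, -, m2⟩ := moments2 lam hlp hl (some c) (T j)
          have h7 : lam (some c) * (T j).card ≤ S j * S j :=
            (hmu j).2.trans (Real.mul_self_sqrt (by have := hα j; positivity)).ge
          have := hS j
          simp only [mul_add, Finset.sum_add_distrib, ← Finset.sum_mul, m0, one_mul, ← mul_div_assoc,
            ← Finset.sum_div]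
          have h8 : (∑ s : Fin (∑ j, Ks α (q * m + e) j) → Option (Fin q), (∏ k, lam (s k)) *
              (((((T j).filter fun k => s k = some c).card : ℕ) : ℝ) - mu j) ^ 2) / (2 * S j) ≤ S j / 2 := by
            rw [div_le_iff₀ (by positivity)]
            exact (m2.trans h7).trans (le_of_eq (by ring))
          linarith
        calc ∑ s : Fin (∑ j, Ks α (q * m + e) j) → Option (Fin q), (∏ k, lam (s k)) * (cb (1 / 10) * D s)
            = cb (1 / 10) * ∑ j, ∑ s : Fin (∑ j, Ks α (q * m + e) j) → Option (Fin q), (∏ k, lam (s k)) *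
              ((((((T j).filter fun k => s k = some c).card : ℕ) : ℝ) - mu j) ^ 2 / (2 * S j) + S j / 2 + 2) := by
              simp only [D, Finset.mul_sum]
              rw [Finset.sum_comm]
              exact Finset.sum_congr rfl fun j _ => Finset.sum_congr rfl fun s _ => by ring
          _ ≤ err α m := mul_le_mul_of_nonneg_left (Finset.sum_le_sum fun j _ => key j) hc
    _ = ∑ s : Fin (∑ j, Ks α (q * m + e) j) → Option (Fin q),
          (∏ k, lam (s k)) * ∑ c : Fin q, fC b a m (cnt2 t s (some c)) := by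
        rw [Finset.sum_comm]; simp only [Finset.mul_sum]
    _ ≤ _ := by
        refine Finset.sum_le_sum fun s _ => mul_le_mul_of_nonneg_left ?_ (hl0 s)
        rw [Fintype.sum_option]
        simp only [n, Option.elim_some, Option.elim_none]
        exact le_add_of_nonneg_left (fC_nonneg hb0 _ _ _)

/-- the normalised mean log partition function converges -/
theorem exists_limit {b : ℝ} (hb0 : 0 ≤ b) (hb : b ≤ 1 / 10) {a : Fin r → ℝ}
    (ha : ∀ j, a j ∈ Set.Icc (0:ℝ) 1) {α : Fin r → ℝ} (hα : ∀ j, 0 < α j) :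
    ∃ p : ℝ, Tendsto (fun N : ℕ => fC b a N (Ks α N) / N) atTop (𝓝 p) := by
  have hc := cb_nonneg (b := 1 / 10) (by norm_num) (by norm_num)
  set u := fun N : ℕ => fC b a N (Ks α N) / N
  set e := fun N : ℕ => err α N / N
  set T := fun N : ℕ => u N - e N
  have he : Tendsto e atTop (𝓝 0) := by
    have h1 : Tendsto (fun N : ℕ => (√(N:ℝ))⁻¹) atTop (𝓝 0) :=
      tendsto_inv_atTop_zero.comp (Real.tendsto_sqrt_atTop.comp tendsto_natCast_atTop_atTop)
    have h2 : Tendsto (fun N : ℕ => (2:ℝ) / N) atTop (𝓝 0) := tendsto_const_div_atTop_nhds_zero_nat 2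
    have h3 : Tendsto (fun N : ℕ => cb (1 / 10) * ∑ j, (√(α j) * (√(N:ℝ))⁻¹ + 2 / N)) atTop (𝓝 0) := by
      have := (tendsto_finsetSum (Finset.univ : Finset (Fin r)) fun j _ => ((h1.const_mul √(α j)).add h2)).const_mul
        (cb (1 / 10))
      simpa using this
    refine h3.congr' ?_
    filter_upwards [eventually_gt_atTop 0] with N hN
    have hs : (√(N:ℝ)) ≠ 0 := (Real.sqrt_pos.2 (by exact_mod_cast hN)).ne'
    simp only [e, err, mul_div_assoc, Finset.sum_div]
    congr 1
    refine Finset.sum_congr rfl fun j _ => ?_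
    rw [Real.sqrt_mul (hα j).le, add_div]
    congr 1
    rw [mul_div_assoc]
    congr 1
    rw [eq_div_iff (by exact_mod_cast hN.ne'), inv_mul_eq_div, div_eq_iff hs,
      Real.mul_self_sqrt (Nat.cast_nonneg N)]
  have he0 : ∀ N, 0 ≤ e N := fun N =>
    div_nonneg (mul_nonneg hc (Finset.sum_nonneg fun j _ => by positivity)) (Nat.cast_nonneg N)
  have hTle : ∀ N, 0 < N → T N ≤ (∑ j, α j) * cb (1 / 10) := fun N hN => by
    have h1 := fC_le hb0 hb ha hN (Ks α N)
    have h2 : ((∑ j, Ks α N j : ℕ) : ℝ) ≤ (∑ j, α j) * N := by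
      push_cast; rw [Finset.sum_mul]
      exact Finset.sum_le_sum fun j _ => Nat.floor_le (by have := hα j; positivity)
    have hN' : (0:ℝ) < N := by exact_mod_cast hN
    have h3 : u N ≤ (∑ j, α j) * cb (1 / 10) := by
      simp only [u]; rw [div_le_iff₀ hN']; nlinarith [mul_le_mul_of_nonneg_right h2 hc]
    have := he0 N
    simp only [T]; linarith
  have hbdd : BddAbove (Set.range fun m : ℕ => T (m + 1)) :=
    ⟨(∑ j, α j) * cb (1 / 10), by rintro _ ⟨m, rfl⟩; exact hTle _ m.succ_pos⟩
  set p := sSup (Set.range fun m : ℕ => T (m + 1))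
  have low : ∀ m, 0 < m → ∀ N, m < N → T m * (1 - (m:ℝ) / N) ≤ u N ∨ T m ≤ 0 := by
    intro m hm N hN
    by_cases hT : T m ≤ 0
    · exact Or.inr hT
    left
    obtain ⟨s, q, hs, hsm, rfl⟩ : ∃ s q, 0 < s ∧ s ≤ m ∧ N = q * m + s :=
      ⟨(N - 1) % m + 1, (N - 1) / m, by omega, Nat.mod_lt _ hm,
        by have := Nat.div_add_mod' (N - 1) m; omega⟩
    have h := blocks_bound hb0 hb ha hα (q := q) hm hs
    set NN : ℝ := ((q * m + s : ℕ) : ℝ) with hNN
    have hN0 : (0:ℝ) < NN := by rw [hNN]; exact_mod_cast Nat.add_pos_right _ hs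
    have hm0 : (0:ℝ) < m := by exact_mod_cast hm
    have e1 : (q:ℝ) * (fC b a m (Ks α m) - err α m) = q * m * T m := by
      simp only [T, u, e]; field_simp
    rw [e1] at h
    show T m * (1 - (m:ℝ) / NN) ≤ fC b a (q * m + s) (Ks α (q * m + s)) / NN
    rw [le_div_iff₀ hN0, show T m * (1 - (m:ℝ) / NN) * NN = T m * (NN - m) by field_simp]
    have hqm : NN - m ≤ q * m := by
      rw [hNN]; push_cast
      have : (s:ℝ) ≤ m := by exact_mod_cast hsm
      linarith
    nlinarith [mul_le_mul_of_nonneg_left hqm (le_of_lt (not_le.1 hT))]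
  refine ⟨p, Metric.tendsto_atTop.2 fun ε hε => ?_⟩
  obtain ⟨_, ⟨m, rfl⟩, hm⟩ := exists_lt_of_lt_csSup (Set.range_nonempty _)
    (show p - ε / 2 < p by linarith)
  have hd : Tendsto (fun N : ℕ => T (m + 1) * (((m + 1 : ℕ):ℝ) / N)) atTop (𝓝 0) := by
    simpa using (tendsto_const_div_atTop_nhds_zero_nat ((m + 1 : ℕ):ℝ)).const_mul (T (m + 1))
  obtain ⟨N0, hN0⟩ := eventually_atTop.1 ((he.eventually (eventually_lt_nhds hε)).and
    (hd.eventually (eventually_lt_nhds (half_pos hε))))
  refine ⟨max N0 (m + 2), fun N hN => ?_⟩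
  obtain ⟨h1, h2⟩ := hN0 N (le_of_max_le_left hN)
  have hN1 : m + 1 < N := by have := le_of_max_le_right hN; omega
  have upper : T N ≤ p := le_csSup hbdd ⟨N - 1, by simp only; congr; omega⟩
  have hu0 : 0 ≤ u N := div_nonneg (fC_nonneg hb0 _ _ _) (Nat.cast_nonneg _)
  rw [Real.dist_eq, abs_lt]
  constructor
  · rcases low (m + 1) m.succ_pos N hN1 with h | h
    · rw [mul_sub, mul_one] at h; linarith
    · linarith
  · simp only [T] at upper; linarith

end Vale.Agent.P166.Pattern.Multi
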