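import Vale.Agent.P166.Pattern.Multi.Link

/-!
The normalised trace of the resolvent of the Wishart matrix with several strengths concentrates at
the root of the self-consistent equation.
-/

open MeasureTheory ProbabilityTheory Filter Matrix
open scoped Topology

noncomputable section

namespace Vale.Agent.P166.Pattern.Multi

variable {M N : ℕ}

/-- the shifted Wishart matrix -/
def sh (z : ℝ) (c : Fin M → ℝ) (g : Fin M → Fin N → ℝ) : Matrix (Fin N) (Fin N) ℝ :=
  1 + z • ((N : ℝ)⁻¹ • ∑ m, c m • Matrix.vecMulVec (g m) (g m))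

/-- normalised trace of the resolvent -/
def mres (z : ℝ) (c : Fin M → ℝ) (g : Fin M → Fin N → ℝ) : ℝ := trace (sh z c g)⁻¹ / N

/-- a symmetric matrix bounded below by the identity -/
def GeOne (A : Matrix (Fin N) (Fin N) ℝ) : Prop := Aᵀ = A ∧ ∀ v, v ⬝ᵥ v ≤ v ⬝ᵥ A *ᵥ v

lemma GeOne.det_unit {A : Matrix (Fin N) (Fin N) ℝ} (h : GeOne A) : IsUnit A.det := by
  rw [isUnit_iff_ne_zero]
  intro hd
  obtain ⟨v, hv0, hv⟩ := Matrix.exists_mulVec_eq_zero_iff.2 hd
  have h1 := h.2 v
  rw [hv, dotProduct_zero] at h1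
  exact hv0 (dotProduct_self_eq_zero.1 (le_antisymm h1 (Finset.sum_nonneg fun i _ => mul_self_nonneg _)))

lemma GeOne.inv_symm {A : Matrix (Fin N) (Fin N) ℝ} (h : GeOne A) : (A⁻¹)ᵀ = A⁻¹ := by
  rw [Matrix.transpose_nonsing_inv, h.1]

lemma GeOne.bounds {A : Matrix (Fin N) (Fin N) ℝ} (h : GeOne A) (v : Fin N → ℝ) :
    0 ≤ v ⬝ᵥ A⁻¹ *ᵥ v ∧ (A⁻¹ *ᵥ v) ⬝ᵥ (A⁻¹ *ᵥ v) ≤ v ⬝ᵥ A⁻¹ *ᵥ v ∧ v ⬝ᵥ A⁻¹ *ᵥ v ≤ v ⬝ᵥ v := by
  set x := A⁻¹ *ᵥ v
  have hx : A *ᵥ x = v := by
    rw [Matrix.mulVec_mulVec, Matrix.mul_nonsing_inv _ h.det_unit, Matrix.one_mulVec]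
  have h1 := h.2 x
  rw [hx, dotProduct_comm x v] at h1
  have h0 : 0 ≤ x ⬝ᵥ x := Finset.sum_nonneg fun i _ => mul_self_nonneg _
  refine ⟨h0.trans h1, h1, ?_⟩
  have h2 : 0 ≤ (v - x) ⬝ᵥ (v - x) := Finset.sum_nonneg fun i _ => mul_self_nonneg _
  simp only [sub_dotProduct, dotProduct_sub, dotProduct_comm x v] at h2
  linarith

lemma GeOne.trace_bounds {A : Matrix (Fin N) (Fin N) ℝ} (h : GeOne A) :
    0 ≤ trace A⁻¹ ∧ trace A⁻¹ ≤ N ∧ ∑ i, ∑ j, A⁻¹ i j ^ 2 ≤ N := by
  have hd : ∀ i, Pi.single i (1:ℝ) ⬝ᵥ A⁻¹ *ᵥ Pi.single i 1 = A⁻¹ i i := fun i => by simp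
  have hb := fun i => h.bounds (Pi.single i (1:ℝ))
  have hs : ∀ i, (A⁻¹ *ᵥ Pi.single i 1) ⬝ᵥ (A⁻¹ *ᵥ Pi.single i 1) = ∑ j, A⁻¹ j i ^ 2 := fun i => by
    simp [dotProduct, sq]
  have hone : ∀ i : Fin N, Pi.single i (1:ℝ) ⬝ᵥ Pi.single i 1 = 1 := fun i => by simp
  refine ⟨Finset.sum_nonneg fun i _ => ?_, ?_, ?_⟩
  · rw [Matrix.diag_apply, ← hd i]; exact (hb i).1
  · refine (Finset.sum_le_card_nsmul _ _ 1 fun i _ => ?_).trans_eq (by simp)
    rw [Matrix.diag_apply, ← hd i]; exact (hb i).2.2.trans_eq (hone i)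
  · rw [Finset.sum_comm]
    refine (Finset.sum_le_card_nsmul _ _ 1 fun i _ => ?_).trans_eq (by simp)
    rw [← hs i]; exact ((hb i).2.1.trans (hb i).2.2).trans_eq (hone i)

lemma rank_one {A : Matrix (Fin N) (Fin N) ℝ} (h : GeOne A) (v : Fin N → ℝ) {t : ℝ} (ht : 0 ≤ t) :
    trace (A + t • Matrix.vecMulVec v v)⁻¹ =
        trace A⁻¹ - t / (1 + t * (v ⬝ᵥ A⁻¹ *ᵥ v)) * ((A⁻¹ *ᵥ v) ⬝ᵥ (A⁻¹ *ᵥ v)) ∧
    v ⬝ᵥ (A + t • Matrix.vecMulVec v v)⁻¹ *ᵥ v = (v ⬝ᵥ A⁻¹ *ᵥ v) / (1 + t * (v ⬝ᵥ A⁻¹ *ᵥ v)) := by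
  set x := A⁻¹ *ᵥ v
  set q := v ⬝ᵥ x
  have hq : 0 ≤ q := (h.bounds v).1
  set k := t / (1 + t * q)
  have hd : 1 + t * q ≠ 0 := by positivity
  have hk : k * (1 + t * q) = t := div_mul_cancel₀ _ hd
  have hx : A *ᵥ x = v := by
    rw [Matrix.mulVec_mulVec, Matrix.mul_nonsing_inv _ h.det_unit, Matrix.one_mulVec]
  have hvA : v ᵥ* A⁻¹ = x := by
    rw [← Matrix.mulVec_transpose, h.inv_symm]
  have e : (A + t • Matrix.vecMulVec v v)⁻¹ = A⁻¹ - k • Matrix.vecMulVec x x := by
    refine Matrix.inv_eq_right_inv ?_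
    rw [Matrix.add_mul, Matrix.mul_sub, Matrix.mul_sub, Matrix.mul_nonsing_inv _ h.det_unit, Matrix.smul_mul,
      Matrix.smul_mul, Matrix.mul_smul, Matrix.mul_smul, Matrix.mul_vecMulVec, hx, Matrix.vecMulVec_mul, hvA,
      Matrix.vecMulVec_mul_vecMulVec, Matrix.vecMulVec_smul, smul_smul]
    have : (1 : Matrix (Fin N) (Fin N) ℝ) - k • Matrix.vecMulVec v x +
        (t • Matrix.vecMulVec v x - (t * k) • q • Matrix.vecMulVec v x) =
        1 + (t - k * (1 + t * q)) • Matrix.vecMulVec v x := by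
      module
    rw [this, hk, sub_self, zero_smul, add_zero]
  rw [e]
  refine ⟨?_, ?_⟩
  · rw [Matrix.trace_sub, Matrix.trace_smul, Matrix.trace_vecMulVec, smul_eq_mul]
  · rw [Matrix.sub_mulVec, dotProduct_sub, Matrix.smul_mulVec, Matrix.vecMulVec_mulVec, dotProduct_smul]
    simp only [op_smul_eq_smul, dotProduct_smul, smul_eq_mul]
    rw [dotProduct_comm x v]
    show q - k * (q * q) = q / (1 + t * q)
    simp only [k]
    field_simp
    ring

lemma sh_geOne {z : ℝ} (hz : 0 ≤ z) {c : Fin M → ℝ} (hc : ∀ m, 0 ≤ c m) (g : Fin M → Fin N → ℝ) :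
    GeOne (sh z c g) := by
  refine ⟨?_, fun v => ?_⟩
  · simp [sh, Matrix.transpose_add, Matrix.transpose_smul, Matrix.transpose_sum, Matrix.transpose_vecMulVec]
  · simp only [sh, Matrix.add_mulVec, Matrix.one_mulVec, dotProduct_add, Matrix.smul_mulVec, Matrix.sum_mulVec,
      dotProduct_smul, dotProduct_sum, Matrix.vecMulVec_mulVec, op_smul_eq_smul, smul_eq_mul]
    refine le_add_of_nonneg_right (mul_nonneg hz (mul_nonneg (by positivity) (Finset.sum_nonneg fun m _ => ?_)))
    rw [dotProduct_comm (g m) v]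
    exact mul_nonneg (hc m) (mul_self_nonneg _)

lemma sh_split (z : ℝ) (c : Fin M → ℝ) (g : Fin M → Fin N → ℝ) (k : Fin M) :
    sh z c g = sh z (Function.update c k 0) g + (z * c k / N) • Matrix.vecMulVec (g k) (g k) := by
  simp only [sh, Finset.smul_sum, smul_smul]
  rw [← Finset.add_sum_erase _ _ (Finset.mem_univ k), ← Finset.add_sum_erase _ _ (Finset.mem_univ k),
    Function.update_self]
  simp only [mul_zero, zero_smul, zero_add]
  rw [show ∑ x ∈ Finset.univ.erase k, (z * ((N:ℝ)⁻¹ * Function.update c k 0 x)) • Matrix.vecMulVec (g x) (g x) =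
    ∑ x ∈ Finset.univ.erase k, (z * ((N:ℝ)⁻¹ * c x)) • Matrix.vecMulVec (g x) (g x) from
      Finset.sum_congr rfl fun x hx => by rw [Function.update_of_ne (Finset.ne_of_mem_erase hx)]]
  rw [add_assoc, add_comm (∑ x ∈ _, _)]
  congr 3
  ring

lemma sh_update (z : ℝ) (c : Fin M → ℝ) (g : Fin M → Fin N → ℝ) (k : Fin M) (y : Fin N → ℝ) :
    sh z (Function.update c k 0) (Function.update g k y) = sh z (Function.update c k 0) g := by
  simp only [sh]
  congr 3
  refine Finset.sum_congr rfl fun m _ => ?_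
  by_cases h : m = k
  · subst h; simp
  · rw [Function.update_of_ne h, Function.update_of_ne h]

lemma update_nonneg {c : Fin M → ℝ} (hc : ∀ m, 0 ≤ c m) (k m : Fin M) : 0 ≤ Function.update c k 0 m := by
  by_cases h : m = k
  · subst h; simp
  · rw [Function.update_of_ne h]; exact hc m

lemma mres_mem {z : ℝ} (hz : 0 ≤ z) {c : Fin M → ℝ} (hc : ∀ m, 0 ≤ c m) (g : Fin M → Fin N → ℝ) :
    0 ≤ mres z c g ∧ mres z c g ≤ 1 := by
  obtain ⟨h0, h1, -⟩ := (sh_geOne hz hc g).trace_bounds
  exact ⟨div_nonneg h0 (Nat.cast_nonneg N), div_le_one_of_le₀ h1 (Nat.cast_nonneg N)⟩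

/-- one pattern left out, evaluated on that pattern -/
def qn (z : ℝ) (c : Fin M → ℝ) (k : Fin M) (g : Fin M → Fin N → ℝ) : ℝ :=
  (g k ⬝ᵥ (sh z (Function.update c k 0) g)⁻¹ *ᵥ g k) / N

lemma qn_nonneg {z : ℝ} (hz : 0 ≤ z) {c : Fin M → ℝ} (hc : ∀ m, 0 ≤ c m) (k : Fin M)
    (g : Fin M → Fin N → ℝ) : 0 ≤ qn z c k g :=
  div_nonneg ((sh_geOne hz (update_nonneg hc k) g).bounds _).1 (Nat.cast_nonneg N)

lemma mres_leave_one (hN : 0 < N) {z : ℝ} (hz : 0 ≤ z) {c : Fin M → ℝ} (hc : ∀ m, 0 ≤ c m)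
    (g : Fin M → Fin N → ℝ) (k : Fin M) :
    |mres z c g - mres z (Function.update c k 0) g| ≤ 1 / (N:ℝ) := by
  have hN' : (0:ℝ) < N := by exact_mod_cast hN
  have h := sh_geOne hz (update_nonneg hc k) g
  obtain ⟨hq0, hx, -⟩ := h.bounds (g k)
  have ht : 0 ≤ z * c k / N := div_nonneg (mul_nonneg hz (hc k)) hN'.le
  rw [mres, mres, sh_split z c g k, (rank_one h (g k) ht).1, ← sub_div, abs_div, abs_of_pos hN']
  refine div_le_div_of_nonneg_right ?_ hN'.le
  set A := sh z (Function.update c k 0) g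
  set q := g k ⬝ᵥ A⁻¹ *ᵥ g k
  set x2 := (A⁻¹ *ᵥ g k) ⬝ᵥ (A⁻¹ *ᵥ g k)
  set t := z * c k / N
  have hx0 : 0 ≤ x2 := Finset.sum_nonneg fun i _ => mul_self_nonneg _
  rw [show trace A⁻¹ - t / (1 + t * q) * x2 - trace A⁻¹ = -(t / (1 + t * q) * x2) by ring, abs_neg,
    abs_of_nonneg (by positivity), div_mul_eq_mul_div, div_le_one (by positivity)]
  nlinarith [mul_le_mul_of_nonneg_left hx ht]

lemma mres_identity (hN : 0 < N) {z : ℝ} (hz : 0 ≤ z) {c : Fin M → ℝ} (hc : ∀ m, 0 ≤ c m)
    (g : Fin M → Fin N → ℝ) :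
    mres z c g + (∑ m, z * c m * qn z c m g / (1 + z * c m * qn z c m g)) / N = 1 := by
  have hN' : (0:ℝ) < N := by exact_mod_cast hN
  have h := sh_geOne hz hc g
  set R := (sh z c g)⁻¹
  have h1 : trace (R * sh z c g) = N := by
    rw [Matrix.nonsing_inv_mul _ h.det_unit]; simp
  have h2 : trace (R * sh z c g) = trace R + ∑ m, z * c m / N * (g m ⬝ᵥ R *ᵥ g m) := by
    simp only [sh, Matrix.mul_add, Matrix.mul_one, Matrix.trace_add, Finset.smul_sum, smul_smul, Matrix.mul_sum,
      Matrix.trace_sum, Matrix.mul_smul, Matrix.trace_smul, Matrix.mul_vecMulVec, Matrix.trace_vecMulVec, smul_eq_mul]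
    congr 1
    exact Finset.sum_congr rfl fun m _ => by rw [dotProduct_comm]; ring
  have h3 : ∀ m, z * c m / N * (g m ⬝ᵥ R *ᵥ g m) = z * c m * qn z c m g / (1 + z * c m * qn z c m g) := by
    intro m
    have ht : 0 ≤ z * c m / N := div_nonneg (mul_nonneg hz (hc m)) hN'.le
    simp only [R]
    rw [sh_split z c g m, (rank_one (sh_geOne hz (update_nonneg hc m) g) (g m) ht).2]
    simp only [qn]
    field_simp
  simp only [h3] at h2
  rw [mres, ← add_div, div_eq_one_iff_eq hN'.ne']
  linarith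

lemma continuous_inv_sh {z : ℝ} (hz : 0 ≤ z) {c : Fin M → ℝ} (hc : ∀ m, 0 ≤ c m) :
    Continuous fun g : Fin M → Fin N → ℝ => (sh z c g)⁻¹ := by
  have hs : Continuous fun g : Fin M → Fin N → ℝ => sh z c g := by unfold sh; fun_prop
  refine continuous_iff_continuousAt.2 fun g => ContinuousAt.comp ?_ hs.continuousAt
  refine continuousAt_matrix_inv _ ?_
  rw [Ring.inverse_eq_inv']
  exact continuousAt_inv₀ (sh_geOne hz hc g).det_unit.ne_zero

lemma good_mres {z : ℝ} (hz : 0 ≤ z) {c : Fin M → ℝ} (hc : ∀ m, 0 ≤ c m) :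
    Good fun g : Fin M → Fin N → ℝ => mres z c g := by
  refine ⟨?_, Poly.of_bound 1 fun g => ?_⟩
  · have h := continuous_inv_sh (N := N) hz hc
    exact Continuous.measurable (by unfold mres; fun_prop)
  · rw [abs_of_nonneg (mres_mem hz hc g).1]; exact (mres_mem hz hc g).2

lemma var_mres (hN : 0 < N) {z : ℝ} (hz : 0 ≤ z) {c : Fin M → ℝ} (hc : ∀ m, 0 ≤ c m) :
    ∫ g, (mres z c g - ∫ g, mres z c g ∂pats (Fin N) M) ^ 2 ∂pats (Fin N) M ≤ M * (1 / (N:ℝ)) ^ 2 := by
  set F := fun g : Fin M → Fin N → ℝ => mres z c g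
  have hF : Good F := good_mres hz hc
  have h := efron M F (fun k g => mres z (Function.update c k 0) g) ((1 / (N:ℝ)) ^ 2) hF
    (fun k => good_mres hz (update_nonneg hc k))
    (fun k g y => by simp only [mres, sh_update]) fun k => by
      refine (integral_mono_of_nonneg (.of_forall fun g => mul_self_nonneg _) (integrable_const ((1 / (N:ℝ)) ^ 2))
        (.of_forall fun g => ?_)).trans_eq (by simp)
      have := mres_leave_one hN hz hc g k
      show (F g - _) * (F g - _) ≤ _
      rw [← sq, ← sq_abs]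
      exact pow_le_pow_left₀ (abs_nonneg _) this 2
  have i1 := integrable_pats (good_mul hF hF)
  have i2 : Integrable (fun g => 2 * (∫ g, F g ∂pats (Fin N) M) * F g) (pats (Fin N) M) :=
    (integrable_pats hF).const_mul _
  have i3 : Integrable (fun g => F g * F g - 2 * (∫ g, F g ∂pats (Fin N) M) * F g) (pats (Fin N) M) := i1.sub i2
  refine le_trans (le_of_eq ?_) h
  show ∫ g, (F g - ∫ g, F g ∂pats (Fin N) M) ^ 2 ∂pats (Fin N) M = _
  rw [show (fun g => (F g - ∫ g, F g ∂pats (Fin N) M) ^ 2) = fun g => F g * F g -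
      2 * (∫ g, F g ∂pats (Fin N) M) * F g + (∫ g, F g ∂pats (Fin N) M) ^ 2 by funext g; ring,
    integral_add i3 (integrable_const _), integral_sub i1 i2, integral_const_mul, integral_const]
  simp only [probReal_univ, one_smul]
  ring

/-- second moment of a quadratic form -/
lemma quad_var {R : Matrix (Fin N) (Fin N) ℝ} (hR : Rᵀ = R) :
    ∫ y, (y ⬝ᵥ R *ᵥ y - trace R) ^ 2 ∂gauss (Fin N) = 2 * ∑ i, ∑ j, R i j ^ 2 := by
  have hs : ∀ i j, R j i = R i j := fun i j => by
    have := congrFun (congrFun hR i) j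
    simpa [Matrix.transpose_apply] using this
  set L := fun i (y : Fin N → ℝ) => ∑ j, R i j * y j
  have hL : ∀ i, CP (L i) := fun i => CP.sum _ fun j _ => (CP.const _).mul ⟨by fun_prop, poly_coord j⟩
  set q := fun y : Fin N → ℝ => ∑ i, y i * L i y
  have hq : CP q := CP.sum _ fun i _ => CP.mul ⟨by fun_prop, poly_coord i⟩ (hL i)
  have hup : ∀ i (y : Fin N → ℝ) k t, L i (Function.update y k t) = L i y + R i k * (t - y k) := fun i y k t => by
    simp only [L]
    rw [← Finset.add_sum_erase _ _ (Finset.mem_univ k), ← Finset.add_sum_erase _ _ (Finset.mem_univ k),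
      Function.update_self, Finset.sum_congr rfl fun j hj => by
        rw [Function.update_of_ne (Finset.ne_of_mem_erase hj)]]
    ring
  have dL : ∀ i k (y : Fin N → ℝ), HasDerivAt (fun t => L i (Function.update y k t)) (R i k) (y k) := fun i k y => by
    simp only [hup]
    simpa using ((hasDerivAt_id (y k)).sub_const (y k)).const_mul (R i k) |>.const_add (L i y)
  have dq : ∀ k (y : Fin N → ℝ), HasDerivAt (fun t => q (Function.update y k t)) (2 * L k y) (y k) := fun k y => by
    have h : HasDerivAt (fun t => ∑ i, Function.update y k t i * L i (Function.update y k t))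
        (∑ i, ((if i = k then 1 else 0) * L i y + y i * R i k)) (y k) := by
      refine HasDerivAt.fun_sum fun i _ => ?_
      have h1 : HasDerivAt (fun t => Function.update y k t i) (if i = k then (1:ℝ) else 0) (y k) := by
        by_cases hik : i = k
        · subst hik; simp only [Function.update_self, if_true]; exact hasDerivAt_id (y i)
        · simp only [Function.update_of_ne hik, if_neg hik]; exact hasDerivAt_const _ _
      simpa [Function.update_eq_self] using h1.fun_mul (dL i k y)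
    refine h.congr_deriv ?_
    simp only [ite_mul, one_mul, zero_mul, Finset.sum_add_distrib, Finset.sum_ite_eq', Finset.mem_univ, if_true]
    simp only [L, two_mul]
    congr 1
    exact Finset.sum_congr rfl fun i _ => by rw [hs]; ring
  have e1 : ∀ i, ∫ y, y i * L i y ∂gauss (Fin N) = R i i := fun i => by
    rw [ibp i (fun y => dL i i y) (hL i).1 continuous_const (hL i).2 (Poly.const _)]
    simp
  have eLy : ∀ i j, ∫ y, y j * L i y ∂gauss (Fin N) = R i j := fun i j => by
    rw [ibp j (fun y => dL i j y) (hL i).1 continuous_const (hL i).2 (Poly.const _)]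
    simp
  have eL : ∀ i, ∫ y, L i y * L i y ∂gauss (Fin N) = ∑ j, R i j ^ 2 := fun i => by
    have e : ∀ y, L i y * L i y = ∑ j, R i j * (y j * L i y) := fun y => by
      simp only [L]; rw [Finset.sum_mul]; exact Finset.sum_congr rfl fun j _ => by ring
    simp only [e]
    rw [integral_finsetSum _ fun j _ => ((CP.mul ⟨by fun_prop, poly_coord j⟩ (hL i)).integrable).const_mul _]
    simp only [integral_const_mul, eLy, sq]
  have e2 : ∀ i, ∫ y, y i * (L i y * q y) ∂gauss (Fin N) = ∫ y, (R i i * q y + L i y * (2 * L i y)) ∂gauss (Fin N) :=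
    fun i => by
      have hd : ∀ y : Fin N → ℝ, HasDerivAt (fun t => L i (Function.update y i t) * q (Function.update y i t))
          (R i i * q y + L i y * (2 * L i y)) (y i) := fun y => by
        simpa [Function.update_eq_self] using (dL i i y).fun_mul (dq i y)
      exact ibp (F := fun y => L i y * q y) i hd ((hL i).mul hq).1
        (((CP.const _).mul hq).add ((hL i).mul ((CP.const _).mul (hL i)))).1 ((hL i).mul hq).2
        (((CP.const _).mul hq).add ((hL i).mul ((CP.const _).mul (hL i)))).2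
  have Eq : ∫ y, q y ∂gauss (Fin N) = trace R := by
    rw [integral_finsetSum _ fun i _ => (CP.mul ⟨by fun_prop, poly_coord i⟩ (hL i)).integrable]
    simp only [e1]; rfl
  have Eqq : ∫ y, q y * q y ∂gauss (Fin N) = trace R * trace R + 2 * ∑ i, ∑ j, R i j ^ 2 := by
    have e : ∀ y, q y * q y = ∑ i, y i * (L i y * q y) := fun y => by
      show (∑ i, y i * L i y) * q y = _
      rw [Finset.sum_mul]; exact Finset.sum_congr rfl fun i _ => by ring
    simp only [e]
    rw [integral_finsetSum _ fun i _ => (CP.mul ⟨by fun_prop, poly_coord i⟩ ((hL i).mul hq)).integrable]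
    simp only [e2]
    rw [Finset.sum_congr rfl fun i _ => integral_add ((CP.const (R i i)).mul hq).integrable
      ((hL i).mul ((CP.const 2).mul (hL i))).integrable, Finset.sum_add_distrib]
    simp only [integral_const_mul, Eq, mul_left_comm (L _ _) (2:ℝ), eL, ← Finset.mul_sum, ← Finset.sum_mul]
    rfl
  have hyq : ∀ y : Fin N → ℝ, y ⬝ᵥ R *ᵥ y = q y := fun y => rfl
  simp only [hyq]
  have i2 : Integrable (fun y => 2 * trace R * q y) (gauss (Fin N)) := hq.integrable.const_mul _
  have i3 : Integrable (fun y => q y * q y - 2 * trace R * q y) (gauss (Fin N)) := (hq.mul hq).integrable.sub i2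
  rw [show (fun y => (q y - trace R) ^ 2) = fun y => q y * q y - 2 * trace R * q y + trace R ^ 2 by funext y; ring,
    integral_add i3 (integrable_const _), integral_sub (hq.mul hq).integrable i2, integral_const_mul, Eq, Eqq,
    integral_const]
  simp only [probReal_univ, one_smul]
  ring

lemma good_qn {z : ℝ} (hz : 0 ≤ z) {c : Fin M → ℝ} (hc : ∀ m, 0 ≤ c m) (k : Fin M) :
    Good (qn (N := N) z c k) := by
  have h := continuous_inv_sh (N := N) hz (update_nonneg hc k)
  refine ⟨Continuous.measurable (by unfold qn; fun_prop), ?_⟩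
  have h2 : Poly fun g : Fin M → Fin N → ℝ => ∑ i, g k i ^ 2 :=
    Poly.sum _ fun i _ => Poly.pow ((poly_coord i).comp 1 fun g => by
      rw [one_mul]; linarith [norm_le_pi_norm g k]) 2
  refine (h2.const_mul (1 / (N:ℝ))).mono fun g => ?_
  rw [abs_of_nonneg (qn_nonneg hz hc k g), abs_of_nonneg (by positivity), qn, one_div_mul_eq_div]
  refine div_le_div_of_nonneg_right (((sh_geOne hz (update_nonneg hc k) g).bounds _).2.2.trans (le_of_eq ?_))
    (Nat.cast_nonneg N)
  simp [dotProduct, sq]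

lemma qn_concentration (hN : 0 < N) {z : ℝ} (hz : 0 ≤ z) {c : Fin M → ℝ} (hc : ∀ m, 0 ≤ c m) (k : Fin M) :
    ∫ g, (qn z c k g - mres z (Function.update c k 0) g) ^ 2 ∂pats (Fin N) M ≤ 2 / (N:ℝ) := by
  have hN' : (0:ℝ) < N := by exact_mod_cast hN
  set D := fun g : Fin M → Fin N → ℝ => qn z c k g - mres z (Function.update c k 0) g
  have hD : Good D := good_sub (good_qn hz hc k) (good_mres hz (update_nonneg hc k))
  have hdd : Good fun g => D g ^ 2 := by simpa [sq] using good_mul hD hD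
  have h := mp_update (ι := Fin N) k
  rw [← h.map_eq, integral_map h.measurable.aemeasurable hdd.1.aestronglyMeasurable]
  have hint : Integrable (fun p : (Fin M → Fin N → ℝ) × (Fin N → ℝ) => D (Function.update p.1 k p.2) ^ 2)
      ((pats (Fin N) M).prod (gauss (Fin N))) :=
    (h.integrable_comp hdd.1.aestronglyMeasurable).2 (integrable_pats hdd)
  rw [integral_prod _ hint]
  refine (integral_mono hint.integral_prod_left (integrable_const (2 / (N:ℝ))) fun g => ?_).trans_eq (by simp)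
  set R := (sh z (Function.update c k 0) g)⁻¹
  have e : ∀ y, D (Function.update g k y) = (y ⬝ᵥ R *ᵥ y - trace R) / N := fun y => by
    simp only [D, qn, mres, sh_update, Function.update_self, R, sub_div]
  have hG := sh_geOne hz (update_nonneg hc k) g
  simp only [e, div_pow, integral_div]
  rw [quad_var hG.inv_symm, div_le_div_iff₀ (by positivity) hN']
  nlinarith [mul_le_mul_of_nonneg_right hG.trace_bounds.2.2 hN'.le]

/-- `x ↦ a x / (1 + a x)` is `a`-Lipschitz on the half line -/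
lemma frac_lip {a x y : ℝ} (ha : 0 ≤ a) (hx : 0 ≤ x) (hy : 0 ≤ y) :
    |a * x / (1 + a * x) - a * y / (1 + a * y)| ≤ a * |x - y| := by
  have h1 : 1 ≤ 1 + a * x := by nlinarith
  have h2 : 1 ≤ 1 + a * y := by nlinarith
  rw [show a * x / (1 + a * x) - a * y / (1 + a * y) = a * (x - y) / ((1 + a * x) * (1 + a * y)) by
    field_simp; ring, abs_div, abs_mul, abs_of_nonneg ha,
    abs_of_pos (mul_pos (by linarith) (by linarith) : 0 < (1 + a * x) * (1 + a * y))]
  exact div_le_self (by positivity) (by nlinarith)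

theorem mean_equation (hN : 0 < N) {z : ℝ} (hz : 0 ≤ z) {c : Fin M → ℝ} (hc : ∀ m, c m ∈ Set.Icc (0:ℝ) 1) :
    |(∫ g, mres z c g ∂pats (Fin N) M) +
      (∑ m, z * c m * (∫ g, mres z c g ∂pats (Fin N) M) / (1 + z * c m * ∫ g, mres z c g ∂pats (Fin N) M)) / N - 1| ≤
      z * ((M:ℝ) / N) * ((3 + (M:ℝ) / N) / √(N:ℝ)) := by
  have hc0 : ∀ m, 0 ≤ c m := fun m => (hc m).1
  have hN' : (0:ℝ) < N := by exact_mod_cast hN
  set e := ∫ g, mres z c g ∂pats (Fin N) M
  have he : 0 ≤ e := integral_nonneg fun g => (mres_mem hz hc0 g).1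
  set d := (√(N:ℝ))⁻¹
  have hsN : 0 < √(N:ℝ) := Real.sqrt_pos.2 hN'
  have hd : 0 < d := inv_pos.2 hsN
  have hdd : d * d = 1 / (N:ℝ) := by
    simp only [d]; rw [← mul_inv, Real.mul_self_sqrt hN'.le, one_div]
  set B := fun (m : Fin M) (g : Fin M → Fin N → ℝ) =>
    (qn z c m g - mres z (Function.update c m 0) g) ^ 2 / (2 * d) + (mres z c g - e) ^ 2 / (2 * d) + (d + 1 / (N:ℝ))
  have hBi : ∀ m, Integrable (B m) (pats (Fin N) M) := fun m => by
    have g1 := good_sub (good_qn (N := N) hz hc0 m) (good_mres hz (update_nonneg hc0 m))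
    have g2 : Good fun g : Fin M → Fin N → ℝ => mres z c g - e := good_sub (good_mres hz hc0) ⟨measurable_const, Poly.const e⟩
    have i1 : Integrable (fun g => (qn z c m g - mres z (Function.update c m 0) g) ^ 2 / (2 * d)) (pats (Fin N) M) :=
      (integrable_pats (by simpa [sq] using good_mul g1 g1)).div_const _
    have i2 : Integrable (fun g => (mres z c g - e) ^ 2 / (2 * d)) (pats (Fin N) M) :=
      (integrable_pats (by simpa [sq] using good_mul g2 g2)).div_const _
    exact (i1.add i2).add (integrable_const (d + 1 / (N:ℝ)))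
  have hBv : ∀ m, ∫ g, B m g ∂pats (Fin N) M ≤ (3 + (M:ℝ) / N) * d := fun m => by
    have h1 := qn_concentration hN hz hc0 m
    have h2 := var_mres (M := M) hN hz hc0
    have g1 := good_sub (good_qn (N := N) hz hc0 m) (good_mres hz (update_nonneg hc0 m))
    have g2 : Good fun g : Fin M → Fin N → ℝ => mres z c g - e := good_sub (good_mres hz hc0) ⟨measurable_const, Poly.const e⟩
    have i1 : Integrable (fun g => (qn z c m g - mres z (Function.update c m 0) g) ^ 2 / (2 * d)) (pats (Fin N) M) :=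
      (integrable_pats (by simpa [sq] using good_mul g1 g1)).div_const _
    have i2 : Integrable (fun g => (mres z c g - e) ^ 2 / (2 * d)) (pats (Fin N) M) :=
      (integrable_pats (by simpa [sq] using good_mul g2 g2)).div_const _
    simp only [B]
    have i12 : Integrable (fun g => (qn z c m g - mres z (Function.update c m 0) g) ^ 2 / (2 * d) +
        (mres z c g - e) ^ 2 / (2 * d)) (pats (Fin N) M) := i1.add i2
    rw [integral_add i12 (integrable_const _), integral_add i1 i2, integral_div, integral_div, integral_const]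
    simp only [probReal_univ, one_smul]
    have h1' : (∫ g, (qn z c m g - mres z (Function.update c m 0) g) ^ 2 ∂pats (Fin N) M) / (2 * d) ≤ d := by
      rw [div_le_iff₀ (by positivity)]
      refine h1.trans (le_of_eq ?_)
      rw [show d * (2 * d) = 2 * (d * d) by ring, hdd]; ring
    have h2' : (∫ g, (mres z c g - e) ^ 2 ∂pats (Fin N) M) / (2 * d) ≤ (M:ℝ) / N * d := by
      rw [div_le_iff₀ (by positivity)]
      refine h2.trans ?_
      rw [show (M:ℝ) / N * d * (2 * d) = 2 * ((M:ℝ) / N * (d * d)) by ring, hdd]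
      have : (0:ℝ) ≤ (M:ℝ) / N * (1 / N) := by positivity
      rw [show (M:ℝ) * (1 / (N:ℝ)) ^ 2 = (M:ℝ) / N * (1 / N) by ring]
      linarith
    have h3 : 1 / (N:ℝ) ≤ d := by
      rw [← hdd]
      refine mul_le_of_le_one_left hd.le ?_
      simp only [d]
      exact inv_le_one_of_one_le₀ (Real.one_le_sqrt.2 (by exact_mod_cast hN))
    linarith
  set H := fun g : Fin M → Fin N → ℝ => mres z c g + (∑ m, z * c m * e / (1 + z * c m * e)) / N - 1
  set D := fun g : Fin M → Fin N → ℝ =>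
    (∑ m, (z * c m * e / (1 + z * c m * e) - z * c m * qn z c m g / (1 + z * c m * qn z c m g))) / N
  have hHD : ∀ g, H g = D g := fun g => by
    have := mres_identity hN hz hc0 g
    simp only [H, D, Finset.sum_sub_distrib, sub_div]
    linarith
  have hmean : ∫ g, H g ∂pats (Fin N) M = e + (∑ m, z * c m * e / (1 + z * c m * e)) / N - 1 := by
    have im := integrable_pats (good_mres (N := N) hz hc0)
    simp only [H]
    rw [integral_sub (f := fun g => mres z c g + (∑ m, z * c m * e / (1 + z * c m * e)) / N) (im.add (integrable_const _))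
      (integrable_const _), integral_add im (integrable_const _)]
    simp [e]
  rw [← hmean]
  refine abs_integral_le_integral_abs.trans ?_
  refine (integral_mono_of_nonneg (.of_forall fun g => abs_nonneg _)
    ((integrable_finsetSum Finset.univ fun m _ => (hBi m).const_mul z).div_const (N:ℝ)) (.of_forall fun g => ?_)).trans ?_
  · show |H g| ≤ (∑ m, z * B m g) / (N:ℝ)
    rw [hHD, abs_div, abs_of_pos hN']
    refine div_le_div_of_nonneg_right ((Finset.abs_sum_le_sum_abs _ _).trans (Finset.sum_le_sum fun m _ => ?_)) hN'.le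
    refine (frac_lip (mul_nonneg hz (hc0 m)) he (qn_nonneg hz hc0 m g)).trans ?_
    refine mul_le_mul (mul_le_of_le_one_right hz (hc m).2) ?_ (abs_nonneg _) hz
    have h1 := abs_sub_le e (mres z c g) (qn z c m g)
    have h2 := abs_sub_le (mres z c g) (mres z (Function.update c m 0) g) (qn z c m g)
    have h3 := mres_leave_one hN hz hc0 g m
    have amgm : ∀ x : ℝ, |x| ≤ x ^ 2 / (2 * d) + d / 2 := fun x => by
      rw [div_add_div _ _ (by positivity) two_ne_zero, le_div_iff₀ (by positivity)]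
      nlinarith [sq_nonneg (|x| - d), sq_abs x]
    have h4 := amgm (qn z c m g - mres z (Function.update c m 0) g)
    have h5 := amgm (mres z c g - e)
    rw [abs_sub_comm e (mres z c g)] at h1
    rw [abs_sub_comm (mres z (Function.update c m 0) g)] at h2
    simp only [B]
    linarith
  · rw [integral_div, integral_finsetSum _ fun m _ => (hBi m).const_mul z, div_le_iff₀ hN']
    refine (Finset.sum_le_card_nsmul _ _ (z * ((3 + (M:ℝ) / N) * d)) fun m _ => ?_).trans_eq ?_
    · rw [integral_const_mul]; exact mul_le_mul_of_nonneg_left (hBv m) hz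
    · simp only [Finset.card_univ, Fintype.card_fin, nsmul_eq_mul, d]
      field_simp

variable {r : ℕ}

/-- the self-consistency function -/
def Gf (a α : Fin r → ℝ) (z x : ℝ) : ℝ := 1 - x - ∑ j, α j * (z * a j * x / (1 + z * a j * x))

lemma Gf_dist {a α : Fin r → ℝ} (ha : ∀ j, 0 ≤ a j) (hα : ∀ j, 0 ≤ α j) {z x y : ℝ} (hz : 0 ≤ z) (hx : 0 ≤ x)
    (hy : 0 ≤ y) : |x - y| ≤ |Gf a α z x - Gf a α z y| := by
  have key : ∀ u v : ℝ, 0 ≤ u → u ≤ v → v - u ≤ Gf a α z u - Gf a α z v := by
    intro u v hu huv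
    have : ∑ j, α j * (z * a j * u / (1 + z * a j * u)) ≤ ∑ j, α j * (z * a j * v / (1 + z * a j * v)) := by
      refine Finset.sum_le_sum fun j _ => mul_le_mul_of_nonneg_left ?_ (hα j)
      have h1 : 0 < 1 + z * a j * u := by have := ha j; positivity
      have h2 : 0 < 1 + z * a j * v := by have := ha j; have : 0 ≤ v := hu.trans huv; positivity
      rw [div_le_div_iff₀ h1 h2]
      nlinarith [mul_le_mul_of_nonneg_left huv (mul_nonneg hz (ha j))]
    simp only [Gf]; linarith
  rcases le_total x y with h | h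
  · rw [abs_sub_comm, abs_of_nonneg (sub_nonneg.2 h)]
    exact (key x y hx h).trans (le_abs_self _)
  · rw [abs_of_nonneg (sub_nonneg.2 h), abs_sub_comm (Gf a α z x)]
    exact (key y x hy h).trans (le_abs_self _)

lemma exists_root {a α : Fin r → ℝ} (ha : ∀ j, 0 ≤ a j) (hα : ∀ j, 0 ≤ α j) {z : ℝ} (hz : 0 ≤ z) :
    ∃ x ∈ Set.Icc (0:ℝ) 1, Gf a α z x = 0 := by
  have hc : ContinuousOn (Gf a α z) (Set.Icc (0:ℝ) 1) := by
    unfold Gf
    refine (continuousOn_const.sub continuousOn_id).sub (continuousOn_finsetSum _ fun j _ => ?_)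
    refine continuousOn_const.mul (ContinuousOn.div (by fun_prop) (by fun_prop) fun x hx => ?_)
    have := ha j; have := hx.1; positivity
  refine intermediate_value_Icc' zero_le_one hc ⟨?_, by simp [Gf]⟩
  simp only [Gf, sub_self, zero_sub, neg_nonpos]
  exact Finset.sum_nonneg fun j _ => by have := ha j; have := hα j; positivity

theorem tendsto_mres {a α : Fin r → ℝ} (ha : ∀ j, a j ∈ Set.Icc (0:ℝ) 1) (hα : ∀ j, 0 < α j) {z x : ℝ}
    (hz : 0 ≤ z) (hx : 0 ≤ x) (hroot : Gf a α z x = 0) :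
    Tendsto (fun N : ℕ => ∫ g, (mres z (cs a α N) g - x) ^ 2 ∂pats (Fin N) (∑ j, Ks α N j)) atTop (𝓝 0) := by
  have hc01 : ∀ N k, cs a α N k ∈ Set.Icc (0:ℝ) 1 := fun N k => ha _
  have ha0 : ∀ j, 0 ≤ a j := fun j => (ha j).1
  set e := fun N : ℕ => ∫ g, mres z (cs a α N) g ∂pats (Fin N) (∑ j, Ks α N j)
  have he0 : ∀ N, 0 ≤ e N := fun N => integral_nonneg fun g => (mres_mem hz (fun k => (hc01 N k).1) g).1
  set S := fun N : ℕ => ((∑ j, Ks α N j : ℕ) : ℝ) / N
  have hS : ∀ N, 0 < N → 0 ≤ S N ∧ S N ≤ ∑ j, α j := fun N hN => by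
    refine ⟨by positivity, ?_⟩
    simp only [S]
    rw [div_le_iff₀ (by exact_mod_cast hN), Finset.sum_mul]
    push_cast
    exact Finset.sum_le_sum fun j _ => Nat.floor_le (by have := hα j; positivity)
  have hK : ∀ j, Tendsto (fun N : ℕ => (Ks α N j : ℝ) / N) atTop (𝓝 (α j)) := fun j => tendsto_ratio (hα j).le
  have hse : Tendsto (fun N : ℕ => z * (∑ j, α j) * ((3 + ∑ j, α j) / √(N:ℝ)) +
      ∑ j, |(Ks α N j : ℝ) / N - α j|) atTop (𝓝 0) := by
    have h1 : Tendsto (fun N : ℕ => (3 + ∑ j, α j) / √(N:ℝ)) atTop (𝓝 0) :=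
      tendsto_const_nhds.div_atTop (Real.tendsto_sqrt_atTop.comp tendsto_natCast_atTop_atTop)
    have h2 : Tendsto (fun N : ℕ => ∑ j, |(Ks α N j : ℝ) / N - α j|) atTop (𝓝 0) := by
      simpa using tendsto_finsetSum Finset.univ fun j _ => ((hK j).sub_const (α j)).abs
    simpa using (h1.const_mul (z * ∑ j, α j)).add h2
  set err := fun N : ℕ => z * (∑ j, α j) * ((3 + ∑ j, α j) / √(N:ℝ)) + ∑ j, |(Ks α N j : ℝ) / N - α j|
  have hex : ∀ᶠ N : ℕ in atTop, |e N - x| ≤ err N := by
    filter_upwards [eventually_gt_atTop 0] with N hN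
    refine (Gf_dist ha0 (fun j => (hα j).le) hz (he0 N) hx).trans ?_
    rw [hroot, sub_zero]
    set f := fun j => z * a j * e N / (1 + z * a j * e N)
    have hf : ∀ j, 0 ≤ f j ∧ f j ≤ 1 := fun j => by
      have := ha0 j; have := he0 N
      exact ⟨by positivity, div_le_one_of_le₀ (by linarith) (by positivity)⟩
    have hm := mean_equation hN hz (hc01 N)
    have hfib : ∑ m, z * cs a α N m * e N / (1 + z * cs a α N m * e N) = ∑ j, (Ks α N j : ℝ) * f j := by
      rw [← Finset.sum_fiberwise Finset.univ (can (Ks α N))]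
      refine Finset.sum_congr rfl fun j _ => ?_
      rw [Finset.sum_congr rfl (g := fun _ => f j) fun k hk => by simp only [cs, f, (Finset.mem_filter.1 hk).2],
        Finset.sum_const, nsmul_eq_mul]
      congr 2
      exact cnt_can _ j
    rw [hfib, Finset.sum_div] at hm
    have h1 : |Gf a α z (e N)| ≤ |e N + ∑ j, (Ks α N j : ℝ) * f j / N - 1| + ∑ j, |(Ks α N j : ℝ) / N - α j| := by
      have : Gf a α z (e N) = -(e N + ∑ j, (Ks α N j : ℝ) * f j / N - 1) + ∑ j, ((Ks α N j : ℝ) / N - α j) * f j := by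
        simp only [Gf, f, sub_mul, Finset.sum_sub_distrib, div_mul_eq_mul_div]; ring
      rw [this]
      refine (abs_add_le _ _).trans (add_le_add (abs_neg _).le ((Finset.abs_sum_le_sum_abs _ _).trans
        (Finset.sum_le_sum fun j _ => ?_)))
      rw [abs_mul, abs_of_nonneg (hf j).1]
      exact mul_le_of_le_one_right (abs_nonneg _) (hf j).2
    refine h1.trans (add_le_add (hm.trans ?_) le_rfl)
    obtain ⟨h2, h3⟩ := hS N hN
    show z * S N * ((3 + S N) / √(N:ℝ)) ≤ _
    have hsum : 0 ≤ ∑ j, α j := h2.trans h3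
    exact mul_le_mul (mul_le_mul_of_nonneg_left h3 hz)
      (div_le_div_of_nonneg_right (by linarith) (Real.sqrt_nonneg _)) (by positivity) (mul_nonneg hz hsum)
  have hlim : Tendsto (fun N : ℕ => (∑ j, α j) / (N:ℝ) + err N ^ 2) atTop (𝓝 0) := by
    simpa using ((tendsto_const_nhds (x := ∑ j, α j)).div_atTop tendsto_natCast_atTop_atTop).add (hse.pow 2)
  refine squeeze_zero' (.of_forall fun N => integral_nonneg fun g => sq_nonneg _) ?_ hlim
  filter_upwards [hex, eventually_gt_atTop 0] with N hN hN0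
  have hF := good_mres (N := N) hz (fun k => (hc01 N k).1)
  have g1 : Good fun g => mres z (cs a α N) g - e N := good_sub hF ⟨measurable_const, Poly.const _⟩
  have i1 : Integrable (fun g => (mres z (cs a α N) g - e N) ^ 2) (pats (Fin N) (∑ j, Ks α N j)) :=
    integrable_pats (by simpa [sq] using good_mul g1 g1)
  have i2 : Integrable (fun g => 2 * (e N - x) * (mres z (cs a α N) g - e N)) (pats (Fin N) (∑ j, Ks α N j)) :=
    (integrable_pats g1).const_mul _
  have i12 : Integrable (fun g => (mres z (cs a α N) g - e N) ^ 2 + 2 * (e N - x) * (mres z (cs a α N) g - e N))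
      (pats (Fin N) (∑ j, Ks α N j)) := i1.add i2
  rw [show (fun g => (mres z (cs a α N) g - x) ^ 2) = fun g => (mres z (cs a α N) g - e N) ^ 2 +
      2 * (e N - x) * (mres z (cs a α N) g - e N) + (e N - x) ^ 2 by funext g; ring,
    integral_add i12 (integrable_const _), integral_add i1 i2, integral_const_mul, integral_const,
    integral_sub (integrable_pats hF) (integrable_const _), integral_const]
  simp only [probReal_univ, one_smul, e, sub_self, mul_zero, add_zero]
  refine add_le_add ((var_mres hN0 hz (fun k => (hc01 N k).1)).trans ?_) ?_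
  · have hN' : (0:ℝ) < N := by exact_mod_cast hN0
    rw [show ((∑ j, Ks α N j : ℕ) : ℝ) * (1 / (N:ℝ)) ^ 2 = S N / N by simp only [S]; ring]
    exact div_le_div_of_nonneg_right (hS N hN0).2 hN'.le
  · rw [← sq_abs]; exact pow_le_pow_left₀ (abs_nonneg _) hN 2

lemma mres_eig {z : ℝ} (hz : 0 ≤ z) {c : Fin M → ℝ} {g : Fin M × Fin N → ℝ} {lam : Fin N → ℝ}
    {Q : Matrix (Fin N) (Fin N) ℝ} (hQ : Q ∈ Matrix.orthogonalGroup (Fin N) ℝ) (hl : ∀ i, 0 ≤ lam i)
    (hW : WC c g = Qᵀ * Matrix.diagonal lam * Q) :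
    mres z c (fun m i => g (m, i)) = (∑ i, 1 / (1 + z * lam i)) / N := by
  have hQ1 : Q * Qᵀ = 1 := (Matrix.mem_orthogonalGroup_iff (Fin N) ℝ).1 hQ
  have hQ2 : Qᵀ * Q = 1 := (Matrix.mem_orthogonalGroup_iff' (Fin N) ℝ).1 hQ
  have hsh : sh z c (fun m i => g (m, i)) = 1 + z • WC c g := by
    ext i j
    simp only [sh, WC, XM, Matrix.add_apply, Matrix.smul_apply, Matrix.sum_apply, Matrix.vecMulVec_apply,
      Matrix.mul_apply, Matrix.transpose_apply, Matrix.of_apply, Matrix.diagonal_apply, smul_eq_mul, mul_ite,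
      mul_zero, Finset.sum_ite_eq', Finset.mem_univ, if_true]
    congr 3
    exact Finset.sum_congr rfl fun m _ => by ring
  set e := fun i => 1 / (1 + z * lam i)
  have hinv : (sh z c fun m i => g (m, i))⁻¹ = Qᵀ * Matrix.diagonal e * Q := by
    refine Matrix.inv_eq_right_inv ?_
    rw [hsh, hW]
    calc (1 + z • (Qᵀ * Matrix.diagonal lam * Q)) * (Qᵀ * Matrix.diagonal e * Q)
        = Qᵀ * Matrix.diagonal e * Q + z • (Qᵀ * Matrix.diagonal lam * (Q * Qᵀ) * Matrix.diagonal e * Q) := by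
          rw [Matrix.add_mul, Matrix.one_mul, Matrix.smul_mul]; simp only [Matrix.mul_assoc]
      _ = Qᵀ * (Matrix.diagonal e + z • (Matrix.diagonal lam * Matrix.diagonal e)) * Q := by
          rw [hQ1, Matrix.mul_one, Matrix.mul_add, Matrix.add_mul, Matrix.mul_smul, Matrix.smul_mul]
          simp only [Matrix.mul_assoc]
      _ = 1 := by
          rw [Matrix.diagonal_mul_diagonal, ← Matrix.diagonal_smul, Matrix.diagonal_add,
            show (fun i => e i + (z • fun i => lam i * e i) i) = fun _ => (1:ℝ) by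
              funext i
              have : 0 < 1 + z * lam i := by have := hl i; positivity
              simp only [e, Pi.smul_apply, smul_eq_mul]; field_simp,
            Matrix.diagonal_one, Matrix.mul_one, hQ2]
  rw [mres, hinv, Matrix.trace_mul_comm, ← Matrix.mul_assoc, hQ1, Matrix.one_mul, Matrix.trace_diagonal]

end Vale.Agent.P166.Pattern.Multi
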