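import Vale.Agent.P166.Pattern.Multi.Kernel
import Vale.Agent.P166.Pattern.Multi.Assemble

/-!
Compound Poisson discretisations of a free infinitely divisible law with non-negative jumps, with
bounds that are uniform in the discretisation step.
-/

open MeasureTheory ProbabilityTheory Filter Matrix
open scoped Topology

noncomputable section

namespace Vale.Agent.P166.Pattern.Multi

/-- largest jump at step `n` -/
def An (ρ : Measure ℝ) (δ : ℝ) (n : ℕ) : ℝ := max (sSup ρ.support) (δ / ((n:ℝ) + 1))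

/-- normalised jump sizes at step `n` -/
def an (n : ℕ) (i : Fin (n + 1)) : ℝ := ((i:ℕ) + 1) / ((n:ℝ) + 1)

/-- cell of a point at step `n` -/
def idx (ρ : Measure ℝ) (δ : ℝ) (n : ℕ) (x : ℝ) : Fin (n + 1) :=
  ⟨min n ⌊x * ((n:ℝ) + 1) / An ρ δ n⌋₊, by omega⟩

/-- weights at step `n` -/
def wt (ρ : Measure ℝ) (δ : ℝ) (n : ℕ) (i : Fin (n + 1)) : ℝ :=
  ρ.real (idx ρ δ n ⁻¹' {i}) + 1 / ((n:ℝ) + 1) ^ 2

/-- rates at step `n` -/
def alf (ρ : Measure ℝ) (δ : ℝ) (n : ℕ) (i : Fin (n + 1)) : ℝ := wt ρ δ n i / (An ρ δ n * an n i) ^ 2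

/-- deterministic shift at step `n` -/
def shift (γ : ℝ) (ρ : Measure ℝ) (δ : ℝ) (n : ℕ) : ℝ := γ - ∑ i, alf ρ δ n i * (An ρ δ n * an n i)

/-- kernel at step `n` -/
def Rn (γ : ℝ) (ρ : Measure ℝ) (δ : ℝ) (n : ℕ) (y : ℝ) : ℝ :=
  γ + ∑ i, wt ρ δ n i * (y / (1 - An ρ δ n * an n i * y))

/-- upper edge at step `n` -/
def En (γ : ℝ) (ρ : Measure ℝ) (δ : ℝ) (n : ℕ) : ℝ :=
  An ρ δ n * edge (an n) (alf ρ δ n) + shift γ ρ δ n

/-- total weight bound -/
def RT (ρ : Measure ℝ) : ℝ := ρ.real Set.univ + 1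

/-- uniform upper bound for the edges -/
def Ub (γ : ℝ) (ρ : Measure ℝ) : ℝ :=
  2 * (sSup ρ.support + 1) + (γ + RT ρ / (sSup ρ.support + 1))

/-- uniform bound for the centred form -/
def Bb (γ : ℝ) (ρ : Measure ℝ) : ℝ := max 0 (Ub γ ρ - γ + 2)

/-- exponential rate used for the lower edge -/
def kb (ρ : Measure ℝ) : ℝ := 32 * RT ρ + 1

/-- uniform bound for the spectra -/
def Lb (γ : ℝ) (ρ : Measure ℝ) : ℝ := |Ub γ ρ| + |γ| + (Bb γ ρ + gK + kb ρ) + 1

variable {ρ : Measure ℝ} {A δ : ℝ} {n : ℕ} {γ : ℝ}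

lemma RT_pos : 0 < RT ρ := by unfold RT; positivity

lemma gK_pos : 0 < gK := by
  have := le_max_right (-Real.log ((gaussianReal 0 1).real (Set.Icc (-1) 1))) 1
  unfold gK
  linarith

lemma Lb_ge : Ub γ ρ + 1 ≤ Lb γ ρ := by
  have h1 : 0 ≤ Bb γ ρ := le_max_left _ _
  have h2 : 0 ≤ kb ρ := by have := RT_pos (ρ := ρ); unfold kb; positivity
  have h3 := gK_pos
  have := le_abs_self (Ub γ ρ)
  have := abs_nonneg γ
  unfold Lb
  linarith

lemma An_pos (hδ : 0 < δ) : 0 < An ρ δ n := lt_of_lt_of_le (by positivity) (le_max_right _ _)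

lemma An_ge : sSup ρ.support ≤ An ρ δ n := le_max_left _ _

lemma An_le (h : Carried ρ A) (hδ : 0 < δ) : An ρ δ n ≤ sSup ρ.support + δ / ((n:ℝ) + 1) := by
  have := h.top_nonneg
  have : 0 ≤ δ / ((n:ℝ) + 1) := by positivity
  exact max_le (by linarith) (by linarith)

lemma An_le_one (h : Carried ρ A) (hδ : 0 < δ) (hδ1 : δ ≤ 1) : An ρ δ n ≤ sSup ρ.support + 1 := by
  refine (An_le h hδ).trans (add_le_add le_rfl ((div_le_one (by positivity)).2 ?_))
  have : (0:ℝ) ≤ n := Nat.cast_nonneg n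
  linarith

lemma an_mem (i : Fin (n + 1)) : 0 < an n i ∧ an n i ≤ 1 := by
  have h : ((i:ℕ):ℝ) ≤ n := by exact_mod_cast Nat.lt_succ_iff.1 i.2
  refine ⟨by unfold an; positivity, (div_le_one (by positivity)).2 (by linarith)⟩

lemma aj_mem (hδ : 0 < δ) (i : Fin (n + 1)) : 0 < An ρ δ n * an n i ∧ An ρ δ n * an n i ≤ An ρ δ n :=
  ⟨mul_pos (An_pos hδ) (an_mem i).1, mul_le_of_le_one_right (An_pos hδ).le (an_mem i).2⟩

lemma wt_pos (i : Fin (n + 1)) : 0 < wt ρ δ n i := add_pos_of_nonneg_of_pos measureReal_nonneg (by positivity)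

lemma alf_pos (hδ : 0 < δ) (i : Fin (n + 1)) : 0 < alf ρ δ n i :=
  div_pos (wt_pos i) (pow_pos (aj_mem hδ i).1 2)

lemma alf_sq (hδ : 0 < δ) (i : Fin (n + 1)) : alf ρ δ n i * (An ρ δ n * an n i) ^ 2 = wt ρ δ n i :=
  div_mul_cancel₀ _ (pow_pos (aj_mem hδ i).1 2).ne'

lemma idx_close (hδ : 0 < δ) {x : ℝ} (hx : x ∈ Set.Icc 0 (sSup ρ.support)) :
    |An ρ δ n * an n (idx ρ δ n x) - x| ≤ An ρ δ n / ((n:ℝ) + 1) := by
  have hA := An_pos (ρ := ρ) (n := n) hδ
  set a := An ρ δ n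
  have hn : (0:ℝ) < (n:ℝ) + 1 := by positivity
  set u := x * ((n:ℝ) + 1) / a
  have hu : 0 ≤ u := div_nonneg (mul_nonneg hx.1 hn.le) hA.le
  have hu1 : u ≤ (n:ℝ) + 1 := by
    rw [div_le_iff₀ hA, mul_comm]
    exact mul_le_mul_of_nonneg_left (hx.2.trans An_ge) hn.le
  have hxu : x = a * u / ((n:ℝ) + 1) := by simp only [u]; field_simp
  have e : a * an n (idx ρ δ n x) - x = a / ((n:ℝ) + 1) * (((min n ⌊u⌋₊ : ℕ) : ℝ) + 1 - u) := by
    simp only [an, idx]
    conv_lhs => arg 2; rw [hxu]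
    ring
  rw [e, abs_mul, abs_of_pos (div_pos hA hn)]
  refine mul_le_of_le_one_right (div_pos hA hn).le (abs_le.2 ?_)
  have h1 := Nat.floor_le hu
  have h2 := Nat.lt_floor_add_one u
  rcases le_total n ⌊u⌋₊ with h | h
  · have h3 : (n:ℝ) ≤ ⌊u⌋₊ := by exact_mod_cast h
    rw [min_eq_left h]
    constructor <;> linarith
  · rw [min_eq_right h]
    constructor <;> linarith

lemma measurable_idx : Measurable (idx ρ δ n) := by
  have hm : Measurable fun x : ℝ => min n ⌊x * ((n:ℝ) + 1) / An ρ δ n⌋₊ :=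
    measurable_const.min (Nat.measurable_floor.comp (by fun_prop))
  refine measurable_to_countable' fun i => ?_
  have e : idx ρ δ n ⁻¹' {i} = (fun x : ℝ => min n ⌊x * ((n:ℝ) + 1) / An ρ δ n⌋₊) ⁻¹' {(i:ℕ)} := by
    ext x
    simp [idx, Fin.ext_iff]
  rw [e]
  exact hm (measurableSet_singleton _)

lemma sum_wt [IsFiniteMeasure ρ] (f : Fin (n + 1) → ℝ) :
    ∑ i, wt ρ δ n i * f i = (∫ x, f (idx ρ δ n x) ∂ρ) + 1 / ((n:ℝ) + 1) ^ 2 * ∑ i, f i := by
  rw [← integral_map measurable_idx.aemeasurable (measurable_of_countable f).aestronglyMeasurable,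
    integral_fintype .of_finite, Finset.mul_sum, ← Finset.sum_add_distrib]
  refine Finset.sum_congr rfl fun i _ => ?_
  rw [map_measureReal_apply measurable_idx (measurableSet_singleton i), smul_eq_mul, wt, add_mul]

lemma sum_wt_le [IsFiniteMeasure ρ] : ∑ i, wt ρ δ n i ≤ RT ρ := by
  have h := sum_wt (ρ := ρ) (δ := δ) (n := n) fun _ => (1:ℝ)
  simp only [mul_one, integral_const, smul_eq_mul, Finset.sum_const, Finset.card_univ, Fintype.card_fin,
    nsmul_eq_mul] at h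
  rw [h, RT]
  refine add_le_add le_rfl ?_
  push_cast
  rw [div_mul_eq_mul_div, one_mul, div_le_one (by positivity)]
  have : (0:ℝ) ≤ n := Nat.cast_nonneg n
  nlinarith

lemma Rn_close (h : Carried ρ A) (hδ : 0 < δ) (γ : ℝ) {θ y : ℝ} (hy : 0 < y) (hθ : An ρ δ n * y ≤ θ)
    (hθ1 : θ < 1) :
    |Rn γ ρ δ n y - Rk γ ρ y| ≤
      y * y * An ρ δ n * RT ρ / ((1 - θ) ^ 2 * ((n:ℝ) + 1)) + y / ((1 - θ) * ((n:ℝ) + 1)) := by
  haveI := h.finite
  have hA := An_pos (ρ := ρ) (n := n) hδ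
  set a := An ρ δ n
  have hd : 0 < 1 - θ := sub_pos.2 hθ1
  have hn : (0:ℝ) < (n:ℝ) + 1 := by positivity
  have hden : ∀ i, 1 - θ ≤ 1 - a * an n i * y := fun i => by
    have := mul_le_mul_of_nonneg_right (aj_mem (ρ := ρ) hδ i).2 hy.le
    linarith
  have hxden : ∀ x ∈ Set.Icc 0 (sSup ρ.support), 1 - θ ≤ 1 - x * y := fun x hx => by
    have := mul_le_mul_of_nonneg_right (hx.2.trans (An_ge (ρ := ρ) (δ := δ) (n := n))) hy.le
    linarith
  have i1 : Integrable (fun x => y / (1 - a * an n (idx ρ δ n x) * y)) ρ := by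
    refine Integrable.of_bound ((measurable_of_countable fun i : Fin (n + 1) => y / (1 - a * an n i * y)).comp
      measurable_idx).aestronglyMeasurable (y / (1 - θ)) (.of_forall fun x => ?_)
    rw [Real.norm_eq_abs, abs_of_nonneg (div_nonneg hy.le (hd.le.trans (hden _)))]
    exact div_le_div_of_nonneg_left hy.le hd (hden _)
  have i2 : Integrable (fun x => y / (1 - x * y)) ρ := by
    refine Integrable.of_bound (Measurable.aestronglyMeasurable (by fun_prop)) (y / (1 - θ))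
      (h.ae_top.mono fun x hx => ?_)
    rw [Real.norm_eq_abs, abs_of_nonneg (div_nonneg hy.le (hd.le.trans (hxden x hx)))]
    exact div_le_div_of_nonneg_left hy.le hd (hxden x hx)
  have e : Rn γ ρ δ n y - Rk γ ρ y = (∫ x, (y / (1 - a * an n (idx ρ δ n x) * y) - y / (1 - x * y)) ∂ρ) +
      1 / ((n:ℝ) + 1) ^ 2 * ∑ i, y / (1 - a * an n i * y) := by
    rw [integral_sub i1 i2, Rn, Rk, sum_wt fun i => y / (1 - a * an n i * y)]
    ring
  rw [e]
  refine (abs_add_le _ _).trans (add_le_add ?_ ?_)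
  · rw [← Real.norm_eq_abs]
    refine (norm_integral_le_of_norm_le_const (C := y * y * (a / ((n:ℝ) + 1)) / (1 - θ) ^ 2)
      (h.ae_top.mono fun x hx => ?_)).trans ?_
    · have hp : (1 - θ) ^ 2 ≤ (1 - a * an n (idx ρ δ n x) * y) * (1 - x * y) := by
        rw [sq]; exact mul_le_mul (hden _) (hxden x hx) hd.le (hd.le.trans (hden _))
      rw [Real.norm_eq_abs, div_sub_div _ _ (hd.trans_le (hden _)).ne' (hd.trans_le (hxden x hx)).ne', abs_div,
        abs_of_pos (lt_of_lt_of_le (pow_pos hd 2) hp)]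
      refine div_le_div₀ (by positivity) ?_ (pow_pos hd 2) hp
      rw [show y * (1 - x * y) - (1 - a * an n (idx ρ δ n x) * y) * y =
        y * y * (a * an n (idx ρ δ n x) - x) by ring, abs_mul, abs_of_pos (mul_pos hy hy)]
      exact mul_le_mul_of_nonneg_left (idx_close hδ hx) (by positivity)
    · refine le_trans (mul_le_mul_of_nonneg_left (show ρ.real Set.univ ≤ RT ρ by unfold RT; linarith)
        (by positivity)) (le_of_eq ?_)
      field_simp
  · rw [abs_of_nonneg (mul_nonneg (by positivity) (Finset.sum_nonneg fun i _ =>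
      div_nonneg hy.le (hd.le.trans (hden i))))]
    refine le_trans (mul_le_mul_of_nonneg_left (Finset.sum_le_card_nsmul _ _ (y / (1 - θ)) fun i _ =>
      div_le_div_of_nonneg_left hy.le hd (hden i)) (by positivity)) (le_of_eq ?_)
    simp
    field_simp

/-- the kernels converge locally uniformly -/
theorem Rn_tendsto (h : Carried ρ A) (hδ : 0 < δ) (hδ1 : δ ≤ 1) (γ : ℝ) {y0 : ℝ} (hy : y0 ∈ dom ρ) :
    Tendsto (fun q : ℕ × ℝ => Rn γ ρ δ q.1 q.2) (atTop ×ˢ 𝓝 y0) (𝓝 (Rk γ ρ y0)) := by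
  set A0 := sSup ρ.support
  have hA0 := h.top_nonneg
  set θ := (1 + y0 * A0) / 2
  have hθ1 : θ < 1 := by have := hy.2; simp only [θ]; linarith
  have hθ0 : y0 * A0 < θ := by have := hy.2; simp only [θ]; linarith
  have hn : Tendsto (fun m : ℕ => δ / ((m:ℝ) + 1)) atTop (𝓝 0) :=
    tendsto_const_nhds.div_atTop (tendsto_atTop_add_const_right _ 1 tendsto_natCast_atTop_atTop)
  have h2 : Tendsto (fun q : ℕ × ℝ => (A0 + δ / ((q.1:ℝ) + 1)) * q.2) (atTop ×ˢ 𝓝 y0) (𝓝 (y0 * A0)) := by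
    simpa [mul_comm] using ((hn.comp tendsto_fst).const_add A0).mul (tendsto_snd (f := atTop) (g := 𝓝 y0))
  have hev : ∀ᶠ q : ℕ × ℝ in atTop ×ˢ 𝓝 y0, 0 < q.2 ∧ q.2 ≤ y0 + 1 ∧ An ρ δ q.1 * q.2 ≤ θ := by
    filter_upwards [(tendsto_snd (f := atTop) (g := 𝓝 y0)).eventually (eventually_gt_nhds hy.1),
      (tendsto_snd (f := atTop) (g := 𝓝 y0)).eventually (eventually_le_nhds (show y0 < y0 + 1 by linarith)),
      h2.eventually (eventually_le_nhds hθ0)] with q h1 h1' h3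
    exact ⟨h1, h1', (mul_le_mul_of_nonneg_right (An_le h hδ) h1.le).trans h3⟩
  have hc : Tendsto (fun q : ℕ × ℝ => Rk γ ρ q.2) (atTop ×ˢ 𝓝 y0) (𝓝 (Rk γ ρ y0)) :=
    (analytic_Rk h γ hy).continuousAt.tendsto.comp tendsto_snd
  set C := (y0 + 1) * (y0 + 1) * (A0 + 1) * RT ρ / (1 - θ) ^ 2 + (y0 + 1) / (1 - θ)
  have hb : Tendsto (fun q : ℕ × ℝ => C / ((q.1:ℝ) + 1)) (atTop ×ˢ 𝓝 y0) (𝓝 0) :=
    (tendsto_const_nhds.div_atTop (tendsto_atTop_add_const_right _ 1 tendsto_natCast_atTop_atTop)).comp tendsto_fst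
  have hz : Tendsto (fun q : ℕ × ℝ => Rn γ ρ δ q.1 q.2 - Rk γ ρ q.2) (atTop ×ˢ 𝓝 y0) (𝓝 0) := by
    refine squeeze_zero_norm' (hev.mono fun q hq => ?_) hb
    obtain ⟨q0, q1, q2⟩ := hq
    rw [Real.norm_eq_abs]
    refine (Rn_close h hδ γ q0 q2 hθ1).trans ?_
    have hA1 := An_le_one (n := q.1) h hδ hδ1
    have hd : 0 < 1 - θ := sub_pos.2 hθ1
    have hAp := An_pos (ρ := ρ) (n := q.1) hδ
    have hR := RT_pos (ρ := ρ)
    refine le_trans (add_le_add (div_le_div_of_nonneg_right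
      (show q.2 * q.2 * An ρ δ q.1 * RT ρ ≤ (y0 + 1) * (y0 + 1) * (A0 + 1) * RT ρ by
        gcongr <;> nlinarith [hy.1]) (by positivity))
      (div_le_div_of_nonneg_right q1 (by positivity))) (le_of_eq ?_)
    simp only [C, add_div, div_div]
  simpa using hz.add hc

lemma Rn_le [IsFiniteMeasure ρ] (hδ : 0 < δ) (γ : ℝ) {y : ℝ} (hy : 0 ≤ y) (hyA : An ρ δ n * y ≤ 1 / 2) :
    Rn γ ρ δ n y ≤ γ + 2 * y * RT ρ := by
  refine add_le_add le_rfl (le_trans (Finset.sum_le_sum fun i _ => mul_le_mul_of_nonneg_left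
    (show y / (1 - An ρ δ n * an n i * y) ≤ 2 * y from ?_) (wt_pos i).le) ?_)
  · have := mul_le_mul_of_nonneg_right (aj_mem (ρ := ρ) hδ i).2 hy
    rw [div_le_iff₀ (by linarith)]
    nlinarith
  · rw [← Finset.sum_mul, mul_comm]
    exact mul_le_mul_of_nonneg_left sum_wt_le (by linarith)

lemma term_eq {al a j y : ℝ} (hd : 1 - a * y * j ≠ 0) :
    a * (al * (j / (1 - a * y * j))) - al * (a * j) = al * (a * j) ^ 2 * (y / (1 - a * j * y)) := by
  rw [show 1 - a * j * y = 1 - a * y * j by ring]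
  generalize hD : 1 - a * y * j = D at hd ⊢
  field_simp
  rw [← hD]
  ring

lemma En_le (hδ : 0 < δ) (γ : ℝ) {y : ℝ} (hy : 0 < y) (hyA : An ρ δ n * y < 1) :
    En γ ρ δ n ≤ 1 / y + Rn γ ρ δ n y := by
  have hA := An_pos (ρ := ρ) (n := n) hδ
  have hyj : ∀ i, An ρ δ n * y * an n i < 1 := fun i =>
    lt_of_le_of_lt (mul_le_of_le_one_right (mul_pos hA hy).le (an_mem i).2) hyA
  have hmem : 1 / (An ρ δ n * y) + ∑ i, alf ρ δ n i * (an n i / (1 - An ρ δ n * y * an n i)) ∈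
      edgeSet (an n) (alf ρ δ n) := ⟨An ρ δ n * y, mul_pos hA hy, hyj, rfl⟩
  have h1 := mul_le_mul_of_nonneg_left
    (csInf_le (edgeSet_bdd (fun i => ⟨(an_mem i).1.le, (an_mem i).2⟩) (alf_pos hδ)) hmem) hA.le
  refine (add_le_add h1 le_rfl).trans (le_of_eq ?_)
  rw [mul_add, Rn, shift, Finset.mul_sum, show An ρ δ n * (1 / (An ρ δ n * y)) = 1 / y by field_simp]
  rw [show ∀ u v w : ℝ, u + v + (γ - w) = u + (γ + (v - w)) from fun u v w => by ring, ← Finset.sum_sub_distrib]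
  congr 2
  refine Finset.sum_congr rfl fun i _ => ?_
  rw [← alf_sq hδ i]
  exact term_eq (by linarith [hyj i])

lemma En_le_Ub (h : Carried ρ A) (hδ : 0 < δ) (hδ1 : δ ≤ 1) (γ : ℝ) (n : ℕ) : En γ ρ δ n ≤ Ub γ ρ := by
  haveI := h.finite
  have hA0 := h.top_nonneg
  have hA1 := An_le_one (n := n) h hδ hδ1
  set y := 1 / (2 * (sSup ρ.support + 1))
  have hy : 0 < y := by positivity
  have hyA : An ρ δ n * y ≤ 1 / 2 := by
    rw [mul_one_div, div_le_iff₀ (by positivity)]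
    linarith
  refine (En_le hδ γ hy (by linarith)).trans ((add_le_add le_rfl (Rn_le hδ γ hy.le hyA)).trans (le_of_eq ?_))
  simp only [y, Ub, one_div, inv_inv]
  field_simp

lemma slice {f : ℕ → ℝ → ℝ} {y l : ℝ} (h : Tendsto (fun q : ℕ × ℝ => f q.1 q.2) (atTop ×ˢ 𝓝 y) (𝓝 l)) :
    Tendsto (fun k => f k y) atTop (𝓝 l) :=
  h.comp (tendsto_id.prodMk tendsto_const_nhds)

lemma En_eventually (h : Carried ρ A) (hδ : 0 < δ) (hδ1 : δ ≤ 1) (γ : ℝ) {ε : ℝ} (hε : 0 < ε) :
    ∀ᶠ k in atTop, En γ ρ δ k ≤ edgeR γ ρ + ε := by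
  have hA0 := h.top_nonneg
  have hne : ((fun y => 1 / y + Rk γ ρ y) '' dom ρ).Nonempty := by
    refine Set.Nonempty.image _ ⟨1 / (sSup ρ.support + 1), by positivity, ?_⟩
    rw [one_div_mul_eq_div, div_lt_one (by positivity)]
    linarith
  obtain ⟨_, ⟨y, hy, rfl⟩, hlt⟩ := exists_lt_of_csInf_lt hne
    (show sInf ((fun y => 1 / y + Rk γ ρ y) '' dom ρ) < edgeR γ ρ + ε / 2 by simp only [edgeR]; linarith)
  have hR : Tendsto (fun k : ℕ => Rn γ ρ δ k y) atTop (𝓝 (Rk γ ρ y)) :=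
    slice (f := Rn γ ρ δ) (Rn_tendsto h hδ hδ1 γ hy)
  have hA : Tendsto (fun k : ℕ => (sSup ρ.support + δ / ((k:ℝ) + 1)) * y) atTop (𝓝 (y * sSup ρ.support)) := by
    simpa [mul_comm] using ((tendsto_const_nhds.div_atTop (tendsto_atTop_add_const_right _ 1
      tendsto_natCast_atTop_atTop) : Tendsto (fun k : ℕ => δ / ((k:ℝ) + 1)) atTop (𝓝 0)).const_add
        (sSup ρ.support)).mul_const y
  filter_upwards [hA.eventually (eventually_lt_nhds hy.2),
    hR.eventually (eventually_le_nhds (show Rk γ ρ y < Rk γ ρ y + ε / 2 by linarith))] with k h1 h2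
  have h3 := En_le (n := k) hδ γ hy.1 (lt_of_le_of_lt (mul_le_mul_of_nonneg_right (An_le h hδ) hy.1.le) h1)
  simp only at hlt
  linarith

lemma sum_can {r : ℕ} (K : Fin r → ℕ) (f : Fin r → ℝ) : ∑ m, f (can K m) = ∑ j, (K j : ℝ) * f j := by
  classical
  rw [← Finset.sum_fiberwise Finset.univ (can K)]
  refine Finset.sum_congr rfl fun k _ => ?_
  rw [Finset.sum_congr rfl (g := fun _ => f k) fun m hm => by rw [(Finset.mem_filter.1 hm).2], Finset.sum_const,
    nsmul_eq_mul]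
  congr 2
  exact cnt_can _ k

lemma WC_scale {M N : ℕ} (a : ℝ) (c : Fin M → ℝ) (g : Fin M × Fin N → ℝ) :
    WC (fun m => a * c m) g = a • WC c g := by
  unfold WC
  rw [show (fun m => a * c m) = a • c from rfl, Matrix.diagonal_smul, Matrix.mul_smul, Matrix.smul_mul, smul_comm]

/-- one discretisation step -/
theorem stage (h : Carried ρ A) (hδ : 0 < δ) (hδ1 : δ ≤ 1) (γ : ℝ) (n : ℕ) {β : ℝ} (hβ : 0 ≤ β)
    (hβA : β * An ρ δ n ≤ 1 / 10) :
    ∃ p : ℝ, ∀ ν : ∀ N : ℕ, Measure (Mat N), (∀ N, IsHaarOrthogonal (ν N)) → ∃ X : ∀ N : ℕ, Fin N → ℝ,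
      (∀ᶠ N : ℕ in atTop, ∀ i, |X N i| ≤ Lb γ ρ) ∧
      (∀ ε : ℝ, 0 < ε → ∀ᶠ N : ℕ in atTop, ∀ i, X N i ≤ En γ ρ δ n + ε) ∧
      (∀ w, Lb γ ρ + sSup ρ.support + 2 ≤ w → ∃ y, 0 < y ∧ y ≤ 1 / (w - Lb γ ρ) ∧
        w = 1 / y + Rn γ ρ δ n y ∧ Tendsto (fun N : ℕ => (∑ i, 1 / (w - X N i)) / (N:ℝ)) atTop (𝓝 y)) ∧
      Tendsto (fun N : ℕ => ∫ U, min |pressure β (X N) U - p| 1 ∂ν N) atTop (𝓝 0) := by
  haveI := h.finite
  have hA := An_pos (ρ := ρ) (n := n) hδ
  set a := An ρ δ n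
  set α := alf ρ δ n
  set c0 := shift γ ρ δ n
  have ha' : ∀ j, an n j ∈ Set.Icc (0:ℝ) 1 := fun j => ⟨(an_mem j).1.le, (an_mem j).2⟩
  have hα : ∀ j, 0 < α j := alf_pos hδ
  obtain ⟨p0, hp0⟩ := good_functional (mul_nonneg hβ hA.le) hβA ha' hα
  refine ⟨p0 + β * c0 / 2, fun ν hν => ?_⟩
  obtain ⟨Ψg, hgm, hg01, hglim, hgid⟩ := hp0 ν hν
  set c : ∀ N : ℕ, Fin (∑ j, Ks α N j) → ℝ := fun N m => a * cs (an n) α N m
  have hc0 : ∀ N m, 0 ≤ c N m := fun N m => mul_nonneg hA.le (ha' _).1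
  set k := kb ρ
  set T := Bb γ ρ + gK + k
  have hk0 : 0 ≤ k := by have := RT_pos (ρ := ρ); simp only [k, kb]; positivity
  have hT0 : 0 ≤ T := by
    have : 0 ≤ Bb γ ρ := le_max_left _ _
    have := gK_pos
    simp only [T]
    linarith
  set Ψb := fun (N : ℕ) (g : Fin (∑ j, Ks α N j) × Fin N → ℝ) => min 1 (zfun (c N) g * Real.exp (-(k * N)))
  set Ψ := fun (N : ℕ) (g : Fin (∑ j, Ks α N j) × Fin N → ℝ) => max (Ψg N g) (Ψb N g)
  have hbm : ∀ N, Measurable (Ψb N) := fun N => measurable_const.min ((measurable_zfun (c N)).mul_const _)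
  have hΨm : ∀ N, Measurable (Ψ N) := fun N => (hgm N).max (hbm N)
  have hb0 : ∀ N g, 0 ≤ Ψb N g := fun N g => le_min zero_le_one (mul_nonneg (zfun_nonneg _ _) (Real.exp_pos _).le)
  have hΨ01 : ∀ N g, 0 ≤ Ψ N g ∧ Ψ N g ≤ 1 := fun N g =>
    ⟨(hg01 N g).1.trans (le_max_left _ _), max_le (hg01 N g).2 (min_le_left _ _)⟩
  have hsq : ∀ N : ℕ, ∑ m, c N m ^ 2 ≤ RT ρ * N := fun N => by
    rw [show ∑ m, c N m ^ 2 = ∑ j, (Ks α N j : ℝ) * (a * an n j) ^ 2 from
      sum_can (Ks α N) fun j => (a * an n j) ^ 2]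
    refine le_trans ?_ (mul_le_mul_of_nonneg_right (sum_wt_le (ρ := ρ) (δ := δ) (n := n)) (Nat.cast_nonneg N))
    rw [Finset.sum_mul]
    refine Finset.sum_le_sum fun j _ => ?_
    rw [← alf_sq hδ j]
    calc (Ks α N j : ℝ) * (a * an n j) ^ 2 ≤ α j * N * (a * an n j) ^ 2 :=
          mul_le_mul_of_nonneg_right (Nat.floor_le (by have := hα j; positivity)) (sq_nonneg _)
      _ = _ := by simp only [α, a]; ring
  have hlim : Tendsto (fun N : ℕ => ∫ g, Ψ N g ∂gauss (Fin (∑ j, Ks α N j) × Fin N)) atTop (𝓝 0) := by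
    have hz : Tendsto (fun N : ℕ => ∫ g, Ψg N g ∂gauss (Fin (∑ j, Ks α N j) × Fin N) + Real.exp (-(N:ℝ)))
        atTop (𝓝 0) := by
      simpa using hglim.add (Real.tendsto_exp_neg_atTop_nhds_zero.comp tendsto_natCast_atTop_atTop)
    refine squeeze_zero (fun N => integral_nonneg fun g => (hΨ01 N g).1) (fun N => ?_) hz
    have ib : Integrable (fun g => zfun (c N) g * Real.exp (-(k * N))) (gauss (Fin (∑ j, Ks α N j) × Fin N)) :=
      ((integrable_zintegrand (c N) (hc0 N)).integral_prod_left).mul_const _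
    have ig : Integrable (Ψg N) (gauss (Fin (∑ j, Ks α N j) × Fin N)) :=
      Integrable.of_bound (hgm N).aestronglyMeasurable 1 (.of_forall fun g => by
        rw [Real.norm_eq_abs, abs_of_nonneg (hg01 N g).1]; exact (hg01 N g).2)
    refine (integral_mono_of_nonneg (.of_forall fun g => (hΨ01 N g).1) (ig.add ib) (.of_forall fun g =>
      max_le (le_add_of_nonneg_right (mul_nonneg (zfun_nonneg _ _) (Real.exp_pos _).le))
        ((min_le_right _ _).trans (le_add_of_nonneg_left (hg01 N g).1)))).trans ?_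
    rw [integral_add' ig ib, integral_mul_const]
    refine add_le_add le_rfl (le_trans (mul_le_mul_of_nonneg_right (mean_zfun (hc0 N)) (Real.exp_pos _).le) ?_)
    rw [← Real.exp_add]
    refine Real.exp_le_exp.2 ?_
    have := hsq N
    simp only [k, kb]
    linarith
  obtain ⟨g, lam, hS, hΨ, hdiag⟩ := exists_spec n.succ_pos ha' hα Ψ hΨm hΨ01 hlim
  obtain ⟨μ, hμp, hμ, hsupp, hsup, heq⟩ := exists_law n.succ_pos an_mem hα hS
  set E0 := edge (an n) α
  have hE0 : 0 ≤ E0 := edge_nonneg ha' hα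
  have hae : ∀ᵐ x ∂μ, x ∈ Set.Icc 0 (E0 + 1) := by
    filter_upwards [Measure.support_mem_ae (μ := μ)] with x hx
    exact ⟨(hsupp hx).1, by linarith [(hsupp hx).2]⟩
  have hweak : ∀ f : BoundedContinuousFunction ℝ ℝ,
      Tendsto (fun N : ℕ => (∑ i, f (lam N i)) / (N : ℝ)) atTop (𝓝 (∫ x, f x ∂μ)) :=
    weak_of_moments hae hS.nonneg (hS.top 1 one_pos) fun m => by
      rw [tendsto_iff_ultrafilter]
      intro U hU
      obtain ⟨μ', hμ', hμL, hμeq, hμmom⟩ := exists_cluster ha' hα hS U hU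
      have := hμ'
      rw [moments_unique (fun j => (ha' j).1) (fun j => (hα j).le) hae hμL heq hμeq m]
      exact hμmom m
  set X : ∀ N : ℕ, Fin N → ℝ := fun N i => a * lam N i + c0
  have htop : ∀ ε : ℝ, 0 < ε → ∀ᶠ N : ℕ in atTop, ∀ i, X N i ≤ En γ ρ δ n + ε := fun ε hε => by
    filter_upwards [hS.top (ε / a) (div_pos hε hA)] with N hN i
    have := mul_le_mul_of_nonneg_left (hN i) hA.le
    rw [mul_add, mul_div_cancel₀ _ hA.ne'] at this
    simp only [X, En]
    linarith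
  have hEU := En_le_Ub h hδ hδ1 γ n
  refine ⟨X, ?_, htop, fun w hw => ?_, ?_⟩
  · have hΨb : Tendsto (fun N => Ψb N (g N)) atTop (𝓝 0) :=
      squeeze_zero (fun N => hb0 N _) (fun N => le_max_right _ _) hΨ
    have hsmall : ∀ᶠ N : ℕ in atTop, (∑ j, a * an n j) / (N:ℝ) ≤ 1 :=
      (tendsto_const_nhds.div_atTop tendsto_natCast_atTop_atTop).eventually (eventually_le_nhds one_pos)
    filter_upwards [htop 1 one_pos, hΨb.eventually (eventually_lt_nhds one_pos), hsmall, eventually_gt_atTop 0]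
      with N hN hΨN hs hN0 i
    have hN' : (0:ℝ) < N := by exact_mod_cast hN0
    have hub : X N i ≤ Ub γ ρ + 1 := (hN i).trans (by linarith)
    have hL := Lb_ge (γ := γ) (ρ := ρ)
    refine abs_le.2 ⟨?_, hub.trans hL⟩
    by_contra hlo
    push Not at hlo
    set κ := (∑ m, c N m) / (N:ℝ)
    set S := ∑ j, α j * (a * an n j)
    have hκ : S - 1 ≤ κ := by
      have e : ∑ m, c N m = ∑ j, (Ks α N j : ℝ) * (a * an n j) := sum_can (Ks α N) fun j => a * an n j
      have h1 : ∀ j, α j * (N:ℝ) * (a * an n j) - a * an n j ≤ (Ks α N j : ℝ) * (a * an n j) := fun j => by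
        have h2 := (Nat.lt_floor_add_one (α j * (N:ℝ))).le
        have h3 := mul_le_mul_of_nonneg_right h2 (aj_mem (ρ := ρ) hδ j).1.le
        simp only [Ks]
        linarith
      have h4 := Finset.sum_le_sum fun j (_ : j ∈ Finset.univ) => h1 j
      rw [Finset.sum_sub_distrib, ← e] at h4
      rw [div_le_iff₀ hN'] at hs
      simp only [κ]
      rw [le_div_iff₀ hN', sub_mul, one_mul, Finset.sum_mul]
      have e2 : ∑ j, α j * (a * an n j) * (N:ℝ) = ∑ j, α j * (N:ℝ) * (a * an n j) :=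
        Finset.sum_congr rfl fun j _ => by ring
      linarith
    have hXκ : ∀ j, a * lam N j - κ ≤ X N j - γ + 1 := fun j => by
      simp only [X, c0, shift]
      linarith
    obtain ⟨Q, hQ, hW⟩ := hdiag N
    have hW' : WC (c N) (g N) = Qᵀ * Matrix.diagonal (fun j => a * lam N j) * Q := by
      rw [WC_scale, hW, show (fun j => a * lam N j) = a • lam N from rfl, Matrix.diagonal_smul, Matrix.mul_smul,
        Matrix.smul_mul]
    have hbig := zfun_lower (hc0 N) hQ hW' (B := Bb γ ρ) (T := T) (le_max_left _ _) hT0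
      (fun j => (hXκ j).trans ((show X N j - γ + 1 ≤ Ub γ ρ - γ + 2 by linarith [hN j]).trans (le_max_right _ _)))
      (i0 := i) (by
        have := hXκ i
        have := le_abs_self γ
        have := neg_abs_le γ
        have := abs_nonneg (Ub γ ρ)
        simp only [Lb] at hlo
        simp only [T, k] at *
        linarith)
    have h1 : Real.exp (k * N) ≤ zfun (c N) (g N) := by
      refine le_trans (Real.exp_le_exp.2 (le_of_eq ?_)) hbig
      simp only [T]
      ring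
    have h2 : 1 ≤ zfun (c N) (g N) * Real.exp (-(k * N)) := by
      rw [Real.exp_neg, ← div_eq_mul_inv, one_le_div (Real.exp_pos _)]
      exact h1
    simp only [Ψb, min_eq_left h2] at hΨN
    exact lt_irrefl _ hΨN
  · have hL := Lb_ge (γ := γ) (ρ := ρ)
    have hA0 := h.top_nonneg
    have hA1 := An_le_one (n := n) h hδ hδ1
    set t := (w - c0) / a
    set s := E0 + 1 / (2 * a)
    have ha2 : 0 < 1 / (2 * a) := by positivity
    have hs : 0 < s := by linarith
    have hEn : En γ ρ δ n = a * E0 + c0 := rfl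
    have hts : E0 + 1 / a ≤ t := by
      rw [le_div_iff₀ hA, add_mul, div_mul_cancel₀ _ hA.ne']
      linarith
    have hst : s < t := by
      have : 1 / (2 * a) < 1 / a := one_div_lt_one_div_of_lt hA (by linarith)
      linarith
    have hμs : ∀ᵐ x ∂μ, x ∈ Set.Icc 0 s := by
      filter_upwards [Measure.support_mem_ae (μ := μ)] with x hx
      exact ⟨(hsupp hx).1, by linarith [(hsupp hx).2]⟩
    obtain ⟨hy', hy'a, hteq⟩ := eq_above n.succ_pos an_mem hα hs hμs heq hst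
    set y' := ∫ x, 1 / (t - x) ∂μ
    have hden : ∀ x, 1 / (2 * a) ≤ t - min x s := fun x => by
      have := min_le_right x s
      have : 1 / a = 1 / (2 * a) + 1 / (2 * a) := by field_simp; ring
      linarith
    set f : BoundedContinuousFunction ℝ ℝ := BoundedContinuousFunction.ofNormedAddCommGroup
      (fun x => 1 / (t - min x s)) (continuous_const.div (by fun_prop) fun x => (ha2.trans_le (hden x)).ne')
      (1 / (1 / (2 * a))) (fun x => by
        rw [Real.norm_eq_abs, abs_of_pos (one_div_pos.2 (ha2.trans_le (hden x)))]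
        exact one_div_le_one_div_of_le ha2 (hden x))
    have hfy : ∫ x, f x ∂μ = y' :=
      integral_congr_ae (hμs.mono fun x hx => show 1 / (t - min x s) = 1 / (t - x) by rw [min_eq_left hx.2])
    refine ⟨y' / a, div_pos hy' hA, ?_, ?_, ?_⟩
    · have hwE : 0 < w - En γ ρ δ n := by linarith
      have h1 : y' ≤ 1 / (t - E0) := by
        have ht0 : 0 < t - E0 := by linarith
        calc y' ≤ ∫ _x, 1 / (t - E0) ∂μ := by
              refine integral_mono_of_nonneg (hμs.mono fun x hx => one_div_nonneg.2 (by linarith [hx.2]))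
                (integrable_const _) ?_
              filter_upwards [Measure.support_mem_ae (μ := μ)] with x hx
              exact one_div_le_one_div_of_le ht0 (by linarith [(hsupp hx).2])
          _ = _ := by simp
      have e : 1 / (t - E0) = a / (w - En γ ρ δ n) := by
        rw [hEn, show w - (a * E0 + c0) = a * (t - E0) by simp only [t]; field_simp; ring]
        field_simp
      rw [div_le_iff₀ hA]
      refine h1.trans (e.le.trans ?_)
      rw [one_div_mul_eq_div]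
      exact div_le_div_of_nonneg_left hA.le (by linarith) (by linarith)
    · have hta : w = a * t + c0 := by simp only [t]; field_simp; ring
      rw [hta, hteq, mul_add, Finset.mul_sum, one_div_div, Rn, mul_one_div,
        show c0 = γ - ∑ i, α i * (a * an n i) from rfl]
      rw [show ∀ u v w : ℝ, u + v + (γ - w) = u + (γ + (v - w)) from fun u v w => by ring, ← Finset.sum_sub_distrib]
      congr 2
      refine Finset.sum_congr rfl fun i _ => ?_
      rw [← alf_sq hδ i]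
      have e : y' = a * (y' / a) := by field_simp
      conv_lhs => rw [e]
      exact term_eq (by rw [← e]; linarith [hy'a i])
    · have hlimf := ((hfy ▸ hweak f).div_const a)
      refine hlimf.congr' ?_
      filter_upwards [hS.top (1 / (2 * a)) ha2] with N hN
      rw [div_right_comm, Finset.sum_div]
      congr 1
      refine Finset.sum_congr rfl fun i _ => ?_
      show 1 / (t - min (lam N i) s) / a = 1 / (w - X N i)
      rw [min_eq_left (hN i), div_div]
      congr 1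
      simp only [X, t]
      field_simp
      ring
  · have hΨg : Tendsto (fun N => Ψg N (g N)) atTop (𝓝 0) :=
      squeeze_zero (fun N => (hg01 N _).1) (fun N => le_max_left _ _) hΨ
    refine hΨg.congr' ?_
    filter_upwards [eventually_gt_atTop 0] with N hN
    obtain ⟨Q, hQ, hW⟩ := hdiag N
    rw [← hgid N (g N) (lam N) Q hQ hW]
    refine integral_congr_ae ((hν N).2.1.mono fun U hU => ?_)
    simp only [X, pressure_shift hN β c0 (fun i => a * lam N i) hU, pressure_scale]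
    congr 2
    ring

end Vale.Agent.P166.Pattern.Multi
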